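import Vale.Agent.P148.R2.H400.Flip4

/-!
# Doors (helper316): capture without any recolouring of the explored set

`T1` is the contraction of `T` with one nontrivial fibre, the one of `O`; `E` is a set of explored
vertices in this fibre, with colours `ω`; all the other vertices, those of the fibre included, have
fresh colours `τ`.  An excursion of the world `T1` whose footprint contains all the boundary darts
with real tail off `E` is closed by a chain in `E` as soon as a white walk off `E` joins a white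
explored vertex of `arch` to the vertices explored by the excursion.
-/

namespace Vale.Agent.P148.R2.H400

open Function Vale.Agent.P148.R2.H258 Vale.Agent.P148.R2.H871 Vale.Agent.P148.R2.H838

variable {V V1 D : Type*} {T : Tri V D} {T1 : Tri V1 D} {π : V → V1}

/-! ### the last dart of an excursion -/

/-- The last dart of the excursion of `d`. -/
noncomputable def lst [Finite D] (T : Tri V D) (σ : V → Bool) (d : D) : D :=
  (T.st σ)^[ret T σ d - 1] d

theorem lst_rel [Finite D] (hP : T.Planar) {σ : V → Bool} {d : D} (hd : Start T σ d) :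
    T.Rel σ d (lst T σ d) := (ret_spec T σ d).last_mem hP hd.1 hd.2

theorem lst_apex [Finite D] (hP : T.Planar) {σ : V → Bool} {d : D} (hd : Start T σ d) :
    T.apex (lst T σ d) = T.src d := by
  have h1 := (lst_rel hP hd).2.1
  have h2 := (ret_spec T σ d).2.1
  have h3 := (ret_spec T σ d).1
  have h4 : (T.st σ)^[ret T σ d] d = T.st σ (lst T σ d) := by
    unfold lst
    rw [← comp_apply (f := T.st σ), ← iterate_succ', Nat.succ_eq_add_one, Nat.sub_add_cancel h3]
  rw [h4, T.src_st_mi h1] at h2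
  exact h2

theorem lst_congr [Finite D] {σ σ' : V → Bool} {d : D} (hσ : ∀ v ∈ Ex T d σ, σ' v = σ v) :
    lst T σ' d = lst T σ d := by
  unfold lst
  rw [ret_congr hσ]
  exact iter_congr T hσ _ (by omega)

/-! ### composite colourings -/

open Classical in
/-- The colouring of the contracted world. -/
noncomputable def s1 (sec : V1 → V) (O : V1) (τ : V → Bool) : V1 → Bool :=
  fun v => if v = O then true else τ (sec v)

theorem s1_O (sec : V1 → V) (O : V1) (τ : V → Bool) : s1 sec O τ O = true := by simp [s1]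

/-- The vertices of `T` explored by the excursion of `d`. -/
def ExT [Finite D] (T1 : Tri V1 D) (π : V → V1) (sec : V1 → V) (O : V1) (d : D) (τ : V → Bool) :
    Set V := {v | π v ≠ O ∧ π v ∈ Ex T1 d (s1 sec O τ)}

/-- The geometric data. -/
structure DoorGeo (T : Tri V D) (T1 : Tri V1 D) (π : V → V1) (sec : V1 → V) (O : V1)
    (E arch : Set V) (ω : V → Bool) : Prop where
  planar : T.Planar
  planar1 : T1.Planar
  contr : Contr T T1 π
  sec : ∀ v, π v ≠ O → sec (π v) = v
  fib : ∀ v ∈ E, π v = O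
  noloop : ∀ f, T1.src f ≠ O → T1.tgt f ≠ T1.src f
  arch_sub : arch ⊆ E
  arch_col : ∀ a ∈ arch, ω a = false
  arch_adj : ∀ e, T.src e ∈ arch → π (T.tgt e) = O

/-- The boundary darts with real tail off `E`. -/
def BJ (T : Tri V D) (T1 : Tri V1 D) (O : V1) (E : Set V) : Set D :=
  {b | OutD T1 O b ∧ T.src b ∉ E}

/-- A door: a white walk off `E` from a vertex of `arch` to `A`. -/
def Door (T : Tri V D) (E A arch : Set V) (τ : V → Bool) : Prop :=
  ∃ a ∈ arch, ∃ w ∈ A, ∃ q, T.Walk a w q ∧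
    ∀ e ∈ q, T.tgt e ∉ E ∧ (T.tgt e ∉ A → τ (T.tgt e) = false)

section geo

variable {sec : V1 → V} {O : V1} {E arch : Set V} {ω : V → Bool}

theorem DoorGeo.inj (h : DoorGeo T T1 π sec O E arch ω) : InjOff π O := by
  intro v w h1 h2
  rw [← h.sec v h2, h1, h.sec w (by rw [← h1]; exact h2)]

theorem DoorGeo.col1 (h : DoorGeo T T1 π sec O E arch ω) {τ : V → Bool} {v : V} (hv : π v ≠ O) :
    s1 sec O τ (π v) = τ v := by
  unfold s1
  rw [if_neg hv, h.sec v hv]

theorem DoorGeo.not_mem (h : DoorGeo T T1 π sec O E arch ω) {v : V} (hv : π v ≠ O) : v ∉ E :=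
  fun h1 => hv (h.fib v h1)

theorem DoorGeo.col (h : DoorGeo T T1 π sec O E arch ω) {τ : V → Bool} {v : V} (hv : π v ≠ O) :
    mix E ω τ v = s1 sec O τ (π v) := by
  rw [h.col1 hv, mix_not_mem (h.not_mem hv)]

theorem DoorGeo.s1_congr [Finite D] (h : DoorGeo T T1 π sec O E arch ω) {d : D}
    {τ τ' : V → Bool} (hτ : ∀ v ∈ ExT T1 π sec O d τ, τ' v = τ v) :
    ∀ v ∈ Ex T1 d (s1 sec O τ), s1 sec O τ' v = s1 sec O τ v := by
  intro v hv
  by_cases hO : v = O
  · rw [hO, s1_O, s1_O]
  · obtain ⟨w, rfl⟩ : ∃ w, v = π w := by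
      obtain ⟨i, -, h1 | h1⟩ := hv
      · exact ⟨_, by rw [← h1, h.contr.src]⟩
      · exact ⟨_, by rw [← h1, h.contr.tgt]⟩
    rw [h.col1 hO, h.col1 hO]
    exact hτ w ⟨hO, hv⟩

theorem DoorGeo.exT_congr [Finite D] (h : DoorGeo T T1 π sec O E arch ω) (d : D)
    (τ τ' : V → Bool) (hτ : ∀ v ∈ ExT T1 π sec O d τ, τ' v = τ v) :
    ExT T1 π sec O d τ' = ExT T1 π sec O d τ := by
  unfold ExT
  rw [ex_congr d _ _ (h.s1_congr hτ)]

/-- White walks of the contracted world lift. -/
theorem DoorGeo.lift (h : DoorGeo T T1 π sec O E arch ω) {τ : V → Bool} {a b : V}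
    (hj : Joined T1 (s1 sec O τ) false Set.univ (π a) (π b)) :
    Joined T (mix E ω τ) false Set.univ a b := by
  have hne : ∀ v, s1 sec O τ v = false → v ≠ O := by
    rintro v hv rfl
    rw [s1_O] at hv
    exact absurd hv (by decide)
  obtain ⟨-, h1, l, hl, h2⟩ := hj
  refine ⟨Set.mem_univ _, ?_, l, lift_walk h.contr h.inj hl ?_ rfl rfl (hne _ h1), ?_⟩
  · rw [h.col (hne _ h1)]; exact h1
  · intro e he
    exact ⟨hne _ (h2 e he).1.1, hne _ (h2 e he).2.1⟩
  · intro e he
    have h3 := (h2 e he).1.1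
    have h4 := (h2 e he).2.1
    have h5 := hne _ h3
    have h6 := hne _ h4
    rw [h.contr.src] at h3 h5
    rw [h.contr.tgt] at h4 h6
    exact ⟨⟨by rw [h.col h5]; exact h3, Set.mem_univ _⟩, by rw [h.col h6]; exact h4,
      Set.mem_univ _⟩

variable {τ : V → Bool} {d : D}

theorem Start.tgt_false [Finite D] (hs : T1.src d = O) (hd : Start T1 (s1 sec O τ) d) :
    s1 sec O τ (T1.tgt d) = false := by
  have h1 := hd.1.1
  rw [hs, s1_O] at h1
  revert h1
  generalize s1 sec O τ (T1.tgt d) = x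
  cases x <;> simp

/-- A walk off `O` from a dart of `BJ`, white as long as it is not explored, meeting the explored
vertices, joins the base to the white side. -/
theorem DoorGeo.side [Finite D] (h : DoorGeo T T1 π sec O E arch ω) (hs : T1.src d = O)
    (hd : Start T1 (s1 sec O τ) d) (hF : Facing T1 (BJ T T1 O E) (s1 sec O τ) d) {b : D}
    (hb : b ∈ BJ T T1 O E) {w : V1} {q : List D} (hq : T1.Walk (T1.tgt b) w q)
    (hw : w ∈ Ex T1 d (s1 sec O τ)) (hO : ∀ e ∈ q, T1.tgt e ≠ O)
    (hcol : ∀ v, (v = T1.tgt b ∨ ∃ e ∈ q, T1.src e = v) → v ∉ Ex T1 d (s1 sec O τ) →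
      s1 sec O τ v = false) :
    Joined T (mix E ω τ) false Set.univ (T.tgt d) (T.tgt b) := by
  have h0 := hd.tgt_false hs
  obtain ⟨j, rfl, h1, h2⟩ := hF b hb
  have h3 := side_join h.planar1 hd.1 hd.2 (ret_spec T1 _ d)
    (by rw [hs]; exact h.noloop) h1 h2 hq hw (by rw [hs]; exact hO)
    (by rw [h0]; exact hcol)
  rw [h0] at h3
  apply h.lift
  rw [← h.contr.tgt, ← h.contr.tgt]
  exact h3

theorem DoorGeo.aux [Finite D] (h : DoorGeo T T1 π sec O E arch ω) (hs : T1.src d = O)
    (hd : Start T1 (s1 sec O τ) d) (hF : Facing T1 (BJ T T1 O E) (s1 sec O τ) d) {a u w : V}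
    {q : List D} (hq : T.Walk u w q) (hw : w ∈ ExT T1 π sec O d τ)
    (hc : ∀ e ∈ q, T.tgt e ∉ E ∧ (T.tgt e ∉ ExT T1 π sec O d τ → τ (T.tgt e) = false)) :
    (π u = O → Joined T (mix E ω τ) false Set.univ a u → (u ∉ E ∨ u ∈ arch) →
      Joined T (mix E ω τ) false Set.univ a (T.tgt d)) ∧
    (π u ≠ O → u ∉ ExT T1 π sec O d τ → Joined T (mix E ω τ) false Set.univ a u →
      (∃ b ∈ BJ T T1 O E, ∃ q0, T1.Walk (T1.tgt b) (π u) q0 ∧ (∀ e ∈ q0, T1.tgt e ≠ O) ∧
        (∀ v, (v = T1.tgt b ∨ ∃ e ∈ q0, T1.src e = v) → v ∉ Ex T1 d (s1 sec O τ) →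
          s1 sec O τ v = false) ∧ Joined T (mix E ω τ) false Set.univ a (T.tgt b)) →
      Joined T (mix E ω τ) false Set.univ a (T.tgt d)) := by
  induction hq with
  | nil v => exact ⟨fun h1 => absurd h1 hw.1, fun _ h1 => absurd hw h1⟩
  | cons e w q _ ih =>
    have ih' := ih hw (fun e' he' => hc e' (List.mem_cons_of_mem _ he'))
    obtain ⟨hE, hcol⟩ := hc e (by simp)
    -- a white step
    have hstep : T.tgt e ∉ ExT T1 π sec O d τ →
        Joined T (mix E ω τ) false Set.univ a (T.src e) →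
        Joined T (mix E ω τ) false Set.univ a (T.tgt e) := by
      intro h1 h2
      have h3 : mix E ω τ (T.tgt e) = false := by rw [mix_not_mem hE]; exact hcol h1
      exact h2.trans (Joined.cons (g := e) rfl rfl (Set.mem_univ _) h2.right.2
        (H838.Joined.refl (Set.mem_univ _) h3))
    constructor
    · intro hu hj hor
      by_cases hv : π (T.tgt e) = O
      · have hA : T.tgt e ∉ ExT T1 π sec O d τ := fun h1 => h1.1 hv
        exact ih'.1 hv (hstep hA hj) (Or.inl hE)
      · have hsE : T.src e ∉ E := by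
          rcases hor with h1 | h1
          · exact h1
          · exact absurd (h.arch_adj e h1) hv
        have hb : e ∈ BJ T T1 O E :=
          ⟨⟨by rw [h.contr.src]; exact hu, by rw [h.contr.tgt]; exact hv⟩, hsE⟩
        by_cases hA : T.tgt e ∈ ExT T1 π sec O d τ
        · have h1 := h.side hs hd hF hb (Tri.Walk.nil (T1.tgt e))
            (by rw [h.contr.tgt]; exact hA.2) (by simp)
            (by
              intro v hv1 hv2
              rcases hv1 with rfl | ⟨e', he', -⟩
              · exact absurd (by rw [h.contr.tgt]; exact hA.2) hv2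
              · simp at he')
          have h2 : Joined T (mix E ω τ) false Set.univ (T.src e) (T.tgt d) :=
            Joined.cons (g := e) rfl rfl (Set.mem_univ _) hj.right.2 h1.symm
          exact hj.trans h2
        · refine ih'.2 hv hA (hstep hA hj) ⟨e, hb, [], ?_, by simp, ?_, hstep hA hj⟩
          · rw [← h.contr.tgt]; exact Tri.Walk.nil _
          · intro v hv1 _
            rcases hv1 with rfl | ⟨e', he', -⟩
            · rw [h.contr.tgt, h.col1 hv]; exact hcol hA
            · simp at he'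
    · rintro hu huA hj ⟨b, hb, q0, hq0, hO0, hc0, hjb⟩
      have hq1 : T1.Walk (T1.tgt b) (T1.tgt e) (q0 ++ [e]) := by
        refine hq0.append ?_
        have := Tri.Walk.single (T := T1) e
        rwa [h.contr.src] at this
      have hcu : s1 sec O τ (π (T.src e)) = false := by
        rw [← h.col hu]; exact hj.right.2
      have hc1 : ∀ v, (v = T1.tgt b ∨ ∃ e' ∈ q0 ++ [e], T1.src e' = v) →
          v ∉ Ex T1 d (s1 sec O τ) → s1 sec O τ v = false := by
        rintro v (rfl | ⟨e', he', rfl⟩) hv2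
        · exact hc0 _ (Or.inl rfl) hv2
        · rw [List.mem_append, List.mem_singleton] at he'
          rcases he' with he' | rfl
          · exact hc0 _ (Or.inr ⟨e', he', rfl⟩) hv2
          · rw [h.contr.src]; exact hcu
      by_cases hA : T.tgt e ∈ ExT T1 π sec O d τ
      · have h1 := h.side hs hd hF hb hq1 (by rw [h.contr.tgt]; exact hA.2)
          (by
            intro e' he'
            rw [List.mem_append, List.mem_singleton] at he'
            rcases he' with he' | rfl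
            · exact hO0 e' he'
            · rw [h.contr.tgt]; exact hA.1) hc1
        exact hjb.trans h1.symm
      · by_cases hv : π (T.tgt e) = O
        · exact ih'.1 hv (hstep hA hj) (Or.inl hE)
        · refine ih'.2 hv hA (hstep hA hj) ⟨b, hb, q0 ++ [e], ?_, ?_, hc1, hjb⟩
          · rw [← h.contr.tgt]; exact hq1
          · intro e' he'
            rw [List.mem_append, List.mem_singleton] at he'
            rcases he' with he' | rfl
            · exact hO0 e' he'
            · rw [h.contr.tgt]; exact hv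

/-- **Door lemma.** -/
theorem DoorGeo.join [Finite D] (h : DoorGeo T T1 π sec O E arch ω) (hs : T1.src d = O)
    (hd : Start T1 (s1 sec O τ) d) (hF : Facing T1 (BJ T T1 O E) (s1 sec O τ) d)
    (hD : Door T E (ExT T1 π sec O d τ) arch τ) :
    ∃ a ∈ arch, Joined T (mix E ω τ) false Set.univ a (T.tgt d) := by
  obtain ⟨a, ha, w, hw, q, hq, hc⟩ := hD
  refine ⟨a, ha, (h.aux hs hd hF hq hw hc).1 (h.fib a (h.arch_sub ha)) ?_ (Or.inr ha)⟩
  apply H838.Joined.refl (Set.mem_univ _)
  rw [mix_mem (h.arch_sub ha)]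
  exact h.arch_col a ha

/-- The closing chain of the pair (`d`, `g`). -/
structure Closing (T : Tri V D) (E arch : Set V) (ω : V → Bool) (d g : D) (H : List D) : Prop where
  x : T.src d ∈ E ∧ ω (T.src d) = true
  y : T.apex g ∈ E ∧ ω (T.apex g) = true
  chain : List.IsChain (fun a b => T.src b = T.apex a) (g :: H ++ [d])
  nodup : (H.map T.src).Nodup
  notmem : T.src d ∉ H.map T.src
  msrc : ∀ e ∈ H, T.src e ∈ E ∧ ω (T.src e) = true
  mapex : ∀ e ∈ H, T.apex e ∈ E ∧ ω (T.apex e) = true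
  mtgt : ∀ e ∈ H, T.tgt e ∈ E ∧ ω (T.tgt e) = false
  joined : ∀ a ∈ arch, ∀ e ∈ H, Joined T ω false E a (T.tgt e)

theorem DoorGeo.captured [Finite D] (h : DoorGeo T T1 π sec O E arch ω) (hs : T1.src d = O)
    (hd : Start T1 (s1 sec O τ) d) (hF : Facing T1 (BJ T T1 O E) (s1 sec O τ) d)
    (hD : Door T E (ExT T1 π sec O d τ) arch τ) {H : List D}
    (hH : Closing T E arch ω d (lst T1 (s1 sec O τ) d) H) :
    Captured T T1 π O (s1 sec O τ) (mix E ω τ) d (lst T1 (s1 sec O τ) d) H := by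
  have hmE : ∀ v ∈ E, mix E ω τ v = ω v := fun v hv => mix_mem hv
  have htd := hd.tgt_false hs
  have htdO : T1.tgt d ≠ O := by
    intro h1; rw [h1, s1_O] at htd; exact absurd htd (by decide)
  have hctd : mix E ω τ (T.tgt d) = false := by
    rw [h.contr.tgt] at htd htdO
    rw [h.col htdO]; exact htd
  refine ⟨h.inj, fun v hv => h.col hv, lst_rel h.planar1 hd, hs, by rw [← hs]; exact hd.2,
    (lst_apex h.planar1 hd).trans hs, ?_, ?_, ?_, fun e he => h.fib _ (hH.msrc e he).1, hH.nodup,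
    hH.notmem, hH.chain, ?_⟩
  · rw [s1_O, hmE _ hH.x.1]; exact hH.x.2
  · rw [s1_O, hmE _ hH.y.1]; exact hH.y.2
  · intro e he
    refine ⟨?_, ?_⟩
    · rw [hmE _ (hH.msrc e he).1, hmE _ (hH.mtgt e he).1, (hH.msrc e he).2, (hH.mtgt e he).2]
      decide
    · rw [hmE _ (hH.msrc e he).1, hmE _ (hH.mapex e he).1, (hH.msrc e he).2, (hH.mapex e he).2]
  · intro e he
    obtain ⟨a, ha, hj⟩ := h.join hs hd hF hD
    have h1 : Joined T (mix E ω τ) false Set.univ a (T.tgt e) :=
      ((hH.joined a ha e he).congr hmE).mono (Set.subset_univ _)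
    obtain ⟨-, -, l, hl, hl2⟩ := hj.symm.trans h1
    rw [hctd]
    exact ⟨l, hl, fun g hg => ⟨(hl2 g hg).1.1, (hl2 g hg).2.1⟩⟩

end geo

/-! ### averaged form -/

section avg

variable {sec : V1 → V} {O : V1} {E arch : Set V} {ω : V → Bool} {G : (V1 → Bool) → D → Prop}

/-- The excursions which are counted. -/
def Cnt [Finite D] (T : Tri V D) (T1 : Tri V1 D) (sec : V1 → V) (O : V1) (E : Set V)
    (G : (V1 → Bool) → D → Prop) (τ : V → Bool) (d : D) : Prop :=
  T1.src d = O ∧ Start T1 (s1 sec O τ) d ∧ Facing T1 (BJ T T1 O E) (s1 sec O τ) d ∧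
    G (s1 sec O τ) d

theorem DoorGeo.cnt_congr [Finite D] (h : DoorGeo T T1 π sec O E arch ω)
    (hG : ∀ d σ σ', T1.src d = O → (∀ v ∈ Ex T1 d σ, σ' v = σ v) → G σ d → G σ' d) {d : D}
    {τ τ' : V → Bool} (hτ : ∀ v ∈ ExT T1 π sec O d τ, τ' v = τ v)
    (hc : Cnt T T1 sec O E G τ d) : Cnt T T1 sec O E G τ' d := by
  have h1 := h.s1_congr hτ
  obtain ⟨a1, a2, a3, a4⟩ := hc
  exact ⟨a1, start_congr h1 a2, facing_congr h.planar1 a2 h1 a3, hG d _ _ a1 h1 a4⟩

open Classical in
/-- The explored value of an excursion, corrected by its closing chain. -/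
noncomputable def cval [Fintype D] (T : Tri V D) (T1 : Tri V1 D) (sec : V1 → V) (O : V1)
    (E : Set V) (G : (V1 → Bool) → D → Prop) (H : D → D → List D) (Θ : D → ℂ) (τ : V → Bool)
    (d : D) : ℝ :=
  if Cnt T T1 sec O E G τ d then
    ‖T1.cls (s1 sec O τ) d Θ + ((H d (lst T1 (s1 sec O τ) d)).map Θ).sum‖ ^ 2 else 0

open Classical in
/-- **Doors, averaged, one starting dart.** -/
theorem DoorGeo.lower [Fintype V] [Fintype D] (h : DoorGeo T T1 π sec O E arch ω)
    (hG : ∀ d σ σ', T1.src d = O → (∀ v ∈ Ex T1 d σ, σ' v = σ v) → G σ d → G σ' d)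
    {H : D → D → List D} (d : D)
    (hH : ∀ τ, Cnt T T1 sec O E G τ d →
      Closing T E arch ω d (lst T1 (s1 sec O τ) d) (H d (lst T1 (s1 sec O τ) d))) (Θ : D → ℂ)
    {c : ℝ} (hc : ∀ τ, Cnt T T1 sec O E G τ d → c ≤ pr (Door T E (ExT T1 π sec O d τ) arch)) :
    c * ∑ τ : V → Bool, cval T T1 sec O E G H Θ τ d ≤
      ∑ τ : V → Bool, if Cnt T T1 sec O E G τ d ∧ Door T E (ExT T1 π sec O d τ) arch τ then
        ‖T.cls (mix E ω τ) d Θ‖ ^ 2 else 0 := by
  have hcnt : ∀ τ τ' : V → Bool, (∀ v ∈ ExT T1 π sec O d τ, τ' v = τ v) →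
      (Cnt T T1 sec O E G τ' d ↔ Cnt T T1 sec O E G τ d) := by
    intro τ τ' hτ
    refine ⟨fun h1 => ?_, fun h1 => h.cnt_congr hG hτ h1⟩
    apply h.cnt_congr hG ?_ h1
    rw [h.exT_congr d τ τ' hτ]
    exact fun v hv => (hτ v hv).symm
  have hdoor : ∀ (A : Set V) (τ τ' : V → Bool), (∀ v ∉ A, τ' v = τ v) → Door T E A arch τ →
      Door T E A arch τ' := by
    rintro A τ τ' hτ ⟨a, ha, w, hw, q, hq, hq2⟩
    exact ⟨a, ha, w, hw, q, hq, fun e he => ⟨(hq2 e he).1, fun h1 => by
      rw [hτ _ h1]; exact (hq2 e he).2 h1⟩⟩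
  have h1 := stop_lower (A := ExT T1 π sec O d) (h.exT_congr d)
    (f := fun τ => cval T T1 sec O E G H Θ τ d)
    (by
      intro τ
      unfold cval
      split_ifs <;> positivity)
    (by
      intro τ τ' hτ
      have h2 := h.s1_congr hτ
      unfold cval
      by_cases h3 : Cnt T T1 sec O E G τ d
      · rw [if_pos ((hcnt τ τ' hτ).2 h3), if_pos h3,
          (ret_spec T1 _ d).cls_congr h.planar1 h3.2.1.1 h2, lst_congr h2]
      · rw [if_neg (fun h4 => h3 ((hcnt τ τ' hτ).1 h4)), if_neg h3])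
    (N := fun τ₀ τ => Cnt T T1 sec O E G τ₀ d ∧ Door T E (ExT T1 π sec O d τ₀) arch τ)
    (by
      intro τ₀ τ₀' τ hτ
      rw [hcnt _ _ hτ, h.exT_congr d _ _ hτ])
    (by
      intro τ₀ τ τ' hτ
      exact and_congr Iff.rfl ⟨hdoor _ _ _ (fun v hv => (hτ v hv).symm), hdoor _ _ _ hτ⟩)
    (c := c)
    (by
      intro τ hτ
      have h2 : Cnt T T1 sec O E G τ d := by
        by_contra h2
        apply hτ
        unfold cval
        rw [if_neg h2]
      exact (hc τ h2).trans (pr_mono fun τ' h3 => ⟨h2, h3⟩))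
    (fun τ => Cnt T T1 sec O E G τ d ∧ Door T E (ExT T1 π sec O d τ) arch τ)
    (fun τ h2 => h2)
  refine h1.trans (Finset.sum_le_sum fun τ _ => ?_)
  by_cases h2 : Cnt T T1 sec O E G τ d ∧ Door T E (ExT T1 π sec O d τ) arch τ
  · rw [if_pos h2, if_pos h2]
    have h3 := h.captured h2.1.1 h2.1.2.1 h2.1.2.2.1 h2.2 (hH τ h2.1)
    unfold cval
    rw [if_pos h2.1, h3.cls_eq h.planar h.planar1 h.contr Θ]
  · rw [if_neg h2, if_neg h2]

open Classical in
/-- The starting darts of the captured excursions. -/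
noncomputable def capSet [Fintype D] (T : Tri V D) (T1 : Tri V1 D) (π : V → V1) (sec : V1 → V)
    (O : V1) (E arch : Set V) (G : (V1 → Bool) → D → Prop) (τ : V → Bool) : Finset D :=
  Finset.univ.filter fun d => Cnt T T1 sec O E G τ d ∧ Door T E (ExT T1 π sec O d τ) arch τ

theorem DoorGeo.capFam [Fintype D] (h : DoorGeo T T1 π sec O E arch ω) {H : D → D → List D}
    {τ : V → Bool}
    (hH : ∀ d, Cnt T T1 sec O E G τ d →
      Closing T E arch ω d (lst T1 (s1 sec O τ) d) (H d (lst T1 (s1 sec O τ) d))) :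
    CapFam T T1 π O (s1 sec O τ) (mix E ω τ) (capSet T T1 π sec O E arch G τ)
      (lst T1 (s1 sec O τ)) (fun d => H d (lst T1 (s1 sec O τ) d)) := by
  classical
  constructor
  · intro d hd
    obtain ⟨-, h2, h3⟩ := Finset.mem_filter.1 hd
    exact h.captured h2.1 h2.2.1 h2.2.2.1 h3 (hH d h2)
  · intro d hd e he h4
    obtain ⟨-, h2, h3⟩ := Finset.mem_filter.1 hd
    have h5 := hH d h2
    apply h4
    rw [h.contr.src, h.contr.tgt, h.fib _ (h5.msrc e he).1, h.fib _ (h5.mtgt e he).1]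

open Classical in
/-- **Doors, averaged.** -/
theorem DoorGeo.energy [Fintype V] [Fintype D] (h : DoorGeo T T1 π sec O E arch ω)
    (hG : ∀ d σ σ', T1.src d = O → (∀ v ∈ Ex T1 d σ, σ' v = σ v) → G σ d → G σ' d)
    {H : D → D → List D}
    (hH : ∀ τ d, Cnt T T1 sec O E G τ d →
      Closing T E arch ω d (lst T1 (s1 sec O τ) d) (H d (lst T1 (s1 sec O τ) d))) (Θ : D → ℂ)
    {c : ℝ} (hc : ∀ τ d, Cnt T T1 sec O E G τ d → c ≤ pr (Door T E (ExT T1 π sec O d τ) arch)) :
    c * ∑ τ : V → Bool, ∑ d, cval T T1 sec O E G H Θ τ d ≤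
      ∑ τ : V → Bool, ∑ d ∈ capSet T T1 π sec O E arch G τ, ‖T.cls (mix E ω τ) d Θ‖ ^ 2 := by
  rw [Finset.sum_comm, Finset.mul_sum]
  have h1 : ∑ τ : V → Bool, ∑ d ∈ capSet T T1 π sec O E arch G τ,
      ‖T.cls (mix E ω τ) d Θ‖ ^ 2 = ∑ d : D, ∑ τ : V → Bool,
        if Cnt T T1 sec O E G τ d ∧ Door T E (ExT T1 π sec O d τ) arch τ then
        ‖T.cls (mix E ω τ) d Θ‖ ^ 2 else 0 := by
    rw [Finset.sum_comm]
    apply Finset.sum_congr rfl
    intro τ _
    unfold capSet
    rw [Finset.sum_filter]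
  rw [h1]
  apply Finset.sum_le_sum
  intro d _
  exact h.lower hG d (fun τ => hH τ d) Θ (fun τ => hc τ d)

open Classical in
/-- The same, against the energy of the classes of the real colouring. -/
theorem DoorGeo.energy_tot [Fintype V] [Fintype D] (h : DoorGeo T T1 π sec O E arch ω)
    (hG : ∀ d σ σ', T1.src d = O → (∀ v ∈ Ex T1 d σ, σ' v = σ v) → G σ d → G σ' d)
    {H : D → D → List D}
    (hH : ∀ τ d, Cnt T T1 sec O E G τ d →
      Closing T E arch ω d (lst T1 (s1 sec O τ) d) (H d (lst T1 (s1 sec O τ) d))) (Θ : D → ℂ)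
    {c : ℝ} (hc : ∀ τ d, Cnt T T1 sec O E G τ d → c ≤ pr (Door T E (ExT T1 π sec O d τ) arch)) :
    c * ∑ τ : V → Bool, ∑ d, cval T T1 sec O E G H Θ τ d ≤
      ∑ τ : V → Bool, H203.tot T (mix E ω τ)
        (H203.rs (fun e => ∃ d ∈ capSet T T1 π sec O E arch G τ, T.Rel (mix E ω τ) d e) Θ) := by
  refine (h.energy hG hH Θ hc).trans (Finset.sum_le_sum fun τ _ => ?_)
  have h1 := h.capFam (G := G) (τ := τ) (hH τ)
  exact sum_cls_le_tot _ (h1.mi h.planar h.planar1 h.contr) (h1.inj h.planar h.planar1 h.contr) Θ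

end avg

end Vale.Agent.P148.R2.H400
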