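import Vale.Agent.P148.R2.H400.Flip6
import Vale.Agent.P148.R2.H659.Close1

/-!
# General explored quantities; closing chains from the main cycle

`capture_sum` : Flip3's averaged capture for an arbitrary nonnegative explored quantity.
`closing_of_ring` : helper659's main cycle gives the closing chains needed by the doors.
-/

set_option linter.unusedSectionVars false

namespace Vale.Agent.P148.R2.H400

open Function Vale.Agent.P148.R2.H258 Vale.Agent.P148.R2.H871 Vale.Agent.P148.R2.H838
  Vale.Agent.P148.R2.H659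

variable {V V1 D : Type*} {T : Tri V D} {T1 : Tri V1 D} {π : V → V1}

open Classical in
/-- **Averaged capture for any explored quantity.**  `f σ d ≥ 0` is determined by the colours seen by
the excursion of `d` and vanishes unless `d` starts at `O` an excursion facing `J`. -/
theorem capture_sum [Fintype V] [Fintype D] (hP : T.Planar) {O : V}
    (hnl : ∀ f, T.src f ≠ O → T.tgt f ≠ T.src f) {J : Set D}
    {f : (V → Bool) → D → ℝ} (hf0 : ∀ σ d, 0 ≤ f σ d)
    (hf : ∀ d σ σ', (∀ v ∈ Ex T d σ, σ' v = σ v) → f σ' d = f σ d)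
    (hst : ∀ σ d, f σ d ≠ 0 → T.src d = O ∧ Start T σ d ∧ Facing T J σ d) {c : ℝ}
    (hc : ∀ σ d, f σ d ≠ 0 → c ≤ pr (Net T J O (σ (T.tgt d)) (Ex T d σ))) :
    c * ∑ σ : V → Bool, ∑ d, f σ d ≤
      ∑ σ : V → Bool, ∑ d, if Cap T J σ d then f σ d else 0 := by
  rw [Finset.sum_comm, Finset.mul_sum, Finset.sum_comm (f := fun (σ : V → Bool) d =>
    if Cap T J σ d then f σ d else 0)]
  apply Finset.sum_le_sum
  intro d _
  by_cases hd : T.src d = O
  · subst hd
    exact capture_lower hP hnl (F := fun σ => f σ d) (fun σ => hf0 σ d) (hf d)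
      (fun σ h => (hst σ d h).2) (fun σ h => hc σ d h)
  · have h0 : ∀ σ, f σ d = 0 := by
      intro σ
      by_contra h
      exact hd (hst σ d h).1
    simp [h0]

/-- The closing chain is an explored quantity. -/
theorem hsum_congr [Finite D] {M : Type*} [AddCommMonoid M] (H : D → D → List D) (Θ : D → M)
    {σ σ' : V → Bool} {d : D} (hσ : ∀ v ∈ Ex T d σ, σ' v = σ v) :
    ((H d (lst T σ' d)).map Θ).sum = ((H d (lst T σ d)).map Θ).sum := by
  rw [lst_congr hσ]

/-! ### closing chains from the main cycle -/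

variable {c : ℕ → D} {n : ℕ} {w : V → Bool} {O : V1} {E arch : Set V} {ω : V → Bool}

open Classical in
/-- The index of a vertex of the cycle. -/
noncomputable def idx (T : Tri V D) (c : ℕ → D) (n : ℕ) (v : V) : ℕ :=
  if h : ∃ i < n, v = T.src (c i) then h.choose else 0

theorem idx_eq (hR : Ring T π O w c n) {i : ℕ} (hi : i < n) : idx T c n (T.src (c i)) = i := by
  have h : ∃ j < n, T.src (c i) = T.src (c j) := ⟨i, hi, rfl⟩
  unfold idx
  rw [dif_pos h]
  exact (hR.inj i hi _ h.choose_spec.1 h.choose_spec.2).symm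

/-- The closing chain of `d` and `g`. -/
noncomputable def clH (T : Tri V D) (c : ℕ → D) (n : ℕ) (d g : D) : List D :=
  chain c (idx T c n (T.apex g)) (idx T c n (T.src d))

/-- What the explored set must contain: the far side of the cycle, with the colours, and walks. -/
structure Far (T : Tri V D) (E arch : Set V) (ω : V → Bool) (c : ℕ → D) (n s : ℕ) : Prop where
  src : ∀ i, s ≤ i → i < n → T.src (c i) ∈ E ∧ ω (T.src (c i)) = true
  tgt : ∀ i, s ≤ i → i < n → T.tgt (c i) ∈ E ∧ ω (T.tgt (c i)) = false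
  joined : ∀ a ∈ arch, ∀ i, s ≤ i → i < n → Joined T ω false E a (T.tgt (c i))

/-- Boundary darts with real tail off `E` start on the arc. -/
theorem BJ_subset_arc (hC : Contr T T1 π) (hR : Ring T π O w c n) {s : ℕ}
    (hE : Far T E arch ω c n s) : BJ T T1 O E ⊆ arc T T1 O c s := by
  rintro b ⟨⟨h1, h2⟩, h3⟩
  refine ⟨h1, h2, ?_⟩
  obtain ⟨i, hi, h4⟩ := hR.ring b (by rw [← hC.src]; exact h1) (by rw [← hC.tgt]; exact h2)
  refine ⟨i, ?_, h4⟩
  by_contra hcon
  exact h3 (by rw [h4]; exact (hE.src i (by omega) hi).1)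

/-- **Closing chains from the main cycle.** -/
theorem closing_of_ring [Finite D] (hP : T.Planar) (hP1 : T1.Planar) (hC : Contr T T1 π)
    (hinj : InjOff π O) (hR : Ring T π O w c n) {s : ℕ} (hE : Far T E arch ω c n s)
    (hnl : ∀ f, T.tgt f ≠ T.src f) {σ : V1 → Bool} {d : D} (hd : Start T1 σ d)
    (hdO : T1.src d = O) (hF : Facing T1 (arc T T1 O c s) σ d)
    (hne : (arc T T1 O c s).Nonempty) :
    Closing T E arch ω d (lst T1 σ d) (clH T c n d (lst T1 σ d)) := by
  obtain ⟨g, iy, ix, hg, hgO, hsy, hyx, hix, hy, hx⟩ := close hP hP1 hC hinj hR hd hdO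
    (fun f _ => by rw [‹T.src f = T.src d›.symm]; exact hnl f) hF hne
  have hgl : lst T1 σ d = g := by
    have h1 := lst_rel hP1 hd
    have h2 := lst_apex hP1 hd
    obtain ⟨k, f, hk, hg0, hgk, hs, hij, hrel, -⟩ := T1.class_cycle hP1 hd.1 hd.2
    obtain ⟨i, hi, hi2⟩ := (hrel _).1 h1
    obtain ⟨i', hi', hi2'⟩ := (hrel _).1 hg
    have key : ∀ i < k, T1.apex (f i) = T1.src d → i + 1 = k := by
      intro i hi h3
      by_contra hne
      have h4 := hs i hi
      rw [h3, ← hg0] at h4
      exact absurd (hij (i + 1) (by omega) 0 hk h4) (by omega)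
    have e1 := key i hi (by rw [← hi2]; exact h2)
    have e2 := key i' hi' (by rw [← hi2', hgO, hdO])
    rw [hi2, hi2']
    congr 1; omega
  rw [hgl]
  have hH : clH T c n d g = chain c iy ix := by
    unfold clH
    rw [hy, hx, idx_eq hR (by omega), idx_eq hR hix]
  rw [hH]
  refine ⟨by rw [hx]; exact hE.src ix (by omega) hix, by rw [hy]; exact hE.src iy hsy (by omega),
    ?_, ?_, ?_, ?_, ?_, ?_, ?_⟩
  · unfold H659.chain
    refine chain_range (R := fun a b => T.src b = T.apex a) ?_ ?_ ?_ ?_
    · intro h0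
      rw [hx, hy, show ix = iy by omega]
    · intro _; rw [hy]; rfl
    · intro i hi
      exact hR.next (iy + i) (by omega)
    · intro hm
      have h1 := hR.next (iy + (ix - iy - 1)) (by omega)
      rw [show iy + (ix - iy - 1) + 1 = ix by omega] at h1
      rw [hx]; exact h1
  · unfold H659.chain
    rw [List.map_map, List.nodup_map_iff_inj_on List.nodup_range]
    intro i hi j hj hij
    rw [List.mem_range] at hi hj
    have := hR.inj (iy + i) (by omega) (iy + j) (by omega) hij
    omega
  · intro hh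
    rw [List.mem_map] at hh
    obtain ⟨e, he, he2⟩ := hh
    obtain ⟨i, h1, h2, rfl⟩ := mem_chain.1 he
    rw [hx] at he2
    have := hR.inj i (by omega) ix hix he2
    omega
  · intro e he
    obtain ⟨i, h1, h2, rfl⟩ := mem_chain.1 he
    exact hE.src i (by omega) (by omega)
  · intro e he
    obtain ⟨i, h1, h2, rfl⟩ := mem_chain.1 he
    rw [← hR.next i (by omega)]
    exact hE.src (i + 1) (by omega) (by omega)
  · intro e he
    obtain ⟨i, h1, h2, rfl⟩ := mem_chain.1 he
    exact hE.tgt i (by omega) (by omega)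
  · intro a ha e he
    obtain ⟨i, h1, h2, rfl⟩ := mem_chain.1 he
    exact hE.joined a ha i (by omega) (by omega)

/-- The value of the closing chain. -/
theorem clH_sum {M : Type*} [AddCommMonoid M] (Θ : D → M) (d g : D) :
    ((clH T c n d g).map Θ).sum =
      ∑ i ∈ Finset.Ico (idx T c n (T.apex g)) (idx T c n (T.src d)), Θ (c i) :=
  sum_chain Θ _ _

end Vale.Agent.P148.R2.H400
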