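import Vale.Agent.P148.R2.H400.Flip7
import Vale.Agent.P148.R2.H400.Flip8
import Vale.Agent.P148.R2.H566.World
import Vale.Agent.P148.R2.H910.Om0

/-!
# The facing classes of world 0 (P148, row FLIPA): from `W0.En` to excursions

`FL` : the classes through the frozen vertex whose excursion faces the arc `J` and meets `A`.
`En_FL_eq` : their mean energy as a mean over the colourings of all the sites.
`En_FL_le` : bound by the doors (`MQ` of the composite colouring) and by the closing chains.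
-/

set_option linter.unusedSectionVars false

open Set Metric Function
open scoped ENNReal

namespace Vale.Agent.P148.R2.H400

open H592 H184 H203 H871 H838 Vale.Agent.P148.R2.H258 H910 H659

/-! ### means -/

/-- The mean of a function of some coordinates. -/
theorem mean_inj {A B : Type*} [Fintype A] [Fintype B] [DecidableEq A] [DecidableEq B] (g : A → B)
    (hg : Injective g) (F : (A → Bool) → ℝ≥0∞) :
    (2 ^ Fintype.card B)⁻¹ * ∑ σ : B → Bool, F (fun a => σ (g a)) =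
      (2 ^ Fintype.card A)⁻¹ * ∑ ρ : A → Bool, F ρ := by
  classical
  have h1 := sum_subtype_pow (V := B) (fun b => ∃ a, g a = b)
    (fun c => F (fun a => c ⟨g a, a, rfl⟩))
  have e : A ≃ {b // ∃ a, g a = b} :=
    Equiv.ofBijective (fun a => ⟨g a, a, rfl⟩)
      ⟨fun a a' h => hg (congrArg Subtype.val h), fun b => by
        obtain ⟨b, a, rfl⟩ := b
        exact ⟨a, rfl⟩⟩
  have e' : A ≃ {b // ∃ a, g a = b} := e
  have hcard : Fintype.card {b // ∃ a, g a = b} = Fintype.card A := (Fintype.card_congr e).symm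
  have h2 : (2 ^ Fintype.card B)⁻¹ * ∑ σ : B → Bool, F (fun a => σ (g a)) =
      (2 ^ Fintype.card {b // ∃ a, g a = b})⁻¹ *
        ∑ c : {b // ∃ a, g a = b} → Bool, F (fun a => c ⟨g a, a, rfl⟩) := by
    refine (avg_inst _ _ _ _ _).trans (h1.symm.trans (avg_inst _ _ _ _ _))
  rw [h2, hcard]
  congr 1
  let f : A ≃ {b // ∃ a, g a = b} :=
    Equiv.ofBijective (fun a => ⟨g a, a, rfl⟩)
      ⟨fun a a' h => hg (congrArg Subtype.val h), fun b => by
        obtain ⟨b, a, rfl⟩ := b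
        exact ⟨a, rfl⟩⟩
  refine Fintype.sum_equiv (Equiv.arrowCongr f.symm (Equiv.refl Bool)) _ _ ?_
  intro c
  rfl

open Classical in
/-- The mean over the colourings of the contracted world with `O` black. -/
theorem mean_s1 {V V1 : Type*} [Fintype V] [Fintype V1] {sec : V1 → V} {O : V1}
    (hs : ∀ u v, u ≠ O → v ≠ O → sec u = sec v → u = v) (F : (V1 → Bool) → ℝ≥0∞) :
    (2 ^ Fintype.card V)⁻¹ * ∑ τ : V → Bool, F (s1 sec O τ) =
      2 * ((2 ^ Fintype.card V1)⁻¹ * ∑ σ : V1 → Bool, if σ O = true then F σ else 0) := by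
  set G : ({v : V1 // v ≠ O} → Bool) → ℝ≥0∞ := fun c =>
    F (fun v => if h : v ≠ O then c ⟨v, h⟩ else true) with hG
  have h1 := mean_inj (A := {v : V1 // v ≠ O}) (B := V) (fun i => sec i.1)
    (fun i j hij => Subtype.ext (hs i.1 j.1 i.2 j.2 hij)) G
  have e1 : ∀ τ : V → Bool, F (s1 sec O τ) = G (fun i => τ (sec i.1)) := by
    intro τ
    rw [hG]
    congr 1
    funext v
    unfold s1
    by_cases hv : v = O
    · simp [hv]
    · simp [hv]
  have hcard : Fintype.card V1 = Fintype.card {v : V1 // v ≠ O} + 1 := by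
    have := Fintype.card_subtype_compl (fun v : V1 => v = O)
    rw [Fintype.card_subtype_eq] at this
    have h1 : 0 < Fintype.card V1 := Fintype.card_pos_iff.2 ⟨O⟩
    have h2 : Fintype.card {v : V1 // v ≠ O} = Fintype.card V1 - 1 := this
    omega
  have hbij : ∑ σ : V1 → Bool, (if σ O = true then F σ else 0) =
      ∑ c : {v : V1 // v ≠ O} → Bool, G c := by
    rw [← Finset.sum_filter]
    refine Finset.sum_bij' (fun σ _ => fun i => σ i.1)
      (fun c _ => fun v => if h : v ≠ O then c ⟨v, h⟩ else true) ?_ ?_ ?_ ?_ ?_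
    · intro σ _
      exact Finset.mem_univ _
    · intro c _
      rw [Finset.mem_filter]
      exact ⟨Finset.mem_univ _, by simp⟩
    · intro σ hσ
      rw [Finset.mem_filter] at hσ
      funext v
      by_cases h : v ≠ O
      · simp [h]
      · push Not at h
        simp [h, hσ.2]
    · intro c _
      funext i
      simp [i.2]
    · intro σ hσ
      rw [Finset.mem_filter] at hσ
      rw [hG]
      congr 1
      funext v
      by_cases h : v ≠ O
      · simp [h]
      · push Not at h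
        simp [h, hσ.2]
  simp_rw [e1]
  rw [hbij, hcard, pow_succ, ENNReal.mul_inv (by simp) (by simp), mul_comm _ (2⁻¹ : ℝ≥0∞),
    mul_assoc, ← mul_assoc 2, ENNReal.mul_inv_cancel (by norm_num) (by norm_num), one_mul, ← h1]

/-! ### flips -/

section flip

variable {V D : Type*} {T : Tri V D}

theorem inG_neg (σ : V → Bool) (d : D) : T.InG (neg σ) d = T.InG σ d := by
  funext e
  unfold Tri.InG
  simp only [rel_neg]

theorem pot_neg (σ : V → Bool) (d : D) : T.pot (neg σ) d = T.pot σ d := by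
  unfold Tri.pot
  rw [inG_neg]

theorem start_neg (σ : V → Bool) (d : D) : Start T (neg σ) d ↔ Start T σ d := by
  unfold Start
  rw [mi_neg]

theorem facing_neg {J : Set D} (σ : V → Bool) (d : D) : Facing T J (neg σ) d ↔ Facing T J σ d := by
  unfold Facing
  simp only [pot_neg]

theorem reach_neg {J : Set D} {R : D → Prop} (σ : V → Bool) (d : D) :
    Reach T J R (neg σ) d ↔ Reach T J R σ d := by
  unfold Reach
  simp only [facing_neg, start_neg, rel_neg]

end flip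

/-! ### the classes -/

section fl

variable (w : H566.W0) (J : Set w.D) (A : Set ℂ)

/-- The classes through the frozen vertex whose excursion faces `J` and meets `A`. -/
def FL (σ : w.V → Bool) (q : w.D) : Prop :=
  ∃ d, w.T.Rel σ d q ∧ w.T.src d = w.O ∧ Reach w.T J (w.Lo A) σ d

theorem fl_sat (σ : w.V → Bool) : Sat w.T σ (FL w J A σ) := by
  rintro q r hr ⟨d, h1, h2⟩
  exact ⟨d, w.T.rel_trans h1 hr, h2⟩

theorem fl_neg (σ : w.V → Bool) (q : w.D) : FL w J A (neg σ) q ↔ FL w J A σ q := by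
  unfold FL
  simp only [rel_neg, reach_neg]

open Classical in
theorem fl_tot (σ : w.V → Bool) (Φ : w.D → ℂ) :
    tot w.T σ (rs (FL w J A σ) Φ) =
      ∑ d, if w.T.src d = w.O ∧ Reach w.T J (w.Lo A) σ d then ‖w.T.cls σ d Φ‖ ^ 2 else 0 := by
  rw [tot_thr w.T w.planar w.O (fl_sat w J A σ)
    (fun d ⟨d', h1, h2, _⟩ _ => ⟨d', w.T.rel_symm h1, h2⟩)]
  apply Finset.sum_congr rfl
  intro d _
  by_cases h : w.T.src d = w.O ∧ Reach w.T J (w.Lo A) σ d
  · rw [if_pos h, if_pos ⟨⟨d, w.T.rel_refl h.2.2.2.1.1, h⟩, h.1, h.2.2.2.1.1⟩]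
  · rw [if_neg h, if_neg]
    rintro ⟨⟨d', h1, h2, h3⟩, h4, -⟩
    have := rel_src_inj w.T w.planar h1 (h2.trans h4.symm)
    exact h (by rw [← this]; exact ⟨h2, h3⟩)

variable {w} (x₀ : w.X)

theorem secB_inj : ∀ u v : w.V, u ≠ w.O → v ≠ w.O →
    secB (X := w.X) (B := w.B) x₀ u = secB x₀ v → u = v := by
  rintro (⟨⟩ | u) (⟨⟩ | v) hu hv h
  · exact absurd rfl hu
  · exact absurd rfl hu
  · exact absurd rfl hv
  · have := congrArg Subtype.val h
    congr 1
    exact Subtype.ext this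

open Classical in
/-- **The mean energy of the facing classes.** -/
theorem En_FL_eq [Fintype w.X] (Φ : w.D → ℂ) :
    w.En (FL w J A) Φ = (2 ^ Fintype.card w.X)⁻¹ * ∑ τ : w.X → Bool, ∑ d,
      if w.T.src d = w.O ∧ Reach w.T J (w.Lo A) (s1 (secB x₀) w.O τ) d then
        ENNReal.ofReal (‖w.T.cls (s1 (secB x₀) w.O τ) d Φ‖ ^ 2) else 0 := by
  set F : (w.V → Bool) → ℝ≥0∞ := fun σ => ENNReal.ofReal (tot w.T σ (rs (FL w J A σ) Φ)) with hF
  have hneg : ∀ σ, F (neg σ) = F σ := by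
    intro σ
    have : FL w J A (neg σ) = FL w J A σ := funext fun q => propext (fl_neg w J A σ q)
    rw [hF]
    simp only [this, tot_neg]
  have h1 : w.En (FL w J A) Φ = (2 ^ Fintype.card w.V)⁻¹ * ∑ σ : w.V → Bool, F σ := rfl
  have h3 : ∑ σ : w.V → Bool, F σ = 2 * ∑ σ : w.V → Bool, (if σ w.O = true then F σ else 0) := by
    refine (sum_inst _ _ _).trans ((sum_eq_two_mul w.O F hneg).trans ?_)
    exact congrArg (fun x => 2 * x) (sum_inst _ _ _)
  have h2 : (2 ^ Fintype.card w.X)⁻¹ * ∑ τ : w.X → Bool, F (s1 (secB x₀) w.O τ) =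
      2 * ((2 ^ Fintype.card w.V)⁻¹ * ∑ σ : w.V → Bool, if σ w.O = true then F σ else 0) := by
    refine (avg_inst _ _ _ _ _).trans ((mean_s1 (secB_inj x₀) F).trans ?_)
    exact congrArg (fun x => 2 * x) (avg_inst _ _ _ _ _)
  rw [h1, h3, mul_left_comm, ← h2]
  congr 1
  apply Finset.sum_congr rfl
  intro τ _
  rw [hF]
  simp only
  rw [fl_tot, ENNReal.ofReal_sum_of_nonneg (fun d _ => by split_ifs <;> positivity)]
  apply Finset.sum_congr rfl
  intro d _
  split_ifs <;> simp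

/-- The members of an excursion are good faces of both triangulations. -/
theorem cls_th (Θ : Dt → ℂ) {σ : w.V → Bool} {d : w.D} (hd : Start w.T σ d) :
    w.T.cls σ d (w.th Θ) =
      w.T.cls σ d (wt w.hull (idmap w.X x₀) (fib_id w.X x₀) Θ) := by
  classical
  obtain ⟨m, f, hm, hf0, hfm, hs, hij, hrel, -⟩ := w.T.class_cycle w.planar hd.1 hd.2
  have hm2 : 2 ≤ m := by
    by_contra hcon
    have h1 : m = 1 := by omega
    subst h1
    apply hd.2
    have h2 := hs 0 (by omega)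
    rw [hfm, hf0] at h2
    exact h2.symm
  unfold H258.Tri.cls
  apply Finset.sum_congr rfl
  intro e _
  by_cases he : w.T.Rel σ e d
  · rw [if_pos he, if_pos he]
    obtain ⟨i, hi, rfl⟩ := (hrel e).1 (w.T.rel_symm he)
    have hmi : w.T.Mi σ (f i) := he.1
    have hap : w.T.apex (f i) ≠ w.T.src (f i) := by
      rw [← hs i hi]
      intro h1
      rcases (show i + 1 ≤ m by omega).lt_or_eq with h2 | h2
      · exact absurd (hij (i + 1) h2 i hi h1) (by omega)
      · rw [h2, hfm, ← hf0] at h1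
        have := hij 0 (by omega) i hi h1
        omega
    have hgood : w.T.Good (f i) := by
      refine ⟨fun h1 => hmi.1 (by rw [h1]), fun h1 => hmi.1 (by rw [h1, hmi.2]), hap⟩
    have hC := contrB w.hull w.fib x₀
    have hgood' : (TP w.hull x₀).Good (f i) := by
      obtain ⟨g1, g2, g3⟩ := hgood
      refine ⟨fun h1 => g1 ?_, fun h1 => g2 ?_, fun h1 => g3 ?_⟩
      · exact (hC.src _).trans ((congrArg _ h1).trans (hC.tgt _).symm)
      · exact (hC.tgt _).trans ((congrArg _ h1).trans (hC.apex _).symm)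
      · exact (hC.apex _).trans ((congrArg _ h1).trans (hC.src _).symm)
    show (if w.T.Good (f i) then Θ (dt (f i)) else 0) =
      (if (TP w.hull x₀).Good (f i) then Θ (dt (f i)) else 0)
    rw [if_pos hgood, if_pos hgood']
  · rw [if_neg he, if_neg he]

/-- What the collar delivers for one arc: explored set outside the arc, main cycle, colours. -/
structure DoorData (E arch : Set ℂ) (ω : ℂ → Bool) (cyc : ℕ → w.D) (n s : ℕ) : Prop where
  EB : E ⊆ w.B
  arch_sub : arch ⊆ E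
  arch_col : ∀ a ∈ arch, ω a = false
  arch_adj : ∀ u v, nbr w.X u v → u ∈ arch → v ∈ w.B
  ring : ∃ w0 : w.X → Bool, Ring (TP w.hull x₀) (piB w.X w.B) (Sum.inl ()) w0 cyc n
  far : Far (TP w.hull x₀) (vs w.X E) (vs w.X arch) (fun x : w.X => ω x.1) cyc n s
  ne : (arc (TP w.hull x₀) w.T w.O cyc s).Nonempty

variable {x₀} {E arch : Set ℂ} {ω : ℂ → Bool} {cyc : ℕ → w.D} {n s : ℕ}

/-- The counted excursions of `door_MQ` are those of `FL`. -/
theorem DoorData.cnt [Fintype w.X] (hD : DoorData x₀ E arch ω cyc n s) (R : w.D → Prop)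
    (τ : w.X → Bool) (d : w.D) :
    CntB w.hull w.fib x₀ E (arc (TP w.hull x₀) w.T w.O cyc s) R τ d ↔
      w.T.src d = w.O ∧ Reach w.T (arc (TP w.hull x₀) w.T w.O cyc s) R (s1 (secB x₀) w.O τ) d := by
  obtain ⟨w0, hR⟩ := hD.ring
  constructor
  · rintro ⟨h1, -, -, h2⟩
    exact ⟨h1, h2⟩
  · rintro ⟨h1, h2⟩
    exact ⟨h1, h2.2.2.1, h2.2.1.mono (BJ_subset_arc (contrB w.hull w.fib x₀) hR hD.far), h2⟩

theorem noloop_TP (f : w.D) : (TP w.hull x₀).tgt f ≠ (TP w.hull x₀).src f := by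
  intro h1
  have h2 := nbr_dt w.hull x₀ f
  rw [h1] at h2
  exact h2.2.2.1 rfl

/-- The closing chains. -/
theorem DoorData.closing [Fintype w.X] (hD : DoorData x₀ E arch ω cyc n s) (R : w.D → Prop)
    (τ : w.X → Bool) (d : w.D)
    (hd : CntB w.hull w.fib x₀ E (arc (TP w.hull x₀) w.T w.O cyc s) R τ d) :
    Closing (TP w.hull x₀) (vs w.X E) (vs w.X arch) (fun x : w.X => ω x.1) d
      (lstB w.hull w.fib x₀ d τ) (clH (TP w.hull x₀) cyc n d (lstB w.hull w.fib x₀ d τ)) := by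
  obtain ⟨w0, hR⟩ := hD.ring
  have hG := doorGeo w.hull w.fib x₀ hD.EB hD.arch_sub hD.arch_col hD.arch_adj
  have h1 := (hD.cnt R τ d).1 hd
  exact closing_of_ring hG.planar hG.planar1 hG.contr hG.inj hR hD.far noloop_TP h1.2.2.2.1 h1.1
    h1.2.2.1 hD.ne

open Classical in
/-- **FLIPA, quenched.**  The mean energy of the classes which face the arc and meet `A` is at most
`2 / c` times the mean of `MQ` of the composite colouring (explored colours on `E`, fresh elsewhere)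
plus twice the mean energy of the closing chains. -/
theorem En_FL_le [Fintype w.X] (hD : DoorData x₀ E arch ω cyc n s)
    {K : (w.X → Bool) → Prop}
    (hK : ∀ τ τ' : w.X → Bool, (∀ v : w.X, v.1 ∈ w.B → τ' v = τ v) → K τ → K τ')
    {c : ℝ} (hc0 : 0 < c)
    (hc : ∀ τ d, w.T.src d = w.O →
      Reach w.T (arc (TP w.hull x₀) w.T w.O cyc s) (w.Lo A) (s1 (secB x₀) w.O τ) d →
      c ≤ pr (fun τ' => Door (TP w.hull x₀) (vs w.X E) (ExB w.hull w.fib x₀ d τ) (vs w.X arch) τ' ∧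
        K τ'))
    {Q : Set ℂ} {κ : Type*} (Q' : κ → Set ℂ) (Θ : Dt → ℂ)
    {p : ℂ} {r ρ : ℝ} (hρ : 0 < ρ) (hnet : H990.Net w.X (closedBall p (6 * r + 2 * ρ)) ρ)
    (hQ : ∀ z, H995.nsup (z - p) < 3 * r + 2 * ρ → z ∈ Q)
    (hb : ∀ j, 3 * r ≤ H995.nsup (w.b j - p))
    (hend : ∀ q : w.D, tail q ∈ w.B → head q ∉ w.B →
      H995.nsup (tail q - p) ≤ r ∧ H995.nsup (head q - p) ≤ r)
    (hfar : ∀ i, ∀ d e : w.D, tail d ∈ w.B → head d ∉ w.B → w.Lo A e →
      ¬ (LF w.X (Q' i) (dt d) ∧ LF w.X (Q' i) (dt e)))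
    {k : Bool}
    (hno : ∀ τ, K τ → ¬ H995.SqArm (nbr w.X)
      (H664.colS w.X (idmap w.X x₀) (mixB w.X E ω τ) k) p r (3 * r)) :
    w.En (FL w (arc (TP w.hull x₀) w.T w.O cyc s) A) (w.th Θ) ≤
      2 * ((ENNReal.ofReal c)⁻¹ * ((2 ^ Fintype.card w.X)⁻¹ * ∑ τ : w.X → Bool,
        MQ w.X Q Q' (pc (idmap w.X x₀) (mixB w.X E ω τ)) Θ)) +
      2 * ((2 ^ Fintype.card w.X)⁻¹ * ∑ τ : w.X → Bool, ∑ d,
        if w.T.src d = w.O ∧ Reach w.T (arc (TP w.hull x₀) w.T w.O cyc s) (w.Lo A)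
            (s1 (secB x₀) w.O τ) d then
          ENNReal.ofReal (‖((clH (TP w.hull x₀) cyc n d (lstB w.hull w.fib x₀ d τ)).map
            (wt w.hull (idmap w.X x₀) (fib_id w.X x₀) Θ)).sum‖ ^ 2) else 0) := by
  set Ψ : w.D → ℂ := wt w.hull (idmap w.X x₀) (fib_id w.X x₀) Θ with hΨ
  set J := arc (TP w.hull x₀) w.T w.O cyc s with hJ
  set H : w.D → w.D → List w.D := clH (TP w.hull x₀) cyc n with hH
  have hcnt := hD.cnt (w.Lo A)
  have hclo := hD.closing (w.Lo A)
  rw [En_FL_eq J A x₀ (w.th Θ)]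
  have main := door_MQ w.hull w.fib x₀ (J := J) (R := w.Lo A) hD.EB hD.arch_sub hD.arch_col
    hD.arch_adj (H := H) hclo hK hc0.le (fun τ d h1 => hc τ d ((hcnt τ d).1 h1).1
      ((hcnt τ d).1 h1).2) (Q := Q) Q' Θ (fun τ hk d hd => local_of w.hull w.fib x₀ hD.EB
        hD.arch_sub hD.arch_col hD.arch_adj (H := H) hclo hρ hnet hQ hb hend hfar (hno τ hk) hd)
  set N : ℝ≥0∞ := (2 ^ Fintype.card w.X)⁻¹ with hN
  set M : ℝ≥0∞ := ∑ τ : w.X → Bool, MQ w.X Q Q' (pc (idmap w.X x₀) (mixB w.X E ω τ)) Θ with hM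
  set C : ℝ≥0∞ := ∑ τ : w.X → Bool, ∑ d, ENNReal.ofReal (cval (TP w.hull x₀) (TB w.hull w.fib)
    (secB x₀) (Sum.inl ()) (vs w.X E) (Reach (TB w.hull w.fib) J (w.Lo A)) H Ψ τ d) with hC
  have hCM : C ≤ (ENNReal.ofReal c)⁻¹ * M := by
    have hc1 : ENNReal.ofReal c ≠ 0 := by
      rw [Ne, ENNReal.ofReal_eq_zero, not_le]; exact hc0
    rw [← ENNReal.mul_le_mul_iff_right hc1 ENNReal.ofReal_ne_top, ← mul_assoc,
      ENNReal.mul_inv_cancel hc1 ENNReal.ofReal_ne_top, one_mul]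
    exact main
  set S : ℝ≥0∞ := ∑ τ : w.X → Bool, ∑ d,
        (if w.T.src d = w.O ∧ Reach w.T J (w.Lo A) (s1 (secB x₀) w.O τ) d then
          ENNReal.ofReal (‖((H d (lstB w.hull w.fib x₀ d τ)).map Ψ).sum‖ ^ 2) else 0) with hS
  have hle : (∑ τ : w.X → Bool, ∑ d,
      (if w.T.src d = w.O ∧ Reach w.T J (w.Lo A) (s1 (secB x₀) w.O τ) d then
        ENNReal.ofReal (‖w.T.cls (s1 (secB x₀) w.O τ) d (w.th Θ)‖ ^ 2) else 0)) ≤
      2 * C + 2 * S := by
    rw [hC, hS, Finset.mul_sum, Finset.mul_sum, ← Finset.sum_add_distrib]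
    apply Finset.sum_le_sum
    intro τ _
    rw [Finset.mul_sum, Finset.mul_sum, ← Finset.sum_add_distrib]
    apply Finset.sum_le_sum
    intro d _
    by_cases h1 : w.T.src d = w.O ∧ Reach w.T J (w.Lo A) (s1 (secB x₀) w.O τ) d
    · rw [if_pos h1, if_pos h1]
      have h2 : Cnt (TP w.hull x₀) (TB w.hull w.fib) (secB x₀) (Sum.inl ()) (vs w.X E)
        (Reach (TB w.hull w.fib) J (w.Lo A)) τ d := (hcnt τ d).2 h1
      unfold cval
      rw [if_pos h2, cls_th x₀ Θ h1.2.2.2.1, ← hΨ]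
      have d2 : (2 : ℝ≥0∞) = ENNReal.ofReal 2 := by norm_num
      rw [d2, ← ENNReal.ofReal_mul (by norm_num), ← ENNReal.ofReal_mul (by norm_num),
        ← ENNReal.ofReal_add (by positivity) (by positivity)]
      apply ENNReal.ofReal_le_ofReal
      set a := w.T.cls (s1 (secB x₀) w.O τ) d Ψ with ha
      set b := ((H d (lstB w.hull w.fib x₀ d τ)).map Ψ).sum with hb'
      have e1 : a = (a + b) - b := by ring
      have h3 : ‖a‖ ≤ ‖a + b‖ + ‖b‖ := by
        calc ‖a‖ = ‖(a + b) - b‖ := by rw [← e1]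
          _ ≤ _ := norm_sub_le _ _
      have h4 : ‖a‖ ^ 2 ≤ (‖a + b‖ + ‖b‖) ^ 2 := by gcongr
      calc ‖a‖ ^ 2 ≤ (‖a + b‖ + ‖b‖) ^ 2 := h4
        _ ≤ 2 * ‖a + b‖ ^ 2 + 2 * ‖b‖ ^ 2 := by nlinarith [sq_nonneg (‖a + b‖ - ‖b‖)]
    · rw [if_neg h1]
      exact zero_le
  calc N * (∑ τ : w.X → Bool, ∑ d,
      (if w.T.src d = w.O ∧ Reach w.T J (w.Lo A) (s1 (secB x₀) w.O τ) d then
        ENNReal.ofReal (‖w.T.cls (s1 (secB x₀) w.O τ) d (w.th Θ)‖ ^ 2) else 0))
      ≤ N * (2 * C + 2 * S) := by gcongr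
    _ ≤ N * (2 * ((ENNReal.ofReal c)⁻¹ * M) + 2 * S) := by gcongr
    _ = _ := by ring

end fl

end Vale.Agent.P148.R2.H400
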