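import Vale.Agent.P148.R2.H400.Flip12

/-!
# Row (win): windows of the captured excursions of world 0 (P148)

`clH_of_ring` : the closing chain of an excursion which faces `arc c s` is `chain c iy ix`.
`win_sum_le` : helper126's `Win.sum_le` for the captured excursions of `W0.cap`.
`msum_win` : one window in `msum` form, from a `Win` for every fresh colouring.
`cm_win_le` : sum over the cells and the arcs.
-/

set_option linter.unusedSectionVars false

open Set Metric Function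
open scoped ENNReal

namespace Vale.Agent.P148.R2.H400

open H592 H184 H203 H871 H838 Vale.Agent.P148.R2.H258 H910 H659 H566

section abs

variable {V V1 D : Type*} {T : Tri V D} {T1 : Tri V1 D} {π : V → V1} {O : V1}
  {c : ℕ → D} {n : ℕ} {w : V → Bool}

/-- **The closing chain of an excursion which faces an arc of the cycle.** -/
theorem clH_of_ring [Finite D] (hP : T.Planar) (hP1 : T1.Planar) (hC : Contr T T1 π)
    (hinj : InjOff π O) (hR : Ring T π O w c n) {s : ℕ}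
    (hnl : ∀ f, T.tgt f ≠ T.src f) {σ : V1 → Bool} {d : D} (hd : Start T1 σ d)
    (hdO : T1.src d = O) (hF : Facing T1 (arc T T1 O c s) σ d)
    (hne : (arc T T1 O c s).Nonempty) :
    ∃ iy ix, s ≤ iy ∧ iy ≤ ix ∧ ix < n ∧ T.apex (lst T1 σ d) = T.src (c iy) ∧
      T.src d = T.src (c ix) ∧ clH T c n d (lst T1 σ d) = chain c iy ix := by
  obtain ⟨g, iy, ix, hg, hgO, hsy, hyx, hix, hy, hx⟩ := close hP hP1 hC hinj hR hd hdO
    (fun f _ => by rw [‹T.src f = T.src d›.symm]; exact hnl f) hF hne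
  have hgl : lst T1 σ d = g := by
    have h1 := lst_rel hP1 hd
    have h2 := lst_apex hP1 hd
    obtain ⟨k, f, hk, hg0, hgk, hs, hij, hrel, -⟩ := T1.class_cycle hP1 hd.1 hd.2
    obtain ⟨i, hi, hi2⟩ := (hrel _).1 h1
    obtain ⟨i', hi', hi2'⟩ := (hrel _).1 hg
    have key : ∀ i < k, T1.apex (f i) = T1.src d → i + 1 = k := by
      intro i hi h3
      by_contra hne
      have h4 := hs i hi
      rw [h3, ← hg0] at h4
      exact absurd (hij (i + 1) (by omega) 0 hk h4) (by omega)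
    have e1 := key i hi (by rw [← hi2]; exact h2)
    have e2 := key i' hi' (by rw [← hi2', hgO, hdO])
    rw [hi2, hi2']
    congr 1; omega
  refine ⟨iy, ix, hsy, hyx, hix, by rw [hgl]; exact hy, hx, ?_⟩
  rw [hgl]
  unfold clH
  rw [hy, hx, idx_eq hR (by omega), idx_eq hR hix]

end abs

section one

variable {w : W0} {J : Set w.D} {ι : Type*} {F : ι → Set w.X} {r : ι → w.X} {b1 b2 wh : ι}
  {m1 m2 t2 t1 q : ℕ} {c : ℕ → w.D} {n : ℕ} {τc : ℕ → ℕ}

/-- **One fresh colouring.** `σ` : the plane colouring (`s₁₂` on what the loop sees, `t` elsewhere),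
`σ2` : the colouring of the world with the far sets frozen, `P` : one end of the excursion is in the
near window, `Φ` : a weight seen only in the near window. -/
theorem win_sum_le (x₀ : w.X) {σ σ2 : w.X → Bool} {s : ℕ} {Jm : Set w.D} {t : w.X → Bool}
    (h : H126.Win (TP w.hull x₀) (piB w.X w.B) w.O σ c n τc F r b1 b2 wh m1 m2 t2 t1 q)
    (hcol : ∀ v : w.X, v.1 ∉ w.B → σ v = t v) (hO : σ ((TP w.hull x₀).src (c 0)) = true)
    (h2 : ∀ v, (∀ i, v ∉ F i) → σ2 v = σ v) (hb1 : σ2 (r b1) = true) (hb2 : σ2 (r b2) = true)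
    (hw : σ2 (r wh) = false) (hJ : ∀ β ∈ Jm, (TP w.hull x₀).src β ∈ F wh) (hqs : q ≤ s)
    (hne : (arc (TP w.hull x₀) w.T w.O c s).Nonempty) {P : w.D → w.D → Prop}
    (hPn : ∀ d g iy ix, s ≤ iy → iy ≤ ix → ix < n →
      (TP w.hull x₀).apex g = (TP w.hull x₀).src (c iy) →
      (TP w.hull x₀).src d = (TP w.hull x₀).src (c ix) → P d g →
      H126.Near (TP w.hull x₀) F b1 b2 c iy ∨ H126.Near (TP w.hull x₀) F b1 b2 c ix)
    {Φ : w.D → ℂ} (hΦ : ∀ i, q ≤ i → i < n → (τc i < t2 ∨ t1 ≤ τc i) → Φ (c i) = 0)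
    (S : Finset w.D) (hS : ∀ d ∈ S, w.cap (arc (TP w.hull x₀) w.T w.O c s)
      (s1 (secB x₀) w.O t) d ∧ Cap w.T Jm (s1 (secB x₀) w.O t) d ∧
      P d (lst w.T (s1 (secB x₀) w.O t) d)) :
    ∑ d ∈ S, ‖((clH (TP w.hull x₀) c n d (lst w.T (s1 (secB x₀) w.O t) d)).map Φ).sum‖ ^ 2 ≤
      2 * tot (H532.tmap (TP w.hull x₀) (H532.col F r) h.coll.fib) σ2 Φ +
        2 * tot w.T (s1 (secB x₀) w.O t) (H126.gp w.T Φ) := by
  classical
  have hG := doorGeo w.hull w.fib x₀ (E := ∅) (arch := ∅) (ω := fun _ => true)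
    (empty_subset _) (subset_refl _) (fun _ h => absurd h (notMem_empty _))
    (fun _ _ _ h => absurd h (notMem_empty _))
  have key : ∀ d, ∃ iy ix, d ∈ S → s ≤ iy ∧ iy ≤ ix ∧ ix < n ∧
      (TP w.hull x₀).apex (lst w.T (s1 (secB x₀) w.O t) d) = (TP w.hull x₀).src (c iy) ∧
      (TP w.hull x₀).src d = (TP w.hull x₀).src (c ix) ∧
      clH (TP w.hull x₀) c n d (lst w.T (s1 (secB x₀) w.O t) d) = chain c iy ix := by
    intro d
    by_cases hd : d ∈ S
    · obtain ⟨h1, h3, h4, -⟩ := (hS d hd).1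
      obtain ⟨iy, ix, h5⟩ := clH_of_ring hG.planar hG.planar1 hG.contr hG.inj h.ring
        noloop_TP h3 h1 h4 hne
      exact ⟨iy, ix, fun _ => h5⟩
    · exact ⟨0, 0, fun hh => absurd hh hd⟩
  choose iy ix hi using key
  have hs1O : s1 (secB x₀) w.O t w.O = true := s1_O _ _ _
  have main := h.sum_le (T1 := w.T) hG.planar hG.planar1 hG.contr hG.inj
    (σ1 := s1 (secB x₀) w.O t) (σ2 := σ2)
    (fun v hv => by
      have hvB : v.1 ∉ w.B := fun h0 => hv (piB_eq_iff.2 h0)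
      rw [hcol v hvB]
      exact (hG.col1 (τ := t) hv).symm)
    (by rw [hs1O]; exact hO) h2 (by rw [hs1O]; exact hb1) (by rw [hs1O]; exact hb2)
    (by rw [hs1O, hw]; decide) hJ (S := S)
    (g := fun d => lst w.T (s1 (secB x₀) w.O t) d) (iy := iy) (ix := ix)
    (fun d hd => by
      obtain ⟨⟨h1, h3, h4, -⟩, h5, -⟩ := hS d hd
      obtain ⟨g1, g2, g3, g4, g5, -⟩ := hi d hd
      exact ⟨h3, h1, h5, lst_rel w.planar h3, (lst_apex w.planar h3).trans h1, hqs.trans g1, g2,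
        g3, g4, g5⟩)
    (fun d hd => by
      obtain ⟨g1, g2, g3, g4, g5, -⟩ := hi d hd
      exact hPn d _ _ _ g1 g2 g3 g4 g5 (hS d hd).2.2)
    (Θ := Φ) hΦ
  refine le_trans (le_of_eq ?_) main
  apply Finset.sum_congr rfl
  intro d hd
  rw [(hi d hd).2.2.2.2.2]

end one

/-! ### sums over cells and arcs -/

section sum

variable {w : W0} {J : Set w.D}

theorem msum_sum {K : Type*} (s : Finset K) (F : K → (w.V → Bool) → w.D → ℝ≥0∞) :
    w.msum J (fun σ d => ∑ k ∈ s, F k σ d) = ∑ k ∈ s, w.msum J (F k) := by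
  classical
  unfold W0.msum
  rw [← Finset.mul_sum]
  congr 1
  rw [Finset.sum_comm (s := s)]
  refine Finset.sum_congr rfl fun σ _ => ?_
  rw [Finset.sum_comm (s := s)]
  refine Finset.sum_congr rfl fun d _ => ?_
  by_cases hc : w.cap J σ d
  · simp only [if_pos hc]
  · simp only [if_neg hc, Finset.sum_const_zero]

end sum

variable {κ : Type} [Fintype κ] (s : AScene κ)

/-- **Row (win), the sums.** `C` : the constant in front of the windows; `Y i J k` : a bound of the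
window of the cell `k`; `Z` : a bound of its mean. -/
theorem cm_win_le {wn : ∀ i, κ → ((s.w i).V → Bool) → (s.w i).D → ℝ≥0∞} {K : ℕ} {C : ℝ≥0∞}
    (Fk : ∀ i, κ → ℕ → ((s.w i).V → Bool) → (s.w i).D → ℝ≥0∞)
    (hwn : ∀ i, s.p i ≠ 0 → ∀ J σ d, (s.w i).cap (s.Arc i J) σ d →
      wn i J σ d ≤ C * ∑ k ∈ Finset.range K, Fk i J k σ d)
    {Y : s.ι → κ → ℕ → ℝ≥0∞}
    (hY : ∀ i, s.p i ≠ 0 → ∀ J, ∀ k < K, (s.w i).msum (s.Arc i J) (Fk i J k) ≤ Y i J k)
    {Z : ℝ≥0∞} (hZ : ∀ J, ∀ k < K, ∑ i, s.p i * Y i J k ≤ Z) :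
    s.cm wn ≤ Fintype.card κ * (C * (K * Z)) := by
  have h1 : s.cm wn ≤ ∑ J, ∑ i, s.p i * (C * ∑ k ∈ Finset.range K, Y i J k) := by
    refine cm_le s fun i hi J => ?_
    refine (W0.msum_mono (F' := fun σ d => C * ∑ k ∈ Finset.range K, Fk i J k σ d)
      (fun σ d hd => hwn i hi J σ d hd)).trans ?_
    rw [W0.msum_const_mul, msum_sum]
    gcongr with k hk
    exact hY i hi J k (Finset.mem_range.1 hk)
  refine h1.trans ?_
  have h2 : ∀ J : κ, ∑ i, s.p i * (C * ∑ k ∈ Finset.range K, Y i J k) ≤ C * (K * Z) := by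
    intro J
    have e1 : ∑ i, s.p i * (C * ∑ k ∈ Finset.range K, Y i J k) =
        C * ∑ k ∈ Finset.range K, ∑ i, s.p i * Y i J k := by
      rw [Finset.sum_comm, Finset.mul_sum]
      refine Finset.sum_congr rfl fun i _ => ?_
      rw [← Finset.mul_sum]
      ring
    rw [e1]
    gcongr
    calc ∑ k ∈ Finset.range K, ∑ i, s.p i * Y i J k ≤ ∑ _k ∈ Finset.range K, Z :=
          Finset.sum_le_sum fun k hk => hZ J k (Finset.mem_range.1 hk)
      _ = K * Z := by rw [Finset.sum_const, Finset.card_range, nsmul_eq_mul]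
  calc ∑ J, ∑ i, s.p i * (C * ∑ k ∈ Finset.range K, Y i J k) ≤ ∑ _J : κ, C * (K * Z) :=
        Finset.sum_le_sum fun J _ => h2 J
    _ = _ := by rw [Finset.sum_const, Finset.card_univ, nsmul_eq_mul]

end Vale.Agent.P148.R2.H400
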