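import Vale.Agent.P148.R2.H400.Flip10
import Vale.Agent.P148.R2.H566.Omega3

/-!
# Row (door) of the third level (P148)

`msum_eq` : `W0.msum` as a mean over the colourings of the sites.
`msum_door_le` : the energy of the closed classes of the captured excursions is at most `1 / c`
times the mean of `MQ` of the composite colouring.
`cm_door_le` : scene form.
-/

set_option linter.unusedSectionVars false

open Set Metric Function
open scoped ENNReal

namespace Vale.Agent.P148.R2.H400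

open H592 H184 H203 H871 H838 Vale.Agent.P148.R2.H258 H910 H659 H566

section abs

variable {V D : Type*} {T : Tri V D}

theorem isRet_neg (σ : V → Bool) (d : D) (n : ℕ) : IsRet T (neg σ) d n ↔ IsRet T σ d n := by
  unfold IsRet
  rw [st_neg]

theorem ret_neg [Finite D] (σ : V → Bool) (d : D) : ret T (neg σ) d = ret T σ d :=
  (ret_spec T (neg σ) d).unique ((isRet_neg σ d _).2 (ret_spec T σ d))

theorem lst_neg [Finite D] (σ : V → Bool) (d : D) : lst T (neg σ) d = lst T σ d := by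
  unfold lst
  rw [ret_neg, st_neg]

theorem cls_neg [Fintype D] (σ : V → Bool) (d : D) (Φ : D → ℂ) :
    T.cls (neg σ) d Φ = T.cls σ d Φ := by
  classical
  unfold H258.Tri.cls
  apply Finset.sum_congr rfl
  intro e _
  by_cases he : T.Rel σ e d
  · rw [if_pos he, if_pos ((rel_neg T σ e d).2 he)]
  · rw [if_neg he, if_neg (fun h => he ((rel_neg T σ e d).1 h))]

end abs

section one

variable {w : W0} {J : Set w.D}

theorem cap_iff {σ : w.V → Bool} {d : w.D} :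
    w.cap J σ d ↔ w.T.src d = w.O ∧ Reach w.T J (w.Lo Asq) σ d :=
  ⟨fun ⟨h1, h2, h3, h4, r, h5, h6⟩ => ⟨h1, h4, h3, h2, r, h5, h6⟩,
    fun ⟨h1, h4, h3, h2, r, h5, h6⟩ => ⟨h1, h2, h3, h4, r, h5, h6⟩⟩

theorem cap_neg {σ : w.V → Bool} {d : w.D} : w.cap J (neg σ) d ↔ w.cap J σ d := by
  rw [cap_iff, cap_iff, reach_neg]

open Classical in
/-- The mean over all colourings of world 0 as a mean over the colourings of the sites. -/
theorem msum_eq [Fintype w.X] (x₀ : w.X) {F : (w.V → Bool) → w.D → ℝ≥0∞}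
    (hF : ∀ σ d, F (neg σ) d = F σ d) :
    w.msum J F = (2 ^ Fintype.card w.X)⁻¹ * ∑ τ : w.X → Bool, ∑ d,
      if w.cap J (s1 (secB x₀) w.O τ) d then F (s1 (secB x₀) w.O τ) d else 0 := by
  set G : (w.V → Bool) → ℝ≥0∞ := fun σ => ∑ d, if w.cap J σ d then F σ d else 0 with hG
  have hneg : ∀ σ, G (neg σ) = G σ := by
    intro σ
    rw [hG]
    apply Finset.sum_congr rfl
    intro d _
    by_cases hd : w.cap J σ d
    · rw [if_pos hd, if_pos (cap_neg.2 hd), hF]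
    · rw [if_neg hd, if_neg (fun h => hd (cap_neg.1 h))]
  have h1 : w.msum J F = (2 ^ Fintype.card w.V)⁻¹ * ∑ σ : w.V → Bool, G σ := rfl
  have h3 : ∑ σ : w.V → Bool, G σ = 2 * ∑ σ : w.V → Bool, (if σ w.O = true then G σ else 0) := by
    refine (sum_inst _ _ _).trans ((sum_eq_two_mul w.O G hneg).trans ?_)
    exact congrArg (fun x => 2 * x) (sum_inst _ _ _)
  have h2 : (2 ^ Fintype.card w.X)⁻¹ * ∑ τ : w.X → Bool, G (s1 (secB x₀) w.O τ) =
      2 * ((2 ^ Fintype.card w.V)⁻¹ * ∑ σ : w.V → Bool, if σ w.O = true then G σ else 0) := by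
    refine (avg_inst _ _ _ _ _).trans ((mean_s1 (secB_inj x₀) G).trans ?_)
    exact congrArg (fun x => 2 * x) (avg_inst _ _ _ _ _)
  rw [h1, h3, mul_left_comm, ← h2]

variable {x₀ : w.X} {E arch : Set ℂ} {ω : ℂ → Bool} {H : w.D → w.D → List w.D}

/-- The value of the closing chain of an excursion, for the weight of the plane world. -/
noncomputable def hvl (w : W0) (x₀ : w.X) (H : w.D → w.D → List w.D) (Θ : Dt → ℂ)
    (σ : w.V → Bool) (d : w.D) : ℂ :=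
  ((H d (lst w.T σ d)).map (wt w.hull (idmap w.X x₀) (fib_id w.X x₀) Θ)).sum

theorem hvl_neg (Θ : Dt → ℂ) (σ : w.V → Bool) (d : w.D) :
    hvl w x₀ H Θ (neg σ) d = hvl w x₀ H Θ σ d := by
  unfold hvl
  rw [lst_neg]

/-- The closing chain is an explored quantity. -/
theorem hvl_congr (Θ : Dt → ℂ) {σ σ' : w.V → Bool} {d : w.D}
    (hσ : ∀ v ∈ Ex w.T d σ, σ' v = σ v) : hvl w x₀ H Θ σ' d = hvl w x₀ H Θ σ d := by
  unfold hvl
  rw [lst_congr hσ]

open Classical in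
/-- **Row (door), one world.** -/
theorem msum_door_le [Fintype w.X] (hD : ArcData w x₀ E arch ω J H (w.Lo Asq))
    {K : (w.X → Bool) → Prop}
    (hK : ∀ τ τ' : w.X → Bool, (∀ v : w.X, v.1 ∈ w.B → τ' v = τ v) → K τ → K τ')
    {c : ℝ} (hc0 : 0 < c)
    (hc : ∀ τ d, CntB w.hull w.fib x₀ E J (w.Lo Asq) τ d →
      c ≤ pr (fun τ' => Door (TP w.hull x₀) (vs w.X E) (ExB w.hull w.fib x₀ d τ) (vs w.X arch) τ' ∧
        K τ'))
    {Q : Set ℂ} {κ : Type*} (Q' : κ → Set ℂ) (Θ : Dt → ℂ)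
    {p : ℂ} {r ρ : ℝ} (hρ : 0 < ρ) (hnet : H990.Net w.X (closedBall p (6 * r + 2 * ρ)) ρ)
    (hQ : ∀ z, H995.nsup (z - p) < 3 * r + 2 * ρ → z ∈ Q)
    (hb : ∀ j, 3 * r ≤ H995.nsup (w.b j - p))
    (hend : ∀ q : w.D, tail q ∈ w.B → head q ∉ w.B →
      H995.nsup (tail q - p) ≤ r ∧ H995.nsup (head q - p) ≤ r)
    (hfar : ∀ i, ∀ d e : w.D, tail d ∈ w.B → head d ∉ w.B → w.Lo Asq e →
      ¬ (LF w.X (Q' i) (dt d) ∧ LF w.X (Q' i) (dt e)))
    {k : Bool}
    (hno : ∀ τ, K τ → ¬ H995.SqArm (nbr w.X)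
      (H664.colS w.X (idmap w.X x₀) (mixB w.X E ω τ) k) p r (3 * r)) :
    w.msum J (fun σ d => ENNReal.ofReal (‖w.T.cls σ d (w.th Θ) + hvl w x₀ H Θ σ d‖ ^ 2)) ≤
      (ENNReal.ofReal c)⁻¹ * ((2 ^ Fintype.card w.X)⁻¹ * ∑ τ : w.X → Bool,
        MQ w.X Q Q' (pc (idmap w.X x₀) (mixB w.X E ω τ)) Θ) := by
  set Ψ : w.D → ℂ := wt w.hull (idmap w.X x₀) (fib_id w.X x₀) Θ with hΨ
  have hcnt := hD.cnt
  have hclo : ∀ (τ : w.X → Bool) (d : w.D), CntB w.hull w.fib x₀ E J (w.Lo Asq) τ d →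
      Closing (TP w.hull x₀) (vs w.X E) (vs w.X arch) (fun x : w.X => ω x.1) d
        (lstB w.hull w.fib x₀ d τ) (H d (lstB w.hull w.fib x₀ d τ)) := by
    intro τ d h1
    obtain ⟨h2, h3⟩ := (hcnt τ d).1 h1
    exact hD.clo τ d h2 h3
  rw [msum_eq x₀ (fun σ d => by rw [cls_neg, hvl_neg])]
  have main := door_MQ w.hull w.fib x₀ (J := J) (R := w.Lo Asq) hD.EB hD.arch_sub hD.arch_col
    hD.arch_adj (H := H) hclo hK hc0.le hc (Q := Q) Q' Θ
      (fun τ hk d hd => local_of w.hull w.fib x₀ hD.EB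
        hD.arch_sub hD.arch_col hD.arch_adj (H := H) hclo hρ hnet hQ hb hend hfar (hno τ hk) hd)
  set N : ℝ≥0∞ := (2 ^ Fintype.card w.X)⁻¹ with hN
  set M : ℝ≥0∞ := ∑ τ : w.X → Bool, MQ w.X Q Q' (pc (idmap w.X x₀) (mixB w.X E ω τ)) Θ with hM
  set C : ℝ≥0∞ := ∑ τ : w.X → Bool, ∑ d, ENNReal.ofReal (cval (TP w.hull x₀) (TB w.hull w.fib)
    (secB x₀) (Sum.inl ()) (vs w.X E) (Reach (TB w.hull w.fib) J (w.Lo Asq)) H Ψ τ d) with hC
  have hCM : C ≤ (ENNReal.ofReal c)⁻¹ * M := by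
    have hc1 : ENNReal.ofReal c ≠ 0 := by
      rw [Ne, ENNReal.ofReal_eq_zero, not_le]; exact hc0
    rw [← ENNReal.mul_le_mul_iff_right hc1 ENNReal.ofReal_ne_top, ← mul_assoc,
      ENNReal.mul_inv_cancel hc1 ENNReal.ofReal_ne_top, one_mul]
    exact main
  have hle : (∑ τ : w.X → Bool, ∑ d,
      (if w.cap J (s1 (secB x₀) w.O τ) d then
        ENNReal.ofReal (‖w.T.cls (s1 (secB x₀) w.O τ) d (w.th Θ) +
          hvl w x₀ H Θ (s1 (secB x₀) w.O τ) d‖ ^ 2) else 0)) = C := by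
    rw [hC]
    apply Finset.sum_congr rfl
    intro τ _
    apply Finset.sum_congr rfl
    intro d _
    by_cases h1 : w.cap J (s1 (secB x₀) w.O τ) d
    · have h0 := cap_iff.1 h1
      have h2 : Cnt (TP w.hull x₀) (TB w.hull w.fib) (secB x₀) (Sum.inl ()) (vs w.X E)
        (Reach (TB w.hull w.fib) J (w.Lo Asq)) τ d := (hcnt τ d).2 h0
      unfold cval
      rw [if_pos h1, if_pos h2, cls_th x₀ Θ h0.2.2.2.1, ← hΨ]
      rfl
    · have h2 : ¬ Cnt (TP w.hull x₀) (TB w.hull w.fib) (secB x₀) (Sum.inl ()) (vs w.X E)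
        (Reach (TB w.hull w.fib) J (w.Lo Asq)) τ d := by
        intro h2
        exact h1 (cap_iff.2 ((hcnt τ d).1 h2))
      unfold cval
      rw [if_neg h1, if_neg h2, ENNReal.ofReal_zero]
  rw [hle]
  calc N * C ≤ N * ((ENNReal.ofReal c)⁻¹ * M) := by gcongr
    _ = _ := by ring

end one

/-! ### scene form -/

variable {κ : Type} [Fintype κ] (s : AScene κ)

/-- **Row (door), scene form.** -/
theorem cm_le {F : ∀ i, κ → ((s.w i).V → Bool) → (s.w i).D → ℝ≥0∞} {Y : s.ι → κ → ℝ≥0∞}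
    (h : ∀ i, s.p i ≠ 0 → ∀ J, (s.w i).msum (s.Arc i J) (F i J) ≤ Y i J) :
    s.cm F ≤ ∑ J, ∑ i, s.p i * Y i J := by
  unfold AScene.cm
  rw [Finset.sum_comm]
  refine Finset.sum_le_sum fun i _ => ?_
  by_cases h0 : s.p i = 0
  · simp [h0]
  rw [← Finset.mul_sum]
  gcongr with J
  exact h i h0 J

end Vale.Agent.P148.R2.H400
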