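import Vale.Agent.P148.R2.H400.Flip6
import Vale.Agent.P148.R2.H871.CW3
import Vale.Agent.P148.R2.H664.Conf

/-!
# Doors on the Delaunay triangulation (P148, row FLIPA)

The plane world is `tri258 (idmap X x₀)`, world 0 is `tri258 (cmap X B)` with one frozen class `B`.
The captured excursions are classes of plane loops, different for different excursions; when they are
local in `Q` and in none of the squares `Q' i`, their energy is part of `MQ`.
-/

set_option linter.unusedSectionVars false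

open Set Metric Function
open scoped ENNReal

namespace Vale.Agent.P148.R2.H400

open H592 H184 H203 H871 H838 Vale.Agent.P148.R2.H258

/-- The vertices (as a subtype) in a set of points. -/
def vs (X E : Set ℂ) : Set X := {x | x.1 ∈ E}

section world

variable {X : Set ℂ} {b : ZMod 3 → ℂ} (h : HullTri X b) {B : Set ℂ}
  (hF : Fib X (cmap X fun _ : Unit => B)) (x₀ : X)

/-- The plane world. -/
noncomputable abbrev TP : Tri X (Fc X b × ZMod 3) := h.tri258 (idmap X x₀) (fib_id X x₀)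

/-- World 0. -/
noncomputable abbrev TB : Tri (CV X fun _ : Unit => B) (Fc X b × ZMod 3) :=
  h.tri258 (cmap X fun _ : Unit => B) hF

/-- The section of the contraction. -/
def secB (x₀ : X) : CV X (fun _ : Unit => B) → X := Sum.elim (fun _ => x₀) fun v => ⟨v.1, v.2.1⟩

/-- The contraction. -/
noncomputable abbrev piB (X B : Set ℂ) : X → CV X (fun _ : Unit => B) :=
  fun x => cmap X (fun _ : Unit => B) x.1

theorem pd_unit : Pairwise fun i j : Unit => Disjoint ((fun _ : Unit => B) i) ((fun _ : Unit => B) j) :=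
  fun i j hij => absurd (Subsingleton.elim i j) hij

theorem piB_eq_iff {v : X} : piB X B v = Sum.inl () ↔ v.1 ∈ B :=
  ⟨fun h1 => mem_of_cmap v.2 h1, fun h1 => cmap_of_mem (j := ()) pd_unit h1⟩

theorem secB_piB {v : X} (hv : piB X B v ≠ Sum.inl ()) : secB x₀ (piB X B v) = v := by
  have h1 : ∀ j : Unit, v.1 ∉ (fun _ : Unit => B) j := fun _ hj => hv (piB_eq_iff.2 hj)
  unfold piB
  rw [cmap_of_free v.2 h1]
  rfl

theorem src_TP (q : Fc X b × ZMod 3) : ((TP h x₀).src q).1 = tail q := src0 h x₀ q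

theorem tgt_TP (q : Fc X b × ZMod 3) : ((TP h x₀).tgt q).1 = head q := by
  rw [tgt_eq]
  exact idmap_val (h.nbr_th q).2.1

theorem src_TB (q : Fc X b × ZMod 3) : (TB h hF).src q = cmap X (fun _ : Unit => B) (tail q) := rfl

theorem contrB : Contr (TP h x₀) (TB h hF) (piB X B) :=
  contr_tri258 h _ _ fun x hx => by
    show cmap X (fun _ : Unit => B) x = cmap X (fun _ : Unit => B) (idmap X x₀ x).1
    rw [idmap_val hx]

theorem nbr_dt (q : Fc X b × ZMod 3) : nbr X ((TP h x₀).src q).1 ((TP h x₀).tgt q).1 := by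
  rw [src_TP, tgt_TP]; exact h.nbr_th q

/-- The geometric data of the door on the Delaunay triangulation. -/
theorem doorGeo {E arch : Set ℂ} {ω : ℂ → Bool} (hEB : E ⊆ B) (harch : arch ⊆ E)
    (hcol : ∀ a ∈ arch, ω a = false) (hadj : ∀ u v, nbr X u v → u ∈ arch → v ∈ B) :
    DoorGeo (TP h x₀) (TB h hF) (piB X B) (secB x₀) (Sum.inl ()) (vs X E) (vs X arch)
      (fun x : X => ω x.1) where
  planar := h.planar258 _ _
  planar1 := h.planar258 _ _
  contr := contrB h hF x₀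
  sec v hv := secB_piB x₀ hv
  fib v hv := piB_eq_iff.2 (hEB hv)
  noloop f hf he := by
    have hC := contrB h hF x₀
    rw [hC.src] at hf he
    rw [hC.tgt] at he
    have h1 : (TP h x₀).tgt f = (TP h x₀).src f := by
      have h2 : piB X B ((TP h x₀).tgt f) ≠ Sum.inl () := by rw [he]; exact hf
      rw [← secB_piB x₀ h2, he, secB_piB x₀ hf]
    exact (nbr_dt h x₀ f).2.2.1 (by rw [h1])
  arch_sub := fun v hv => harch hv
  arch_col := fun v hv => hcol _ hv
  arch_adj e he := piB_eq_iff.2 (hadj _ _ (nbr_dt h x₀ e) he)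

/-- The value of a class of the plane world which is a local loop. -/
theorem cls_wt [Finite X] [Fintype (Fc X b × ZMod 3)] {V : Type*} [Finite V] (π : ℂ → V)
    (hπ : Fib X π) {Q : Set ℂ} (hFa : Faith X Q π) (Θ : Dt → ℂ) {σ : V → Bool}
    {q : Fc X b × ZMod 3} (hq : InL X Q (pc π σ) (dt q)) :
    (h.tri258 π hπ).cls σ q (wt h π hπ Θ) = W X Q (pc π σ) Θ (dt q) := by
  classical
  rw [← H184.cls_eq h π hπ hFa Θ hq]
  have hS := sat_inL h π hπ Q hFa σ
  unfold H258.Tri.cls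
  apply Finset.sum_congr rfl
  intro e _
  by_cases he : (h.tri258 π hπ).Rel σ e q
  · rw [if_pos he, if_pos he]
    have hin : InL X Q (pc π σ) (dt e) := (hS.iff he).2 hq
    unfold thQ wt
    rw [if_pos hin.lf, if_pos (LF.good h π hπ hFa hin.lf)]
  · rw [if_neg he, if_neg he]

theorem faith_id (Q : Set ℂ) : Faith X Q (idmap X x₀) := by
  intro x hx _ y hy hxy
  have := congrArg Subtype.val hxy
  rwa [idmap_val hx, idmap_val hy] at this

/-- Excursions facing `J` which do not start in `J` and have a member in `R`. -/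
def Reach {V D : Type*} (T : Tri V D) (J : Set D) (R : D → Prop) (σ : V → Bool) (d : D) : Prop :=
  d ∉ J ∧ Facing T J σ d ∧ Start T σ d ∧ ∃ e, T.Rel σ d e ∧ R e

theorem Reach.congr {V D : Type*} [Finite D] {T : Tri V D} (hP : T.Planar) {J : Set D}
    {R : D → Prop} (d : D) (σ σ' : V → Bool) (hσ : ∀ v ∈ Ex T d σ, σ' v = σ v)
    (h : Reach T J R σ d) : Reach T J R σ' d := by
  obtain ⟨h0, h1, h2, e, h3, h4⟩ := h
  exact ⟨h0, facing_congr hP h2 hσ h1, start_congr hσ h2, e,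
    ((ret_spec T σ d).rel_congr hP h2.1 hσ e).2 h3, h4⟩

end world

/-- A sum over a finite type does not depend on the instance. -/
theorem sum_inst {α M : Type*} [AddCommMonoid M] (i j : Fintype α) (F : α → M) :
    @Finset.sum α M _ (@Finset.univ α i) F = @Finset.sum α M _ (@Finset.univ α j) F := by
  rw [Subsingleton.elim i j]

/-- A mean over colourings does not depend on the instances. -/
theorem avg_inst {V : Type*} (i j : Fintype V) (i' j' : Fintype (V → Bool))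
    (F : (V → Bool) → ℝ≥0∞) :
    (2 ^ @Fintype.card V i)⁻¹ * @Finset.sum (V → Bool) ℝ≥0∞ _ (@Finset.univ _ i') F =
      (2 ^ @Fintype.card V j)⁻¹ * @Finset.sum (V → Bool) ℝ≥0∞ _ (@Finset.univ _ j') F := by
  rw [Subsingleton.elim i j, Subsingleton.elim i' j']

section main

variable {X : Set ℂ} {b : ZMod 3 → ℂ} (h : HullTri X b) {B : Set ℂ}
  (hF : Fib X (cmap X fun _ : Unit => B)) (x₀ : X) {E arch : Set ℂ} {ω : ℂ → Bool}
  {J : Set (Fc X b × ZMod 3)} {R : Fc X b × ZMod 3 → Prop}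

/-- The counted excursions. -/
def CntB [Finite X] (E : Set ℂ) (J : Set (Fc X b × ZMod 3)) (R : Fc X b × ZMod 3 → Prop)
    (τ : X → Bool) (d : Fc X b × ZMod 3) : Prop :=
  haveI := h.finite_Fc
  Cnt (TP h x₀) (TB h hF) (secB x₀) (Sum.inl ()) (vs X E) (Reach (TB h hF) J R) τ d

/-- The explored vertices of an excursion. -/
def ExB [Finite X] (d : Fc X b × ZMod 3) (τ : X → Bool) : Set X :=
  haveI := h.finite_Fc
  ExT (TB h hF) (piB X B) (secB x₀) (Sum.inl ()) d τ

/-- The last dart. -/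
noncomputable def lstB [Finite X] (d : Fc X b × ZMod 3) (τ : X → Bool) : Fc X b × ZMod 3 :=
  haveI := h.finite_Fc
  lst (TB h hF) (s1 (secB x₀) (Sum.inl ()) τ) d

/-- The colouring: `ω` on `E`, fresh elsewhere. -/
noncomputable def mixB (X E : Set ℂ) (ω : ℂ → Bool) (τ : X → Bool) : X → Bool :=
  mix (vs X E) (fun x : X => ω x.1) τ

variable [Fintype X] [Fintype (Fc X b × ZMod 3)]

/-- Criterion of locality of the captured classes: outer confinement (helper664) and one member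
far away. -/
theorem local_of (hEB : E ⊆ B) (harch : arch ⊆ E) (hcol : ∀ a ∈ arch, ω a = false)
    (hadj : ∀ u v, nbr X u v → u ∈ arch → v ∈ B)
    {H : Fc X b × ZMod 3 → Fc X b × ZMod 3 → List (Fc X b × ZMod 3)}
    (hH : ∀ τ d, CntB h hF x₀ E J R τ d →
      Closing (TP h x₀) (vs X E) (vs X arch) (fun x : X => ω x.1) d (lstB h hF x₀ d τ)
        (H d (lstB h hF x₀ d τ)))
    {p : ℂ} {r ρ : ℝ} (hρ : 0 < ρ) (hnet : H990.Net X (closedBall p (6 * r + 2 * ρ)) ρ)
    {Q : Set ℂ} (hQ : ∀ z, H995.nsup (z - p) < 3 * r + 2 * ρ → z ∈ Q)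
    (hb : ∀ j, 3 * r ≤ H995.nsup (b j - p))
    (hend : ∀ q : Fc X b × ZMod 3, tail q ∈ B → head q ∉ B →
      H995.nsup (tail q - p) ≤ r ∧ H995.nsup (head q - p) ≤ r)
    {κ : Type*} {Q' : κ → Set ℂ}
    (hfar : ∀ i, ∀ d e : Fc X b × ZMod 3, tail d ∈ B → head d ∉ B → R e →
      ¬ (LF X (Q' i) (dt d) ∧ LF X (Q' i) (dt e)))
    {c : Bool} {τ : X → Bool}
    (hno : ¬ H995.SqArm (nbr X) (H664.colS X (idmap X x₀) (mixB X E ω τ) c) p r (3 * r))
    {d : Fc X b × ZMod 3} (hd : d ∈ capSet (TP h x₀) (TB h hF) (piB X B) (secB x₀) (Sum.inl ())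
      (vs X E) (vs X arch) (Reach (TB h hF) J R) τ) :
    InL X Q (pc (idmap X x₀) (mixB X E ω τ)) (dt d) ∧
      ∀ i, ¬ InL X (Q' i) (pc (idmap X x₀) (mixB X E ω τ)) (dt d) := by
  classical
  have hG := doorGeo h hF x₀ hEB harch hcol hadj
  have hcf := hG.capFam (G := Reach (TB h hF) J R) (H := H) (τ := τ) (hH τ)
  have hcap := hcf.cap d hd
  have hmi : (TP h x₀).Mi (mixB X E ω τ) d := hcf.mi hG.planar hG.planar1 hG.contr d hd
  obtain ⟨-, hcnt, -⟩ := Finset.mem_filter.1 hd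
  have hs : (TB h hF).src d = Sum.inl () := hcnt.1
  have ht : tail d ∈ B := mem_of_cmap (h.nbr_th d).1 hs
  have hh : head d ∉ B := by
    intro hh
    have h1 := hcnt.2.1.tgt_false hs
    rw [tgt_eq, show cmap X (fun _ : Unit => B) (dt d).2.1 = Sum.inl () from
      cmap_of_mem (j := ()) pd_unit hh, s1_O] at h1
    exact absurd h1 (by decide)
  obtain ⟨e1, e2⟩ := hend d ht hh
  have hin := (H664.confine' h (idmap X x₀) (fib_id X x₀) hρ hnet hQ hb hno hmi.bi e1 e2).2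
  refine ⟨hin, fun i hi => ?_⟩
  obtain ⟨-, -, -, e, he, hRe⟩ := hcnt.2.2.2
  have h1 : (TP h x₀).Rel (mixB X E ω τ) d e :=
    (hcap.rel_iff hG.planar hG.planar1 hG.contr e).2 (Or.inl he)
  have h2 := (H184.rel_iff h (idmap X x₀) (fib_id X x₀) (faith_id x₀ (Q' i)) hi).1 h1
  exact hfar i d e ht hh hRe ⟨hi.lf, (Rl.inL_right h.three h2).lf⟩

open Classical in
/-- **Doors on the Delaunay triangulation.** -/
theorem door_MQ (hEB : E ⊆ B) (harch : arch ⊆ E) (hcol : ∀ a ∈ arch, ω a = false)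
    (hadj : ∀ u v, nbr X u v → u ∈ arch → v ∈ B)
    {H : Fc X b × ZMod 3 → Fc X b × ZMod 3 → List (Fc X b × ZMod 3)}
    (hH : ∀ τ d, CntB h hF x₀ E J R τ d →
      Closing (TP h x₀) (vs X E) (vs X arch) (fun x : X => ω x.1) d (lstB h hF x₀ d τ)
        (H d (lstB h hF x₀ d τ)))
    {K : (X → Bool) → Prop} (hK : ∀ τ τ' : X → Bool, (∀ v : X, v.1 ∈ B → τ' v = τ v) → K τ → K τ')
    {c : ℝ} (hc0 : 0 ≤ c)
    (hc : ∀ τ d, CntB h hF x₀ E J R τ d →
      c ≤ pr (fun τ' => Door (TP h x₀) (vs X E) (ExB h hF x₀ d τ) (vs X arch) τ' ∧ K τ'))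
    {Q : Set ℂ} {κ : Type*} (Q' : κ → Set ℂ) (Θ : Dt → ℂ)
    (hQ : ∀ τ, K τ → ∀ d ∈ capSet (TP h x₀) (TB h hF) (piB X B) (secB x₀) (Sum.inl ()) (vs X E)
      (vs X arch) (Reach (TB h hF) J R) τ,
      InL X Q (pc (idmap X x₀) (mixB X E ω τ)) (dt d) ∧
        ∀ i, ¬ InL X (Q' i) (pc (idmap X x₀) (mixB X E ω τ)) (dt d)) :
    ENNReal.ofReal c * ∑ τ : X → Bool, ∑ d, ENNReal.ofReal (cval (TP h x₀) (TB h hF) (secB x₀)
      (Sum.inl ()) (vs X E) (Reach (TB h hF) J R) H (wt h (idmap X x₀) (fib_id X x₀) Θ) τ d) ≤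
      ∑ τ : X → Bool, MQ X Q Q' (pc (idmap X x₀) (mixB X E ω τ)) Θ := by
  have hG := doorGeo h hF x₀ hEB harch hcol hadj
  have hR : ∀ d σ σ', (TB h hF).src d = Sum.inl () → (∀ v ∈ Ex (TB h hF) d σ, σ' v = σ v) →
      Reach (TB h hF) J R σ d → Reach (TB h hF) J R σ' d := fun d σ σ' _ h1 h2 =>
    Reach.congr hG.planar1 d σ σ' h1 h2
  have hKB : ∀ τ τ' : X → Bool, (∀ v, piB X B v = Sum.inl () → τ' v = τ v) → K τ → K τ' :=
    fun τ τ' h1 h2 => hK τ τ' (fun v hv => h1 v (piB_eq_iff.2 hv)) h2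
  set Ψ := wt h (idmap X x₀) (fib_id X x₀) Θ with hΨ
  have main : c * ∑ τ : X → Bool, ∑ d, cval (TP h x₀) (TB h hF) (secB x₀)
        (Sum.inl ()) (vs X E) (Reach (TB h hF) J R) H Ψ τ d ≤
      ∑ τ : X → Bool, (if K τ then
        ∑ d ∈ capSet (TP h x₀) (TB h hF) (piB X B) (secB x₀) (Sum.inl ()) (vs X E) (vs X arch)
        (Reach (TB h hF) J R) τ,
        ‖(TP h x₀).cls (mix (vs X E) (fun x : X => ω x.1) τ) d Ψ‖ ^ 2 else 0) := by
    have h0 := hG.energyK hR (H := H) hH Ψ hKB hc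
    refine (le_of_eq ?_).trans (h0.trans (le_of_eq ?_))
    · exact congrArg (fun x => c * x) (sum_inst _ _ _)
    · exact sum_inst _ _ _
  have hnn : ∀ τ d, 0 ≤ cval (TP h x₀) (TB h hF) (secB x₀)
      (Sum.inl ()) (vs X E) (Reach (TB h hF) J R) H Ψ τ d := by
    intro τ d
    unfold cval
    split_ifs <;> positivity
  have e1 : ENNReal.ofReal c * ∑ τ : X → Bool, ∑ d, ENNReal.ofReal (cval (TP h x₀) (TB h hF)
      (secB x₀) (Sum.inl ()) (vs X E) (Reach (TB h hF) J R) H Ψ τ d) =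
      ENNReal.ofReal (c * ∑ τ : X → Bool, ∑ d, cval (TP h x₀) (TB h hF) (secB x₀)
        (Sum.inl ()) (vs X E) (Reach (TB h hF) J R) H Ψ τ d) := by
    rw [ENNReal.ofReal_mul hc0, ENNReal.ofReal_sum_of_nonneg
      (fun τ _ => Finset.sum_nonneg fun d _ => hnn τ d)]
    congr 1
    apply Finset.sum_congr rfl
    intro τ _
    rw [ENNReal.ofReal_sum_of_nonneg (fun d _ => hnn τ d)]
  rw [e1]
  refine (ENNReal.ofReal_le_ofReal main).trans ?_
  have hnn2 : ∀ τ : X → Bool, 0 ≤ (if K τ then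
      ∑ d ∈ capSet (TP h x₀) (TB h hF) (piB X B) (secB x₀) (Sum.inl ()) (vs X E) (vs X arch)
        (Reach (TB h hF) J R) τ,
        ‖(TP h x₀).cls (mix (vs X E) (fun x : X => ω x.1) τ) d Ψ‖ ^ 2 else 0) := by
    intro τ
    split_ifs
    · exact Finset.sum_nonneg fun d _ => by positivity
    · exact le_rfl
  rw [ENNReal.ofReal_sum_of_nonneg (fun τ _ => hnn2 τ)]
  apply Finset.sum_le_sum
  intro τ _
  by_cases hk : K τ
  · rw [if_pos hk, ENNReal.ofReal_sum_of_nonneg (fun d _ => by positivity)]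
    set S := capSet (TP h x₀) (TB h hF) (piB X B) (secB x₀) (Sum.inl ()) (vs X E) (vs X arch)
      (Reach (TB h hF) J R) τ with hS
    have hcf := hG.capFam (G := Reach (TB h hF) J R) (H := H) (τ := τ) (hH τ)
    have e2 : ∑ d ∈ S, ENNReal.ofReal
        (‖(TP h x₀).cls (mix (vs X E) (fun x : X => ω x.1) τ) d Ψ‖ ^ 2) =
        ∑ d' ∈ S.image dt, ENNReal.ofReal
          (‖W X Q (pc (idmap X x₀) (mixB X E ω τ)) Θ d'‖ ^ 2) := by
      rw [Finset.sum_image (fun x _ y _ hxy => dt_injective h hxy)]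
      apply Finset.sum_congr rfl
      intro d hd
      rw [← cls_wt h (idmap X x₀) (fib_id X x₀) (faith_id x₀ Q) Θ (hQ τ hk d hd).1]
      rfl
    rw [e2]
    refine sum_class_le_MQ h.three Q' Θ _ ?_ ?_
    · intro d' hd' e' he' hr
      obtain ⟨d, hd, rfl⟩ := Finset.mem_image.1 hd'
      obtain ⟨e, he, rfl⟩ := Finset.mem_image.1 he'
      congr 1
      apply hcf.inj hG.planar hG.planar1 hG.contr d hd e he
      exact (H184.rel_iff h (idmap X x₀) (fib_id X x₀) (faith_id x₀ Q) (hQ τ hk d hd).1).2 hr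
    · intro d' hd' i
      obtain ⟨d, hd, rfl⟩ := Finset.mem_image.1 hd'
      exact (hQ τ hk d hd).2 i
  · rw [if_neg hk, ENNReal.ofReal_zero]
    exact zero_le

end main

end Vale.Agent.P148.R2.H400
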