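import Vale.Agent.P148.R2.H400.Flip5

/-!
# Footprints and facing arcs; doors with an extra event

`cap_facing` : a set of boundary darts inside the footprint of an excursion (face potential zero on
both sides, first and last dart excluded) is strictly inside the tour interval.
-/

namespace Vale.Agent.P148.R2.H400

open Function Vale.Agent.P148.R2.H258 Vale.Agent.P148.R2.H871 Vale.Agent.P148.R2.H838

variable {V V1 D : Type*} {T : Tri V D} {T1 : Tri V1 D} {π : V → V1}

theorem Facing.mono {σ : V → Bool} {d : D} {J J' : Set D} (h : Facing T J σ d) (hJ : J' ⊆ J) :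
    Facing T J' σ d := fun b hb => h b (hJ hb)

/-- **Capturable arcs are faced.** -/
theorem cap_facing [Finite D] (hP : T.Planar) {σ : V → Bool} {d : D} (hd : Start T σ d)
    {J : Set D} (horb : ∀ e ∈ J, OutD T (T.src d) e ∧ WalkOff T (T.src d) (T.tgt d) (T.tgt e))
    (hpot : ∀ e ∈ J, T.pot σ d e = 0 ∧ T.pot σ d (T.rev e) = 0)
    (hlast : ∀ f, T.Rel σ d f → T.apex f = T.src d → T.nxt (T.nxt f) ∉ J) :
    Facing T J σ d := by
  obtain ⟨f, m, N, hRf, hapf, hmN, hN, hdist, hm, hp1, hp2, -⟩ := foot hP hd.1 hd.2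
  set O := T.src d with hO
  have hdO : OutD T O d := ⟨rfl, fun hh => hd.1.1 (by rw [hh])⟩
  have hN0 : 0 < N := by omega
  intro b hb
  obtain ⟨hbO, hwo⟩ := horb b hb
  obtain ⟨j0, hj0⟩ := tour_orbit hP hdO hbO hwo
  have hper : IsPeriodicPt (tour T O) N d := hN
  obtain ⟨j, hjN, hj⟩ : ∃ j < N, (tour T O)^[j] d = b :=
    ⟨j0 % N, Nat.mod_lt _ hN0, by rw [hper.iterate_mod_apply, hj0]⟩
  obtain ⟨h1, h2⟩ := hpot b hb
  rw [← hj, hp1 j hjN] at h1
  rw [← hj, hp2 j hjN] at h2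
  have hjm : j ≤ m := by
    by_contra hcon
    rw [if_neg hcon] at h1
    exact absurd h1 (by decide)
  have hjne : j ≠ m := by
    rintro rfl
    apply hlast f hRf hapf
    rw [← hm, hj]
    exact hb
  have hjlt : j + 1 ≤ m := by omega
  refine ⟨j, hj.symm, ?_, ?_⟩
  · rw [hp1 (j + 1) (by omega), if_pos hjlt]
  · exact fun h3 => hdist 0 (j + 1) (by omega) (by omega) h3.symm

/-- The dart after the last member is not faced. -/
theorem Facing.last [Finite D] (hP : T.Planar) {σ : V → Bool} {d : D} (hd : Start T σ d)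
    {J : Set D} (hJ : Facing T J σ d) : T.nxt (T.nxt (lst T σ d)) ∉ J := by
  obtain ⟨f, m, N, hRf, hapf, hmN, hN, hdist, hm, hp1, hp2, -⟩ := foot hP hd.1 hd.2
  have hl : lst T σ d = f := by
    have h1 := lst_rel hP hd
    have h2 := lst_apex hP hd
    obtain ⟨k, g, hk, hg0, hgk, hs, hinj, hrel, -⟩ := T.class_cycle hP hd.1 hd.2
    obtain ⟨i, hi, hi2⟩ := (hrel _).1 h1
    obtain ⟨i', hi', hi2'⟩ := (hrel _).1 hRf
    have key : ∀ i < k, T.apex (g i) = T.src d → i + 1 = k := by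
      intro i hi h3
      by_contra hne
      have h4 := hs i hi
      rw [h3, ← hg0] at h4
      exact absurd (hinj (i + 1) (by omega) 0 hk h4) (by omega)
    have e1 := key i hi (by rw [← hi2]; exact h2)
    have e2 := key i' hi' (by rw [← hi2']; exact hapf)
    rw [hi2, hi2']
    congr 1; omega
  rw [hl]
  intro hb
  obtain ⟨j, h1, h2, h3⟩ := hJ _ hb
  rw [← hm] at h1
  set O := T.src d with hO
  have hN0 : 0 < N := by omega
  have hper : IsPeriodicPt (tour T O) N d := hN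
  have h4 : (tour T O)^[j % N] d = (tour T O)^[j] d := hper.iterate_mod_apply _
  have h5 : j % N = m := by
    have hj := Nat.mod_lt j hN0
    rw [← h4] at h1
    by_contra hne
    rcases lt_or_gt_of_ne hne with h6 | h6
    · exact hdist _ _ h6 hmN h1.symm
    · exact hdist _ _ h6 hj h1
  have h6 : (tour T O)^[j + 1] d = (tour T O)^[m + 1] d := by
    rw [iterate_succ', comp_apply, iterate_succ', comp_apply, h1]
  rw [h6] at h2 h3
  rcases (show m + 1 ≤ N by omega).lt_or_eq with h7 | h7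
  · rw [hp1 _ h7, if_neg (by omega)] at h2
    exact absurd h2 (by decide)
  · rw [h7, hN] at h3
    exact h3 rfl

section geo

variable {sec : V1 → V} {O : V1} {E arch : Set V} {ω : V → Bool}

/-- The last corner of a counted excursion is explored outside the arc. -/
theorem DoorGeo.apex_mem [Finite D] (h : DoorGeo T T1 π sec O E arch ω) {d : D}
    (hs : T1.src d = O) {τ : V → Bool}
    (hd : Start T1 (s1 sec O τ) d) (hF : Facing T1 (BJ T T1 O E) (s1 sec O τ) d) :
    T.apex (lst T1 (s1 sec O τ) d) ∈ E := by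
  by_contra hcon
  have h1 := hF.last h.planar1 hd
  apply h1
  have h2 := lst_apex h.planar1 hd
  have h3 := (lst_rel h.planar1 hd).2.1
  have h4 := (lst_rel h.planar1 hd)
  set g := lst T1 (s1 sec O τ) d with hg
  refine ⟨⟨?_, ?_⟩, ?_⟩
  · rw [Tri.src_nxt2, h2, hs]
  · rw [T1.tgt_nxt2]
    intro h5
    -- the source of the last member would be `O`
    have h6 : T1.apex g = T1.src g := by rw [h2, hs, h5]
    obtain ⟨k, f, hk, hf0, hfk, hs', hinj, hrel, -⟩ := T1.class_cycle h.planar1 hd.1 hd.2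
    obtain ⟨i, hi, hi2⟩ := (hrel _).1 h4
    have h7 : i = 0 := hinj i hi 0 hk (by rw [← hi2, h5, hf0, hs])
    rw [h7, hf0] at hi2
    rw [hi2] at h6
    exact hd.2 h6
  · rw [h.contr.nxt, h.contr.nxt, Tri.src_nxt2]
    exact hcon

/-! ### doors with an extra event -/

variable {G : (V1 → Bool) → D → Prop}

open Classical in
/-- **Doors and an event away from the excursions, averaged, one starting dart.** -/
theorem DoorGeo.lowerK [Fintype V] [Fintype D] (h : DoorGeo T T1 π sec O E arch ω)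
    (hG : ∀ d σ σ', T1.src d = O → (∀ v ∈ Ex T1 d σ, σ' v = σ v) → G σ d → G σ' d)
    {H : D → D → List D} (d : D)
    (hH : ∀ τ, Cnt T T1 sec O E G τ d →
      Closing T E arch ω d (lst T1 (s1 sec O τ) d) (H d (lst T1 (s1 sec O τ) d))) (Θ : D → ℂ)
    {K : (V → Bool) → Prop}
    (hK : ∀ τ τ' : V → Bool, (∀ v, π v = O → τ' v = τ v) → K τ → K τ') {c : ℝ}
    (hc : ∀ τ, Cnt T T1 sec O E G τ d →
      c ≤ pr (fun τ' => Door T E (ExT T1 π sec O d τ) arch τ' ∧ K τ')) :
    c * ∑ τ : V → Bool, cval T T1 sec O E G H Θ τ d ≤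
      ∑ τ : V → Bool, if (Cnt T T1 sec O E G τ d ∧ Door T E (ExT T1 π sec O d τ) arch τ) ∧ K τ
        then ‖T.cls (mix E ω τ) d Θ‖ ^ 2 else 0 := by
  have hcnt : ∀ τ τ' : V → Bool, (∀ v ∈ ExT T1 π sec O d τ, τ' v = τ v) →
      (Cnt T T1 sec O E G τ' d ↔ Cnt T T1 sec O E G τ d) := by
    intro τ τ' hτ
    refine ⟨fun h1 => ?_, fun h1 => h.cnt_congr hG hτ h1⟩
    apply h.cnt_congr hG ?_ h1
    rw [h.exT_congr d τ τ' hτ]
    exact fun v hv => (hτ v hv).symm
  have hdoor : ∀ (A : Set V) (τ τ' : V → Bool), (∀ v ∉ A, τ' v = τ v) → Door T E A arch τ →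
      Door T E A arch τ' := by
    rintro A τ τ' hτ ⟨a, ha, w, hw, q, hq, hq2⟩
    exact ⟨a, ha, w, hw, q, hq, fun e he => ⟨(hq2 e he).1, fun h1 => by
      rw [hτ _ h1]; exact (hq2 e he).2 h1⟩⟩
  have hKK : ∀ (τ₀ τ τ' : V → Bool), (∀ v ∉ ExT T1 π sec O d τ₀, τ' v = τ v) → K τ → K τ' := by
    intro τ₀ τ τ' hτ h1
    exact hK τ τ' (fun v hv => hτ v fun h2 => h2.1 hv) h1
  have h1 := stop_lower (A := ExT T1 π sec O d) (h.exT_congr d)
    (f := fun τ => cval T T1 sec O E G H Θ τ d)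
    (by
      intro τ
      unfold cval
      split_ifs <;> positivity)
    (by
      intro τ τ' hτ
      have h2 := h.s1_congr hτ
      unfold cval
      by_cases h3 : Cnt T T1 sec O E G τ d
      · rw [if_pos ((hcnt τ τ' hτ).2 h3), if_pos h3,
          (ret_spec T1 _ d).cls_congr h.planar1 h3.2.1.1 h2, lst_congr h2]
      · rw [if_neg (fun h4 => h3 ((hcnt τ τ' hτ).1 h4)), if_neg h3])
    (N := fun τ₀ τ => (Cnt T T1 sec O E G τ₀ d ∧ Door T E (ExT T1 π sec O d τ₀) arch τ) ∧ K τ)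
    (by
      intro τ₀ τ₀' τ hτ
      rw [hcnt _ _ hτ, h.exT_congr d _ _ hτ])
    (by
      intro τ₀ τ τ' hτ
      refine and_congr (and_congr Iff.rfl
        ⟨hdoor _ _ _ (fun v hv => (hτ v hv).symm), hdoor _ _ _ hτ⟩)
        ⟨hKK τ₀ _ _ (fun v hv => (hτ v hv).symm), hKK τ₀ _ _ hτ⟩)
    (c := c)
    (by
      intro τ hτ
      have h2 : Cnt T T1 sec O E G τ d := by
        by_contra h2
        apply hτ
        unfold cval
        rw [if_neg h2]
      exact (hc τ h2).trans (pr_mono fun τ' h3 => ⟨⟨h2, h3.1⟩, h3.2⟩))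
    (fun τ => (Cnt T T1 sec O E G τ d ∧ Door T E (ExT T1 π sec O d τ) arch τ) ∧ K τ)
    (fun τ h2 => h2)
  refine h1.trans (Finset.sum_le_sum fun τ _ => ?_)
  by_cases h2 : (Cnt T T1 sec O E G τ d ∧ Door T E (ExT T1 π sec O d τ) arch τ) ∧ K τ
  · rw [if_pos h2, if_pos h2]
    have h3 := h.captured h2.1.1.1 h2.1.1.2.1 h2.1.1.2.2.1 h2.1.2 (hH τ h2.1.1)
    unfold cval
    rw [if_pos h2.1.1, h3.cls_eq h.planar h.planar1 h.contr Θ]
  · rw [if_neg h2, if_neg h2]

open Classical in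
/-- **Doors and an event away from the excursions, averaged.** -/
theorem DoorGeo.energyK [Fintype V] [Fintype D] (h : DoorGeo T T1 π sec O E arch ω)
    (hG : ∀ d σ σ', T1.src d = O → (∀ v ∈ Ex T1 d σ, σ' v = σ v) → G σ d → G σ' d)
    {H : D → D → List D}
    (hH : ∀ τ d, Cnt T T1 sec O E G τ d →
      Closing T E arch ω d (lst T1 (s1 sec O τ) d) (H d (lst T1 (s1 sec O τ) d))) (Θ : D → ℂ)
    {K : (V → Bool) → Prop}
    (hK : ∀ τ τ' : V → Bool, (∀ v, π v = O → τ' v = τ v) → K τ → K τ') {c : ℝ}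
    (hc : ∀ τ d, Cnt T T1 sec O E G τ d →
      c ≤ pr (fun τ' => Door T E (ExT T1 π sec O d τ) arch τ' ∧ K τ')) :
    c * ∑ τ : V → Bool, ∑ d, cval T T1 sec O E G H Θ τ d ≤
      ∑ τ : V → Bool, if K τ then
        ∑ d ∈ capSet T T1 π sec O E arch G τ, ‖T.cls (mix E ω τ) d Θ‖ ^ 2 else 0 := by
  rw [Finset.sum_comm, Finset.mul_sum]
  have h1 : ∑ τ : V → Bool, (if K τ then ∑ d ∈ capSet T T1 π sec O E arch G τ,
      ‖T.cls (mix E ω τ) d Θ‖ ^ 2 else 0) = ∑ d : D, ∑ τ : V → Bool,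
        if (Cnt T T1 sec O E G τ d ∧ Door T E (ExT T1 π sec O d τ) arch τ) ∧ K τ then
        ‖T.cls (mix E ω τ) d Θ‖ ^ 2 else 0 := by
    rw [Finset.sum_comm]
    apply Finset.sum_congr rfl
    intro τ _
    unfold capSet
    rw [Finset.sum_filter]
    by_cases hk : K τ
    · simp [hk]
    · simp [hk]
  rw [h1]
  apply Finset.sum_le_sum
  intro d _
  exact h.lowerK hG d (fun τ => hH τ d) Θ hK (fun τ => hc τ d)

end geo

end Vale.Agent.P148.R2.H400
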