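import Vale.Agent.P148.R2.H400.Flip9
import Vale.Agent.P148.R2.H566.Omega2

/-!
# The captured classes of a scene (P148, rows FLIPA and WARCH)

`En_capC_le` : the captured classes are covered by the facing classes of the arcs.
`ArcData` : all that the door theorem uses of an arc and its closing chains; `En_FL_le'`.
`SEC` : the mean energy of the closing chains.
`mn_ccl_le` : scene form.
-/

set_option linter.unusedSectionVars false

open Set Metric Function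
open scoped ENNReal

namespace Vale.Agent.P148.R2.H400

open H592 H184 H203 H871 H838 Vale.Agent.P148.R2.H258 H910 H659 H566

section one

variable (w : W0) {A : Set ℂ}

theorem En_mono {S S' : (w.V → Bool) → w.D → Prop} (h : ∀ σ, Sat w.T σ (S σ))
    (h' : ∀ σ, Sat w.T σ (S' σ)) (hS : ∀ σ d, S σ d → S' σ d) (Φ : w.D → ℂ) :
    w.En S Φ ≤ w.En S' Φ := by
  unfold W0.En
  gcongr with σ
  exact tot_mono (h σ) Φ (hS σ)

theorem En_biUnion_le {κ : Type*} (F : κ → (w.V → Bool) → w.D → Prop)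
    (h : ∀ i σ, Sat w.T σ (F i σ)) (Φ : w.D → ℂ) (s : Finset κ) :
    w.En (fun σ d => ∃ i ∈ s, F i σ d) Φ ≤ ∑ i ∈ s, w.En (F i) Φ := by
  classical
  have hsat : ∀ s : Finset κ, ∀ σ, Sat w.T σ (fun d => ∃ i ∈ s, F i σ d) := by
    rintro s σ d e hr ⟨i, hi, h1⟩
    exact ⟨i, hi, h i σ d e hr h1⟩
  induction s using Finset.induction_on with
  | empty =>
    have : w.En (fun σ d => ∃ i ∈ (∅ : Finset κ), F i σ d) Φ = 0 := by
      unfold W0.En
      have e : ∀ σ : w.V → Bool, tot w.T σ (rs (fun d => ∃ i ∈ (∅ : Finset κ), F i σ d) Φ) = 0 := by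
        intro σ
        have h0 : rs (fun d => ∃ i ∈ (∅ : Finset κ), F i σ d) Φ = fun x => (0 : ℂ) * Φ x := by
          funext d
          unfold rs
          simp
        rw [h0, tot_smul]
        simp
      rw [Finset.sum_eq_zero fun σ _ => by rw [e σ, ENNReal.ofReal_zero], mul_zero]
    rw [this]
    exact zero_le
  | insert i s hi ih =>
    rw [Finset.sum_insert hi]
    refine le_trans ?_ ((W0.en_or (h i) (hsat s) Φ).trans (add_le_add le_rfl ih))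
    apply En_mono w (hsat _)
    · intro σ d e hr h1
      exact h1.imp (h i σ d e hr) (hsat s σ d e hr)
    · rintro σ d ⟨j, hj, h1⟩
      rcases Finset.mem_insert.1 hj with rfl | hj
      · exact Or.inl h1
      · exact Or.inr ⟨j, hj, h1⟩

/-- The captured classes are covered by the facing classes of the arcs. -/
theorem En_capC_le {κ : Type*} [Fintype κ] (Arc : κ → Set w.D) (Φ : w.D → ℂ) :
    w.En (w.CapC A Arc) Φ ≤ ∑ i, w.En (FL w (Arc i) A) Φ := by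
  classical
  refine le_trans ?_ (En_biUnion_le w (fun i => FL w (Arc i) A) (fun i => fl_sat w (Arc i) A) Φ
    Finset.univ)
  apply En_mono w (fun σ => W0.capC_sat)
  · rintro σ d e hr ⟨i, hi, h1⟩
    exact ⟨i, hi, fl_sat w (Arc i) A σ d e hr h1⟩
  · rintro σ d ⟨⟨r, h1, h2⟩, d₀, h3, h4, h5, i, h6, h7⟩
    exact ⟨i, Finset.mem_univ _, d₀, w.T.rel_symm h3, h4, h7, h6, h5, r,
      w.T.rel_trans (w.T.rel_symm h3) h1, h2⟩

/-- All that the door theorem uses of an arc `J` and of its closing chains `H`. -/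
structure ArcData (x₀ : w.X) (E arch : Set ℂ) (ω : ℂ → Bool) (J : Set w.D)
    (H : w.D → w.D → List w.D) (R : w.D → Prop) : Prop where
  EB : E ⊆ w.B
  arch_sub : arch ⊆ E
  arch_col : ∀ a ∈ arch, ω a = false
  arch_adj : ∀ u v, nbr w.X u v → u ∈ arch → v ∈ w.B
  sub : BJ (TP w.hull x₀) w.T w.O (vs w.X E) ⊆ J
  clo : ∀ (τ : w.X → Bool) (d : w.D), w.T.src d = w.O → Reach w.T J R (s1 (secB x₀) w.O τ) d →
    Closing (TP w.hull x₀) (vs w.X E) (vs w.X arch) (fun x : w.X => ω x.1) d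
      (haveI : Finite w.X := w.hull.fin; lstB w.hull w.fib x₀ d τ)
      (H d (haveI : Finite w.X := w.hull.fin; lstB w.hull w.fib x₀ d τ))

open Classical in
/-- The mean energy of the closing chains of the excursions which face `J` and meet `A`. -/
noncomputable def SEC [Fintype w.X] (x₀ : w.X) (J : Set w.D) (H : w.D → w.D → List w.D)
    (A : Set ℂ) (Θ : Dt → ℂ) : ℝ≥0∞ :=
  (2 ^ Fintype.card w.X)⁻¹ * ∑ τ : w.X → Bool, ∑ d,
    if w.T.src d = w.O ∧ Reach w.T J (w.Lo A) (s1 (secB x₀) w.O τ) d then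
      ENNReal.ofReal (‖((H d (lstB w.hull w.fib x₀ d τ)).map
        (wt w.hull (idmap w.X x₀) (fib_id w.X x₀) Θ)).sum‖ ^ 2) else 0

variable {w} {x₀ : w.X} {E arch : Set ℂ} {ω : ℂ → Bool} {J : Set w.D}
  {H : w.D → w.D → List w.D}

theorem ArcData.cnt [Fintype w.X] {R : w.D → Prop} (hD : ArcData w x₀ E arch ω J H R)
    (τ : w.X → Bool) (d : w.D) :
    CntB w.hull w.fib x₀ E J R τ d ↔ w.T.src d = w.O ∧ Reach w.T J R (s1 (secB x₀) w.O τ) d := by
  constructor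
  · rintro ⟨h1, -, -, h2⟩
    exact ⟨h1, h2⟩
  · rintro ⟨h1, h2⟩
    exact ⟨h1, h2.2.2.1, h2.2.1.mono hD.sub, h2⟩

/-- The data delivered by the main cycle (`H659.Ring`). -/
theorem DoorData.arcData [Fintype w.X] {cyc : ℕ → w.D} {n s : ℕ}
    (hD : DoorData x₀ E arch ω cyc n s) (R : w.D → Prop) :
    ArcData w x₀ E arch ω (arc (TP w.hull x₀) w.T w.O cyc s) (clH (TP w.hull x₀) cyc n) R where
  EB := hD.EB
  arch_sub := hD.arch_sub
  arch_col := hD.arch_col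
  arch_adj := hD.arch_adj
  sub := by
    obtain ⟨w0, hR⟩ := hD.ring
    exact BJ_subset_arc (contrB w.hull w.fib x₀) hR hD.far
  clo τ d h1 h2 := hD.closing R τ d ((hD.cnt R τ d).2 ⟨h1, h2⟩)

open Classical in
/-- **FLIPA, quenched, general closing chains.** -/
theorem En_FL_le' [Fintype w.X] (hD : ArcData w x₀ E arch ω J H (w.Lo A))
    {K : (w.X → Bool) → Prop}
    (hK : ∀ τ τ' : w.X → Bool, (∀ v : w.X, v.1 ∈ w.B → τ' v = τ v) → K τ → K τ')
    {c : ℝ} (hc0 : 0 < c)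
    (hc : ∀ τ d, w.T.src d = w.O → Reach w.T J (w.Lo A) (s1 (secB x₀) w.O τ) d →
      c ≤ pr (fun τ' => Door (TP w.hull x₀) (vs w.X E) (ExB w.hull w.fib x₀ d τ) (vs w.X arch) τ' ∧
        K τ'))
    {Q : Set ℂ} {κ : Type*} (Q' : κ → Set ℂ) (Θ : Dt → ℂ)
    {p : ℂ} {r ρ : ℝ} (hρ : 0 < ρ) (hnet : H990.Net w.X (closedBall p (6 * r + 2 * ρ)) ρ)
    (hQ : ∀ z, H995.nsup (z - p) < 3 * r + 2 * ρ → z ∈ Q)
    (hb : ∀ j, 3 * r ≤ H995.nsup (w.b j - p))
    (hend : ∀ q : w.D, tail q ∈ w.B → head q ∉ w.B →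
      H995.nsup (tail q - p) ≤ r ∧ H995.nsup (head q - p) ≤ r)
    (hfar : ∀ i, ∀ d e : w.D, tail d ∈ w.B → head d ∉ w.B → w.Lo A e →
      ¬ (LF w.X (Q' i) (dt d) ∧ LF w.X (Q' i) (dt e)))
    {k : Bool}
    (hno : ∀ τ, K τ → ¬ H995.SqArm (nbr w.X)
      (H664.colS w.X (idmap w.X x₀) (mixB w.X E ω τ) k) p r (3 * r)) :
    w.En (FL w J A) (w.th Θ) ≤
      2 * ((ENNReal.ofReal c)⁻¹ * ((2 ^ Fintype.card w.X)⁻¹ * ∑ τ : w.X → Bool,
        MQ w.X Q Q' (pc (idmap w.X x₀) (mixB w.X E ω τ)) Θ)) +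
      2 * SEC w x₀ J H A Θ := by
  unfold SEC
  set Ψ : w.D → ℂ := wt w.hull (idmap w.X x₀) (fib_id w.X x₀) Θ with hΨ
  have hcnt := hD.cnt
  have hclo : ∀ (τ : w.X → Bool) (d : w.D), CntB w.hull w.fib x₀ E J (w.Lo A) τ d →
      Closing (TP w.hull x₀) (vs w.X E) (vs w.X arch) (fun x : w.X => ω x.1) d
        (lstB w.hull w.fib x₀ d τ) (H d (lstB w.hull w.fib x₀ d τ)) := by
    intro τ d h1
    obtain ⟨h2, h3⟩ := (hcnt τ d).1 h1
    exact hD.clo τ d h2 h3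
  rw [En_FL_eq J A x₀ (w.th Θ)]
  have main := door_MQ w.hull w.fib x₀ (J := J) (R := w.Lo A) hD.EB hD.arch_sub hD.arch_col
    hD.arch_adj (H := H) hclo hK hc0.le (fun τ d h1 => hc τ d ((hcnt τ d).1 h1).1
      ((hcnt τ d).1 h1).2) (Q := Q) Q' Θ (fun τ hk d hd => local_of w.hull w.fib x₀ hD.EB
        hD.arch_sub hD.arch_col hD.arch_adj (H := H) hclo hρ hnet hQ hb hend hfar (hno τ hk) hd)
  set N : ℝ≥0∞ := (2 ^ Fintype.card w.X)⁻¹ with hN
  set M : ℝ≥0∞ := ∑ τ : w.X → Bool, MQ w.X Q Q' (pc (idmap w.X x₀) (mixB w.X E ω τ)) Θ with hM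
  set C : ℝ≥0∞ := ∑ τ : w.X → Bool, ∑ d, ENNReal.ofReal (cval (TP w.hull x₀) (TB w.hull w.fib)
    (secB x₀) (Sum.inl ()) (vs w.X E) (Reach (TB w.hull w.fib) J (w.Lo A)) H Ψ τ d) with hC
  have hCM : C ≤ (ENNReal.ofReal c)⁻¹ * M := by
    have hc1 : ENNReal.ofReal c ≠ 0 := by
      rw [Ne, ENNReal.ofReal_eq_zero, not_le]; exact hc0
    rw [← ENNReal.mul_le_mul_iff_right hc1 ENNReal.ofReal_ne_top, ← mul_assoc,
      ENNReal.mul_inv_cancel hc1 ENNReal.ofReal_ne_top, one_mul]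
    exact main
  set S : ℝ≥0∞ := ∑ τ : w.X → Bool, ∑ d,
        (if w.T.src d = w.O ∧ Reach w.T J (w.Lo A) (s1 (secB x₀) w.O τ) d then
          ENNReal.ofReal (‖((H d (lstB w.hull w.fib x₀ d τ)).map Ψ).sum‖ ^ 2) else 0) with hS
  have hle : (∑ τ : w.X → Bool, ∑ d,
      (if w.T.src d = w.O ∧ Reach w.T J (w.Lo A) (s1 (secB x₀) w.O τ) d then
        ENNReal.ofReal (‖w.T.cls (s1 (secB x₀) w.O τ) d (w.th Θ)‖ ^ 2) else 0)) ≤
      2 * C + 2 * S := by
    rw [hC, hS, Finset.mul_sum, Finset.mul_sum, ← Finset.sum_add_distrib]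
    apply Finset.sum_le_sum
    intro τ _
    rw [Finset.mul_sum, Finset.mul_sum, ← Finset.sum_add_distrib]
    apply Finset.sum_le_sum
    intro d _
    by_cases h1 : w.T.src d = w.O ∧ Reach w.T J (w.Lo A) (s1 (secB x₀) w.O τ) d
    · rw [if_pos h1, if_pos h1]
      have h2 : Cnt (TP w.hull x₀) (TB w.hull w.fib) (secB x₀) (Sum.inl ()) (vs w.X E)
        (Reach (TB w.hull w.fib) J (w.Lo A)) τ d := (hcnt τ d).2 h1
      unfold cval
      rw [if_pos h2, cls_th x₀ Θ h1.2.2.2.1, ← hΨ]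
      have d2 : (2 : ℝ≥0∞) = ENNReal.ofReal 2 := by norm_num
      rw [d2, ← ENNReal.ofReal_mul (by norm_num), ← ENNReal.ofReal_mul (by norm_num),
        ← ENNReal.ofReal_add (by positivity) (by positivity)]
      apply ENNReal.ofReal_le_ofReal
      set a := w.T.cls (s1 (secB x₀) w.O τ) d Ψ with ha
      set b := ((H d (lstB w.hull w.fib x₀ d τ)).map Ψ).sum with hb'
      have e1 : a = (a + b) - b := by ring
      have h3 : ‖a‖ ≤ ‖a + b‖ + ‖b‖ := by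
        calc ‖a‖ = ‖(a + b) - b‖ := by rw [← e1]
          _ ≤ _ := norm_sub_le _ _
      have h4 : ‖a‖ ^ 2 ≤ (‖a + b‖ + ‖b‖) ^ 2 := by gcongr
      calc ‖a‖ ^ 2 ≤ (‖a + b‖ + ‖b‖) ^ 2 := h4
        _ ≤ 2 * ‖a + b‖ ^ 2 + 2 * ‖b‖ ^ 2 := by nlinarith [sq_nonneg (‖a + b‖ - ‖b‖)]
    · rw [if_neg h1]
      exact zero_le
  calc N * (∑ τ : w.X → Bool, ∑ d,
      (if w.T.src d = w.O ∧ Reach w.T J (w.Lo A) (s1 (secB x₀) w.O τ) d then
        ENNReal.ofReal (‖w.T.cls (s1 (secB x₀) w.O τ) d (w.th Θ)‖ ^ 2) else 0))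
      ≤ N * (2 * C + 2 * S) := by gcongr
    _ ≤ N * (2 * ((ENNReal.ofReal c)⁻¹ * M) + 2 * S) := by gcongr
    _ = _ := by ring

end one

/-! ### scene form -/

variable {κ : Type} [Fintype κ] (s : AScene κ)

/-- **Captured classes, scene form.** -/
theorem mn_ccl_le (Θ : Dt → ℂ) {F S : s.ι → κ → ℝ≥0∞}
    (h : ∀ a, s.p a ≠ 0 → ∀ i, (s.w a).En (FL (s.w a) (s.Arc a i) Asq) ((s.w a).th Θ) ≤
      F a i + S a i) :
    s.toScene.mn s.ccl Θ ≤ (∑ i, ∑ a, s.p a * F a i) + ∑ i, ∑ a, s.p a * S a i := by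
  unfold Scene.mn
  rw [← Finset.sum_add_distrib]
  simp_rw [← Finset.sum_add_distrib, ← mul_add]
  rw [Finset.sum_comm]
  refine Finset.sum_le_sum fun a _ => ?_
  by_cases h0 : s.p a = 0
  · simp [h0]
  rw [← Finset.mul_sum]
  gcongr
  exact (En_capC_le (s.w a) (s.Arc a) _).trans (Finset.sum_le_sum fun i _ => h a h0 i)

end Vale.Agent.P148.R2.H400
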