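import Vale.Agent.P148.R2.H258.A4
import Vale.Agent.P148.R2.H659.Cyc
import Vale.Agent.P148.R2.H871.N0b

/-!
# Capture (flip trick, pointwise form)

`T1` is a contraction of `T` (same darts) which is injective off one vertex `O`. A class of `T1`
which starts and ends at `O`, together with a chain of minority darts of `T` inside the fibre of `O`
which closes it, and a walk of the minority colour joining the two pieces, is exactly one class
of `T`.
-/

namespace Vale.Agent.P148.R2.H400

open Function Vale.Agent.P148.R2.H258 Vale.Agent.P148.R2.H871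

variable {V V1 D : Type*} {T : Tri V D} {T1 : Tri V1 D} {π : V → V1}

/-- `π` is injective off the fibre of `O`. -/
def InjOff (π : V → V1) (O : V1) : Prop := ∀ v w, π v = π w → π v ≠ O → v = w

theorem lift_walk (hC : Contr T T1 π) {O : V1} (hinj : InjOff π O) {u w : V1} {l : List D}
    (hl : T1.Walk u w l) (h : ∀ e ∈ l, T1.src e ≠ O ∧ T1.tgt e ≠ O) {a b : V} (ha : π a = u)
    (hb : π b = w) (hu : u ≠ O) : T.Walk a b l := by
  induction hl generalizing a with
  | nil v =>
    have : a = b := hinj a b (by rw [ha, hb]) (by rw [ha]; exact hu)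
    subst this
    exact Tri.Walk.nil a
  | cons d w l _ ih =>
    have h1 := h d (by simp)
    have e1 : T.src d = a := hinj _ _ (by rw [← hC.src, ha]) (by rw [← hC.src]; exact h1.1)
    exact Tri.Walk.cons' d e1
      (ih (fun e he => h e (List.mem_cons_of_mem _ he)) (by rw [← hC.tgt]) hb h1.2)

/-- The minority walk of a member, in the uncontracted triangulation. -/
theorem member_walk [Finite D] (hC : Contr T T1 π) {O : V1} (hinj : InjOff π O)
    {σ1 : V1 → Bool} {σ : V → Bool} (hσ : ∀ v, π v ≠ O → σ v = σ1 (π v)) {d g : D}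
    (hg : T1.Rel σ1 d g) (hO : σ1 (T1.tgt d) ≠ σ1 O) :
    ∃ l, T.Walk (T.tgt d) (T.tgt g) l ∧
      ∀ e ∈ l, σ (T.src e) = σ (T.tgt d) ∧ σ (T.tgt e) = σ (T.tgt d) := by
  obtain ⟨hd, hg', n, hn, rfl, -⟩ := hg
  have hw := T1.rw_walk hd.bi n
  have hcol : ∀ e ∈ T1.rw' σ1 d n, σ1 (T1.src e) = σ1 (T1.tgt d) ∧
      σ1 (T1.tgt e) = σ1 (T1.tgt d) := by
    intro e he
    obtain ⟨i, -, h1, h2⟩ := T1.rw_mem hd.bi he
    rw [h1, h2, T1.col_tgt_iter σ1, T1.col_tgt_iter σ1]
    exact ⟨rfl, rfl⟩
  have hne : ∀ e ∈ T1.rw' σ1 d n, T1.src e ≠ O ∧ T1.tgt e ≠ O := by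
    intro e he
    obtain ⟨h1, h2⟩ := hcol e he
    constructor
    · intro hh; rw [hh] at h1; exact hO h1.symm
    · intro hh; rw [hh] at h2; exact hO h2.symm
  have htd : T1.tgt d ≠ O := by
    intro hh; exact hO (by rw [hh])
  refine ⟨_, lift_walk hC hinj hw hne (hC.tgt d).symm (hC.tgt _).symm htd, ?_⟩
  intro e he
  obtain ⟨h1, h2⟩ := hcol e he
  obtain ⟨h3, h4⟩ := hne e he
  rw [hσ (T.tgt d) (by rw [← hC.tgt]; exact htd), hσ (T.src e) (by rw [← hC.src]; exact h3),
    hσ (T.tgt e) (by rw [← hC.tgt]; exact h4), ← hC.tgt, ← hC.src, ← hC.tgt]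
  exact ⟨h1, h2⟩

/-- Data of a captured class: `d` is the first member and `g` the last member of a class of the
contraction `T1` through `O`; `H` is the closing chain in the fibre of `O`. -/
structure Captured (T : Tri V D) (T1 : Tri V1 D) (π : V → V1) (O : V1) (σ1 : V1 → Bool)
    (σ : V → Bool) (d g : D) (H : List D) : Prop where
  inj : InjOff π O
  col : ∀ v, π v ≠ O → σ v = σ1 (π v)
  mem : T1.Rel σ1 d g
  src : T1.src d = O
  apex : T1.apex d ≠ O
  apex_last : T1.apex g = O
  colx : σ (T.src d) = σ1 O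
  coly : σ (T.apex g) = σ1 O
  mi : ∀ e ∈ H, T.Mi σ e
  fib : ∀ e ∈ H, π (T.src e) = O
  nodup : (H.map T.src).Nodup
  notmem : T.src d ∉ H.map T.src
  chain : List.IsChain (fun a b => T.src b = T.apex a) (g :: H ++ [d])
  walk : ∀ e ∈ H, ∃ l, T.Walk (T.tgt d) (T.tgt e) l ∧
    ∀ e' ∈ l, σ (T.src e') = σ (T.tgt d) ∧ σ (T.tgt e') = σ (T.tgt d)

/-- **Capture.** The class of `d` in `T` consists of its class in the contraction and of the closing
chain. -/
theorem Captured.rel_iff [Finite D] (hP : T.Planar) (hP1 : T1.Planar) (hC : Contr T T1 π) {O : V1}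
    {σ1 : V1 → Bool} {σ : V → Bool} {d g : D} {H : List D}
    (h : Captured T T1 π O σ1 σ d g H) (e : D) :
    T.Rel σ d e ↔ T1.Rel σ1 d e ∨ e ∈ H := by
  have hd : T1.Mi σ1 d := h.mem.1
  have hnd : T1.apex d ≠ T1.src d := by rw [h.src]; exact h.apex
  obtain ⟨m, f, hm, hf0, hfm, hs, hinj, hrel, -⟩ := T1.class_cycle hP1 hd hnd
  have hO : σ1 (T1.tgt d) ≠ σ1 O := by
    rw [← h.src]; exact hd.1.symm
  obtain ⟨p, rfl⟩ : ∃ p, m = p + 1 := ⟨m - 1, by omega⟩
  -- the last member
  have hlast : g = f p := by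
    obtain ⟨i, hi, rfl⟩ := (hrel g).1 h.mem
    rcases Nat.lt_or_ge (i + 1) (p + 1) with h1 | h1
    · exfalso
      have h2 := hs i hi
      rw [h.apex_last, ← h.src, ← hf0] at h2
      have := hinj (i + 1) h1 0 (by omega) h2
      omega
    · have : i = p := by omega
      rw [this]
  have hmem : ∀ i < p + 1, T1.Rel σ1 d (f i) := fun i hi => (hrel _).2 ⟨i, hi, rfl⟩
  have hcolm : ∀ i < p + 1, σ1 (T1.src (f i)) = σ1 O ∧ σ1 (T1.tgt (f i)) = σ1 (T1.tgt d) := by
    intro i hi
    obtain ⟨-, -, n, -, h2, -⟩ := hmem i hi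
    rw [← h2, T1.col_src_iter σ1, T1.col_tgt_iter σ1, h.src]
    exact ⟨rfl, rfl⟩
  have hsne : ∀ i, 1 ≤ i → i < p + 1 → T1.src (f i) ≠ O := by
    intro i h1 h2 h3
    rw [← h.src, ← hf0] at h3
    have := hinj i h2 0 (by omega) h3
    omega
  have htne : ∀ i < p + 1, T1.tgt (f i) ≠ O := by
    intro i hi hh
    have := (hcolm i hi).2
    rw [hh] at this
    exact hO this.symm
  -- colours of the end points in `T`
  have hcs : ∀ i < p + 1, σ (T.src (f i)) = σ1 O := by
    intro i hi
    rcases Nat.eq_zero_or_pos i with h0 | h0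
    · rw [h0, hf0]; exact h.colx
    · have h1 := hsne i h0 hi
      rw [h.col _ (by rw [← hC.src]; exact h1), ← hC.src]
      exact (hcolm i hi).1
  have hca : ∀ i < p + 1, σ (T.apex (f i)) = σ1 O := by
    intro i hi
    rcases Nat.lt_or_ge (i + 1) (p + 1) with h1 | h1
    · have h2 : T1.apex (f i) ≠ O := by rw [← hs i hi]; exact hsne (i + 1) (by omega) h1
      rw [h.col _ (by rw [← hC.apex]; exact h2), ← hC.apex, ← hs i hi]
      exact (hcolm (i + 1) h1).1
    · have h2 : i = p := by omega
      rw [h2, ← hlast]; exact h.coly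
  have hct : ∀ i < p + 1, σ (T.tgt (f i)) = σ1 (T1.tgt d) := by
    intro i hi
    rw [h.col _ (by rw [← hC.tgt]; exact htne i hi), ← hC.tgt]
    exact (hcolm i hi).2
  have hmi : ∀ i < p + 1, T.Mi σ (f i) := by
    intro i hi
    constructor
    · rw [hcs i hi, hct i hi]; exact hO.symm
    · rw [hca i hi, hcs i hi]
  have hTs : ∀ i < p, T.src (f (i + 1)) = T.apex (f i) := by
    intro i hi
    apply h.inj
    · rw [← hC.src, ← hC.apex]; exact hs i (by omega)
    · rw [← hC.src]; exact hsne (i + 1) (by omega) (by omega)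
  -- the list of all members
  set A : List D := (List.range p).map f with hA
  have hlistA : d :: ((List.range p).map fun i => f (i + 1)) = A ++ [f p] := by
    have h1 : (List.range (p + 1)).map f = A ++ [f p] := by
      rw [List.range_succ, List.map_append]; rfl
    rw [← h1, List.range_succ_eq_map, List.map_cons, hf0, List.map_map]
    rfl
  set L : List D := ((List.range p).map fun i => f (i + 1)) ++ H with hL
  have hdL : d :: L = A ++ (f p :: H) := by
    rw [hL, ← List.cons_append, hlistA, List.append_assoc]; rfl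
  have hmemA : ∀ e, e ∈ A ↔ ∃ i < p, e = f i := by
    intro e
    rw [hA, List.mem_map]
    constructor
    · rintro ⟨i, hi, rfl⟩; exact ⟨i, List.mem_range.1 hi, rfl⟩
    · rintro ⟨i, hi, rfl⟩; exact ⟨i, List.mem_range.2 hi, rfl⟩
  have hmemL : ∀ e, e ∈ d :: L ↔ (∃ i < p + 1, e = f i) ∨ e ∈ H := by
    intro e
    rw [hdL, List.mem_append, hmemA, List.mem_cons]
    constructor
    · rintro (⟨i, hi, rfl⟩ | rfl | h1)
      · exact Or.inl ⟨i, by omega, rfl⟩
      · exact Or.inl ⟨p, by omega, rfl⟩
      · exact Or.inr h1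
    · rintro (⟨i, hi, rfl⟩ | h1)
      · rcases Nat.lt_or_ge i p with h2 | h2
        · exact Or.inl ⟨i, h2, rfl⟩
        · have : i = p := by omega
          rw [this]; exact Or.inr (Or.inl rfl)
      · exact Or.inr (Or.inr h1)
  have key := T.list_class hP (σ := σ) (d := d) (L := L) ?_ ?_ ?_ ?_ ?_ e
  · rw [key, hmemL, ← hrel]
  · -- chain
    rw [hdL, List.append_assoc]
    rw [List.isChain_append]
    refine ⟨?_, ?_, ?_⟩
    · rw [List.isChain_iff_getElem]
      intro i hi
      have hi' : i + 1 < p := by simpa [hA] using hi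
      simp only [hA, List.getElem_map, List.getElem_range]
      exact hTs i (by omega)
    · have := h.chain
      rw [hlast] at this
      simpa using this
    · intro x hx y hy
      simp only [List.cons_append, List.head?_cons, Option.mem_def, Option.some.injEq] at hy
      rcases Nat.eq_zero_or_pos p with h0 | h0
      · rw [hA, h0] at hx; simp at hx
      · have h1 : A.getLast? = some (f (p - 1)) := by
          rw [hA]
          obtain ⟨q, rfl⟩ : ∃ q, p = q + 1 := ⟨p - 1, by omega⟩
          rw [List.range_succ, List.map_append]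
          simp
        rw [h1] at hx
        simp only [Option.mem_def, Option.some.injEq] at hx
        rw [← hx, ← hy]
        have := hTs (p - 1) (by omega)
        rwa [Nat.sub_add_cancel h0] at this
  · intro e he
    rcases (hmemL e).1 he with ⟨i, hi, rfl⟩ | h1
    · exact hmi i hi
    · exact h.mi e h1
  · -- distinct sources
    have h1 : d :: L = (List.range (p + 1)).map f ++ H := by
      rw [List.range_succ, List.map_append, List.append_assoc, hdL]; rfl
    rw [h1, List.map_append, List.nodup_append]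
    refine ⟨?_, h.nodup, ?_⟩
    · rw [List.map_map, List.nodup_map_iff_inj_on List.nodup_range]
      intro i hi k hk hik
      rw [List.mem_range] at hi hk
      simp only [comp_apply] at hik
      apply hinj i hi k hk
      rw [hC.src, hC.src, hik]
    · intro a ha b hb hab
      rw [List.map_map, List.mem_map] at ha
      obtain ⟨i, hi, rfl⟩ := ha
      rw [List.mem_range] at hi
      simp only [comp_apply] at hab
      rcases Nat.eq_zero_or_pos i with h0 | h0
      · rw [h0, hf0] at hab
        exact h.notmem (by rw [hab]; exact hb)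
      · rw [List.mem_map] at hb
        obtain ⟨e', he', rfl⟩ := hb
        have h2 := h.fib e' he'
        rw [← hab, ← hC.src] at h2
        exact hsne i h0 hi h2
  · intro hh
    have := hC.apex d
    rw [hh, ← hC.src] at this
    exact hnd this
  · intro e he
    rcases (hmemL e).1 he with ⟨i, hi, rfl⟩ | h1
    · exact member_walk hC h.inj h.col (hmem i hi) hO
    · exact h.walk e h1

/-- The two pieces of a captured class are disjoint. -/
theorem Captured.not_both [Finite D] (hP1 : T1.Planar) (hC : Contr T T1 π) {O : V1}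
    {σ1 : V1 → Bool} {σ : V → Bool} {d g : D} {H : List D}
    (h : Captured T T1 π O σ1 σ d g H) {e : D} (h1 : T1.Rel σ1 d e) : e ∉ H := by
  intro he
  have hd : T1.Mi σ1 d := h.mem.1
  have hnd : T1.apex d ≠ T1.src d := by rw [h.src]; exact h.apex
  obtain ⟨m, f, hm, hf0, hfm, hs, hinj, hrel, -⟩ := T1.class_cycle hP1 hd hnd
  obtain ⟨i, hi, rfl⟩ := (hrel e).1 h1
  have h2 : T1.src (f i) = O := by rw [hC.src]; exact h.fib _ he
  rw [← h.src, ← hf0] at h2
  have h3 := hinj i hi 0 (by omega) h2
  rw [h3, hf0] at he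
  exact h.notmem (List.mem_map.2 ⟨d, he, rfl⟩)

/-- **Capture**, values: the value of the class of `d` in `T` is its value in the contraction plus
the value of the closing chain. -/
theorem Captured.cls_eq [Fintype D] (hP : T.Planar) (hP1 : T1.Planar) (hC : Contr T T1 π)
    {O : V1} {σ1 : V1 → Bool} {σ : V → Bool} {d g : D} {H : List D}
    (h : Captured T T1 π O σ1 σ d g H) (Θ : D → ℂ) :
    T.cls σ d Θ = T1.cls σ1 d Θ + (H.map Θ).sum := by
  classical
  have hn : H.Nodup := List.Nodup.of_map _ h.nodup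
  have h1 : (H.map Θ).sum = ∑ e, if e ∈ H then Θ e else 0 := by
    rw [← Finset.sum_filter, ← List.sum_toFinset Θ hn]
    apply Finset.sum_congr _ fun _ _ => rfl
    ext e
    simp
  rw [h1]
  unfold Tri.cls
  rw [← Finset.sum_add_distrib]
  apply Finset.sum_congr rfl
  intro e _
  have h2 : T.Rel σ e d ↔ T1.Rel σ1 e d ∨ e ∈ H := by
    constructor
    · intro h3
      rcases (h.rel_iff hP hP1 hC e).1 (T.rel_symm h3) with h4 | h4
      · exact Or.inl (T1.rel_symm h4)
      · exact Or.inr h4
    · rintro (h3 | h3)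
      · exact T.rel_symm ((h.rel_iff hP hP1 hC e).2 (Or.inl (T1.rel_symm h3)))
      · exact T.rel_symm ((h.rel_iff hP hP1 hC e).2 (Or.inr h3))
  by_cases h3 : T1.Rel σ1 e d
  · have h4 := h.not_both hP1 hC (T1.rel_symm h3)
    rw [if_pos (h2.2 (Or.inl h3)), if_pos h3, if_neg h4, add_zero]
  · by_cases h4 : e ∈ H
    · rw [if_pos (h2.2 (Or.inr h4)), if_neg h3, if_pos h4, zero_add]
    · rw [if_neg (fun h5 => (h2.1 h5).elim h3 h4), if_neg h3, if_neg h4, zero_add]

end Vale.Agent.P148.R2.H400
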