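import Vale.Agent.P148.R2.H400.Flip11
import Vale.Agent.P148.R2.H126.Sum

/-!
# Row (win): the capture step in `msum` form (P148)

`DoorGeo.net_lower` : capture of explored quantities, mean over the colourings of the sites.
`msum_cap_le` : an explored quantity of the captured excursions of world 0 costs at most `1 / c`
times a bound of its sum over the excursions joined to the middle of the arc.
`msum_win_le` : windows.
-/

set_option linter.unusedSectionVars false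

open Set Metric Function
open scoped ENNReal

namespace Vale.Agent.P148.R2.H400

open H592 H184 H203 H871 H838 Vale.Agent.P148.R2.H258 H910 H659 H566

section abs

variable {V V1 D : Type*} {T : Tri V D} {T1 : Tri V1 D} {π : V → V1} {sec : V1 → V} {O : V1}
  {E arch : Set V} {ω : V → Bool}

open Classical in
/-- **Capture over the colourings of the sites, one starting dart.** -/
theorem DoorGeo.net_lower [Fintype V] [Finite D] (h : DoorGeo T T1 π sec O E arch ω) {d : D}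
    (hdO : T1.src d = O) {Jm : Set D} {f : (V1 → Bool) → ℝ} (hf0 : ∀ σ, 0 ≤ f σ)
    (hf : ∀ σ σ', (∀ v ∈ Ex T1 d σ, σ' v = σ v) → f σ' = f σ)
    (hst : ∀ τ, f (s1 sec O τ) ≠ 0 → Start T1 (s1 sec O τ) d ∧ Facing T1 Jm (s1 sec O τ) d)
    {c : ℝ} (hc : ∀ τ, f (s1 sec O τ) ≠ 0 →
      c ≤ pr (fun τ' : V → Bool => Net T1 Jm O false (Ex T1 d (s1 sec O τ)) (s1 sec O τ'))) :
    c * ∑ τ : V → Bool, f (s1 sec O τ) ≤
      ∑ τ : V → Bool, if Cap T1 Jm (s1 sec O τ) d then f (s1 sec O τ) else 0 := by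
  have hOA : ∀ σ : V1 → Bool, O ∈ Ex T1 d σ := fun σ => ⟨0, Nat.zero_le _, Or.inl hdO⟩
  have hnet : ∀ (A : Set V1) (τ τ' : V → Bool), (∀ v, π v ≠ O → π v ∉ A → τ' v = τ v) →
      O ∈ A → Net T1 Jm O false A (s1 sec O τ) → Net T1 Jm O false A (s1 sec O τ') := by
    rintro A τ τ' hτ hOA ⟨b, hb, w, hw, q, hq, hO, hcol⟩
    refine ⟨b, hb, w, hw, q, hq, hO, fun v hv hvA => ?_⟩
    have hvO : v ≠ O := fun hh => hvA (hh ▸ hOA)
    obtain ⟨u, hu⟩ : ∃ u, v = π u := by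
      rcases hv with rfl | ⟨e, -, rfl⟩
      · exact ⟨_, h.contr.tgt _⟩
      · exact ⟨_, h.contr.src _⟩
    subst hu
    rw [h.col1 hvO, hτ u hvO hvA, ← h.col1 (τ := τ) hvO]
    exact hcol _ hv hvA
  exact stop_lower (A := ExT T1 π sec O d) (h.exT_congr d)
    (f := fun τ => f (s1 sec O τ)) (fun τ => hf0 _)
    (fun τ τ' hτ => hf _ _ (h.s1_congr hτ))
    (N := fun τ₀ τ => f (s1 sec O τ₀) ≠ 0 ∧
      Net T1 Jm O false (Ex T1 d (s1 sec O τ₀)) (s1 sec O τ))
    (by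
      intro τ₀ τ₀' τ hτ
      rw [hf _ _ (h.s1_congr hτ), ex_congr d _ _ (h.s1_congr hτ)])
    (by
      intro τ₀ τ τ' hτ
      have key : ∀ τ τ' : V → Bool, (∀ v ∉ ExT T1 π sec O d τ₀, τ' v = τ v) →
          Net T1 Jm O false (Ex T1 d (s1 sec O τ₀)) (s1 sec O τ) →
          Net T1 Jm O false (Ex T1 d (s1 sec O τ₀)) (s1 sec O τ') := by
        intro τ τ' hτ
        exact hnet _ τ τ' (fun v _ h2 => hτ v fun h3 => h2 h3.2) (hOA _)
      exact and_congr Iff.rfl ⟨key τ' τ fun v hv => (hτ v hv).symm, key τ τ' hτ⟩)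
    (c := c)
    (by
      intro τ hτ
      exact (hc τ hτ).trans (pr_mono fun τ' h3 => ⟨hτ, h3⟩))
    (fun τ => Cap T1 Jm (s1 sec O τ) d)
    (by
      rintro τ ⟨h3, h4⟩
      obtain ⟨h5, h6⟩ := hst τ h3
      have h7 : s1 sec O τ (T1.tgt d) = false := h5.tgt_false hdO
      refine facing_cap h.planar1 h5 (fun f hf => h.noloop f (by rwa [hdO] at hf)) h6 ?_
      rw [h7, hdO]
      exact h4)

end abs

section one

variable {w : W0} {J : Set w.D}

open Classical in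
/-- Means of flip invariant functions. -/
theorem mean_flip [Fintype w.X] (x₀ : w.X) {G : (w.V → Bool) → ℝ≥0∞}
    (hneg : ∀ σ, G (neg σ) = G σ) :
    (2 ^ Fintype.card w.X)⁻¹ * ∑ τ : w.X → Bool, G (s1 (secB x₀) w.O τ) =
      (2 ^ Fintype.card w.V)⁻¹ * ∑ σ : w.V → Bool, G σ := by
  have h3 : ∑ σ : w.V → Bool, G σ = 2 * ∑ σ : w.V → Bool, (if σ w.O = true then G σ else 0) := by
    refine (sum_inst _ _ _).trans ((sum_eq_two_mul w.O G hneg).trans ?_)
    exact congrArg (fun x => 2 * x) (sum_inst _ _ _)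
  have h2 : (2 ^ Fintype.card w.X)⁻¹ * ∑ τ : w.X → Bool, G (s1 (secB x₀) w.O τ) =
      2 * ((2 ^ Fintype.card w.V)⁻¹ * ∑ σ : w.V → Bool, if σ w.O = true then G σ else 0) := by
    refine (avg_inst _ _ _ _ _).trans ((mean_s1 (secB_inj x₀) G).trans ?_)
    exact congrArg (fun x => 2 * x) (avg_inst _ _ _ _ _)
  rw [h2, h3, mul_left_comm]

/-- The mean total energy of world 0, colourings of the sites. -/
theorem mean_tot [Fintype w.X] (x₀ : w.X) {τ : ℂ} (hτ : τ ^ 2 + τ + 1 = 0) {Φ : w.D → ℂ}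
    (hr : ∀ d, Φ (w.T.nxt d) = τ ^ 2 * Φ d) (hg : ∀ d, ¬ w.T.Good d → Φ d = 0) :
    (2 ^ Fintype.card w.X)⁻¹ * ∑ t : w.X → Bool,
      ENNReal.ofReal (tot w.T (s1 (secB x₀) w.O t) Φ) = w.Qt Φ := by
  rw [mean_flip x₀ (G := fun σ => ENNReal.ofReal (tot w.T σ Φ)) (fun σ => by rw [tot_neg]),
    ← ENNReal.ofReal_sum_of_nonneg (fun σ _ => tot_nonneg _ σ _),
    (sum_inst _ _ _).trans (sum_tot w.T w.planar hτ hr hg)]
  unfold W0.Qt
  have h1 : (2 ^ Fintype.card w.V : ℝ≥0∞) = ENNReal.ofReal (2 ^ Fintype.card w.V) := by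
    rw [ENNReal.ofReal_pow (by norm_num)]
    norm_num
  rw [h1, ← ENNReal.ofReal_inv_of_pos (by positivity), ← ENNReal.ofReal_mul (by positivity)]
  congr 1
  have : (0 : ℝ) < 2 ^ Fintype.card w.V := by positivity
  field_simp

open Classical in
/-- **Capture step.** `F` is an explored quantity of the captured excursions; its sum over the
excursions joined to the middle `Jm` of the arc is at most `B`. -/
theorem msum_cap_le [Fintype w.X] (x₀ : w.X) {Jm : Set w.D} (hJm : Jm ⊆ J)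
    {F : (w.V → Bool) → w.D → ℝ} (hF0 : ∀ σ d, 0 ≤ F σ d) (hneg : ∀ σ d, F (neg σ) d = F σ d)
    (hF : ∀ d σ σ', (∀ v ∈ Ex w.T d σ, σ' v = σ v) → F σ' d = F σ d) {c : ℝ} (hc0 : 0 < c)
    (hc : ∀ (τ : w.X → Bool) (d : w.D), w.cap J (s1 (secB x₀) w.O τ) d →
      F (s1 (secB x₀) w.O τ) d ≠ 0 → c ≤ pr (fun τ' : w.X → Bool => Net w.T Jm w.O false
        (Ex w.T d (s1 (secB x₀) w.O τ)) (s1 (secB x₀) w.O τ')))
    {B : (w.X → Bool) → ℝ≥0∞}
    (hB : ∀ (τ : w.X → Bool) (S : Finset w.D), (∀ d ∈ S, w.cap J (s1 (secB x₀) w.O τ) d ∧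
      Cap w.T Jm (s1 (secB x₀) w.O τ) d ∧ F (s1 (secB x₀) w.O τ) d ≠ 0) →
      ∑ d ∈ S, ENNReal.ofReal (F (s1 (secB x₀) w.O τ) d) ≤ B τ) :
    w.msum J (fun σ d => ENNReal.ofReal (F σ d)) ≤
      (ENNReal.ofReal c)⁻¹ * ((2 ^ Fintype.card w.X)⁻¹ * ∑ τ : w.X → Bool, B τ) := by
  rw [msum_eq x₀ (fun σ d => by rw [hneg])]
  have hG := doorGeo w.hull w.fib x₀ (E := ∅) (arch := ∅) (ω := fun _ => true)
    (empty_subset _) (subset_refl _) (fun _ h => absurd h (notMem_empty _))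
    (fun _ _ _ h => absurd h (notMem_empty _))
  set f : w.D → (w.V → Bool) → ℝ := fun d σ => if w.cap J σ d then F σ d else 0 with hf
  have hf0 : ∀ d σ, 0 ≤ f d σ := by
    intro d σ
    rw [hf]
    simp only
    split_ifs
    · exact hF0 σ d
    · exact le_rfl
  have hcapc : ∀ (d : w.D) (σ σ' : w.V → Bool), (∀ v ∈ Ex w.T d σ, σ' v = σ v) →
      w.cap J σ d → w.cap J σ' d := by
    intro d σ σ' hσ h1
    obtain ⟨h2, h3⟩ := cap_iff.1 h1
    exact cap_iff.2 ⟨h2, Reach.congr w.planar d σ σ' hσ h3⟩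
  have hfc : ∀ (d : w.D) (σ σ' : w.V → Bool), (∀ v ∈ Ex w.T d σ, σ' v = σ v) →
      f d σ' = f d σ := by
    intro d σ σ' hσ
    have hσ' : ∀ v ∈ Ex w.T d σ', σ v = σ' v := by
      rw [ex_congr d _ _ hσ]
      exact fun v hv => (hσ v hv).symm
    rw [hf]
    simp only
    by_cases h1 : w.cap J σ d
    · rw [if_pos h1, if_pos (hcapc d σ σ' hσ h1), hF d σ σ' hσ]
    · rw [if_neg h1, if_neg (fun h2 => h1 (hcapc d σ' σ hσ' h2))]
  have key : ∀ d : w.D, c * ∑ τ : w.X → Bool, f d (s1 (secB x₀) w.O τ) ≤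
      ∑ τ : w.X → Bool, if Cap w.T Jm (s1 (secB x₀) w.O τ) d then
        f d (s1 (secB x₀) w.O τ) else 0 := by
    intro d
    by_cases hd : w.T.src d = w.O
    · have hne : ∀ τ : w.X → Bool, f d (s1 (secB x₀) w.O τ) ≠ 0 →
          w.cap J (s1 (secB x₀) w.O τ) d ∧ F (s1 (secB x₀) w.O τ) d ≠ 0 := by
        intro τ h1
        by_cases h2 : w.cap J (s1 (secB x₀) w.O τ) d
        · refine ⟨h2, fun h3 => h1 ?_⟩
          rw [hf]
          simp only
          rw [if_pos h2, h3]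
        · exfalso
          apply h1
          rw [hf]
          simp only
          rw [if_neg h2]
      have h0 := hG.net_lower (d := d) hd (Jm := Jm) (hf0 d) (hfc d)
        (fun τ h1 => by
          obtain ⟨-, h3, h4, -⟩ := (hne τ h1).1
          exact ⟨h3, h4.mono hJm⟩)
        (c := c) (fun τ h1 => hc τ d (hne τ h1).1 (hne τ h1).2)
      refine (le_of_eq ?_).trans (h0.trans (le_of_eq ?_))
      · exact congrArg (fun x => c * x) (sum_inst _ _ _)
      · exact sum_inst _ _ _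
    · have h0 : ∀ τ : w.X → Bool, f d (s1 (secB x₀) w.O τ) = 0 := by
        intro τ
        rw [hf]
        simp only
        rw [if_neg (fun h2 => hd h2.1)]
      simp [h0]
  have hsum : c * ∑ τ : w.X → Bool, ∑ d, f d (s1 (secB x₀) w.O τ) ≤
      ∑ τ : w.X → Bool, ∑ d, if Cap w.T Jm (s1 (secB x₀) w.O τ) d then
        f d (s1 (secB x₀) w.O τ) else 0 := by
    rw [Finset.sum_comm, Finset.mul_sum, Finset.sum_comm (f := fun (τ : w.X → Bool) d =>
      if Cap w.T Jm (s1 (secB x₀) w.O τ) d then f d (s1 (secB x₀) w.O τ) else 0)]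
    exact Finset.sum_le_sum fun d _ => key d
  have e1 : ∀ (τ : w.X → Bool) (d : w.D), (if w.cap J (s1 (secB x₀) w.O τ) d then
      ENNReal.ofReal (F (s1 (secB x₀) w.O τ) d) else 0) =
      ENNReal.ofReal (f d (s1 (secB x₀) w.O τ)) := by
    intro τ d
    rw [hf]
    simp only
    split_ifs
    · rfl
    · simp
  simp_rw [e1]
  have e2 : ∑ τ : w.X → Bool, ∑ d, ENNReal.ofReal (f d (s1 (secB x₀) w.O τ)) =
      ENNReal.ofReal (∑ τ : w.X → Bool, ∑ d, f d (s1 (secB x₀) w.O τ)) := by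
    rw [ENNReal.ofReal_sum_of_nonneg (fun τ _ => Finset.sum_nonneg fun d _ => hf0 d _)]
    exact Finset.sum_congr rfl fun τ _ =>
      (ENNReal.ofReal_sum_of_nonneg (fun d _ => hf0 d _)).symm
  have e3 : ENNReal.ofReal (∑ τ : w.X → Bool, ∑ d, if Cap w.T Jm (s1 (secB x₀) w.O τ) d then
        f d (s1 (secB x₀) w.O τ) else 0) ≤ ∑ τ : w.X → Bool, B τ := by
    have hnn : ∀ (τ : w.X → Bool) (d : w.D), 0 ≤ (if Cap w.T Jm (s1 (secB x₀) w.O τ) d then
        f d (s1 (secB x₀) w.O τ) else 0) := by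
      intro τ d
      split_ifs
      · exact hf0 d _
      · exact le_rfl
    rw [ENNReal.ofReal_sum_of_nonneg (fun τ _ => Finset.sum_nonneg fun d _ => hnn τ d)]
    refine Finset.sum_le_sum fun τ _ => ?_
    rw [ENNReal.ofReal_sum_of_nonneg (fun d _ => hnn τ d)]
    set S : Finset w.D := Finset.univ.filter fun d => w.cap J (s1 (secB x₀) w.O τ) d ∧
      Cap w.T Jm (s1 (secB x₀) w.O τ) d ∧ F (s1 (secB x₀) w.O τ) d ≠ 0 with hS
    refine le_trans (le_of_eq ?_) (hB τ S fun d hd => (Finset.mem_filter.1 hd).2)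
    rw [hS, Finset.sum_filter]
    refine Finset.sum_congr rfl fun d _ => ?_
    rw [hf]
    simp only
    by_cases h1 : Cap w.T Jm (s1 (secB x₀) w.O τ) d
    · by_cases h2 : w.cap J (s1 (secB x₀) w.O τ) d
      · by_cases h3 : F (s1 (secB x₀) w.O τ) d = 0
        · rw [if_pos h1, if_pos h2, if_neg (fun h => h.2.2 h3), h3, ENNReal.ofReal_zero]
        · rw [if_pos h1, if_pos h2, if_pos ⟨h2, h1, h3⟩]
      · rw [if_pos h1, if_neg h2, if_neg (fun h => h2 h.1), ENNReal.ofReal_zero]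
    · rw [if_neg h1, if_neg (fun h => h1 h.2.1), ENNReal.ofReal_zero]
  rw [e2]
  have hc1 : ENNReal.ofReal c ≠ 0 := by
    rw [Ne, ENNReal.ofReal_eq_zero, not_le]; exact hc0
  have h5 : ENNReal.ofReal (∑ τ : w.X → Bool, ∑ d, f d (s1 (secB x₀) w.O τ)) ≤
      (ENNReal.ofReal c)⁻¹ * ∑ τ : w.X → Bool, B τ := by
    rw [← ENNReal.mul_le_mul_iff_right hc1 ENNReal.ofReal_ne_top, ← mul_assoc,
      ENNReal.mul_inv_cancel hc1 ENNReal.ofReal_ne_top, one_mul, ← ENNReal.ofReal_mul hc0.le]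
    exact (ENNReal.ofReal_le_ofReal hsum).trans e3
  calc (2 ^ Fintype.card w.X : ℝ≥0∞)⁻¹ *
        ENNReal.ofReal (∑ τ : w.X → Bool, ∑ d, f d (s1 (secB x₀) w.O τ))
      ≤ (2 ^ Fintype.card w.X)⁻¹ * ((ENNReal.ofReal c)⁻¹ * ∑ τ : w.X → Bool, B τ) := by gcongr
    _ = _ := by ring

/-- The part of a rotating weight on good faces. -/
theorem gp_rot {ζ : ℂ} {Φ : w.D → ℂ} (hr : ∀ d, Φ (w.T.nxt d) = ζ ^ 2 * Φ d) (d : w.D) :
    H126.gp w.T Φ (w.T.nxt d) = ζ ^ 2 * H126.gp w.T Φ d :=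
  rs_rot (T := w.T) hr (fun e => good_nxt w.hull w.π w.fib e) d

theorem gp_good (Φ : w.D → ℂ) (d : w.D) (hd : ¬ w.T.Good d) : H126.gp w.T Φ d = 0 := by
  classical
  unfold H126.gp rs
  rw [if_neg hd]

open Classical in
/-- **Windows, one arc and one cell.** `P d g` : the end of the excursion `d` (with last dart `g`) is
near the cell; `Φ` : the weight on the cell; `B₂` : the energy of the world with frozen far sets
(helper126). -/
theorem msum_win_le [Fintype w.X] (x₀ : w.X) {Jm : Set w.D} (hJm : Jm ⊆ J)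
    {H : w.D → w.D → List w.D} {P : w.D → w.D → Prop} {ζ : ℂ} (hζ : ζ ^ 2 + ζ + 1 = 0)
    {Φ : w.D → ℂ} (hr : ∀ d, Φ (w.T.nxt d) = ζ ^ 2 * Φ d) {c : ℝ} (hc0 : 0 < c)
    (hc : ∀ (τ : w.X → Bool) (d : w.D), w.cap J (s1 (secB x₀) w.O τ) d →
      P d (lst w.T (s1 (secB x₀) w.O τ) d) → c ≤ pr (fun τ' : w.X → Bool => Net w.T Jm w.O false
        (Ex w.T d (s1 (secB x₀) w.O τ)) (s1 (secB x₀) w.O τ')))
    {B₂ : (w.X → Bool) → ℝ} (hB0 : ∀ τ, 0 ≤ B₂ τ)
    (hB : ∀ (τ : w.X → Bool) (S : Finset w.D), (∀ d ∈ S, w.cap J (s1 (secB x₀) w.O τ) d ∧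
      Cap w.T Jm (s1 (secB x₀) w.O τ) d ∧ P d (lst w.T (s1 (secB x₀) w.O τ) d)) →
      ∑ d ∈ S, ‖((H d (lst w.T (s1 (secB x₀) w.O τ) d)).map Φ).sum‖ ^ 2 ≤
        2 * B₂ τ + 2 * tot w.T (s1 (secB x₀) w.O τ) (H126.gp w.T Φ)) :
    w.msum J (fun σ d => if P d (lst w.T σ d) then
        ENNReal.ofReal (‖((H d (lst w.T σ d)).map Φ).sum‖ ^ 2) else 0) ≤
      (ENNReal.ofReal c)⁻¹ * (2 * ((2 ^ Fintype.card w.X)⁻¹ *
        ∑ τ : w.X → Bool, ENNReal.ofReal (B₂ τ)) + 2 * w.Qt (H126.gp w.T Φ)) := by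
  set F : (w.V → Bool) → w.D → ℝ := fun σ d =>
    if P d (lst w.T σ d) then ‖((H d (lst w.T σ d)).map Φ).sum‖ ^ 2 else 0 with hF
  have e1 : (fun (σ : w.V → Bool) (d : w.D) => if P d (lst w.T σ d) then
      ENNReal.ofReal (‖((H d (lst w.T σ d)).map Φ).sum‖ ^ 2) else 0) =
      fun σ d => ENNReal.ofReal (F σ d) := by
    funext σ d
    rw [hF]
    simp only
    split_ifs
    · rfl
    · simp
  rw [e1]
  have hPF : ∀ σ d, F σ d ≠ 0 → P d (lst w.T σ d) := by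
    intro σ d h1
    by_contra h2
    apply h1
    rw [hF]
    simp only
    rw [if_neg h2]
  refine (msum_cap_le x₀ hJm (F := F) ?_ ?_ ?_ hc0 (fun τ d h1 h2 => hc τ d h1 (hPF _ _ h2))
    (B := fun τ => 2 * ENNReal.ofReal (B₂ τ) +
      2 * ENNReal.ofReal (tot w.T (s1 (secB x₀) w.O τ) (H126.gp w.T Φ))) ?_).trans ?_
  · intro σ d
    rw [hF]
    simp only
    split_ifs
    · positivity
    · exact le_rfl
  · intro σ d
    rw [hF]
    simp only
    rw [lst_neg]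
  · intro d σ σ' hσ
    rw [hF]
    simp only
    rw [lst_congr hσ]
  · intro τ S hS
    have h1 := hB τ S fun d hd => ⟨(hS d hd).1, (hS d hd).2.1, hPF _ _ (hS d hd).2.2⟩
    have e2 : (2 : ℝ≥0∞) = ENNReal.ofReal 2 := by norm_num
    rw [e2, ← ENNReal.ofReal_mul (by norm_num), ← ENNReal.ofReal_mul (by norm_num),
      ← ENNReal.ofReal_add (by have := hB0 τ; positivity)
        (by have := tot_nonneg w.T (s1 (secB x₀) w.O τ) (H126.gp w.T Φ); positivity),
      ← ENNReal.ofReal_sum_of_nonneg]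
    · apply ENNReal.ofReal_le_ofReal
      refine le_trans (le_of_eq ?_) h1
      apply Finset.sum_congr rfl
      intro d hd
      rw [hF]
      simp only
      rw [if_pos (hPF _ _ (hS d hd).2.2)]
    · intro d _
      rw [hF]
      simp only
      split_ifs
      · positivity
      · exact le_rfl
  · gcongr
    rw [Finset.sum_add_distrib, mul_add, ← Finset.mul_sum, ← Finset.mul_sum,
      ← mean_tot x₀ hζ (gp_rot hr) (gp_good Φ)]
    apply le_of_eq
    ring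

end one

end Vale.Agent.P148.R2.H400
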