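import Vale.Agent.P148.R2.H400.Flip11
import Vale.Agent.P148.R2.H172.Sc2

/-!
# The arcs of a frame as arcs of the cycle based at their first foot (P148)

`arc_eq` : the arc between the gates `a` and `b` of a frame is `H659.arc` of the loop based at the
foot of `a`. `arc_nonempty`, `tail_mem`, `chain_of_cap` : the closing chain of a captured excursion.
-/

set_option linter.unusedSectionVars false

open Set Metric Function
open scoped ENNReal

namespace Vale.Agent.P148.R2.H400

open H592 H184 H203 H871 H838 Vale.Agent.P148.R2.H258 H910 H659 H566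

theorem early_congr {V D : Type*} [Finite D] {T : Tri V D} {σ : V → Bool} {o e e' : D} (h : T.Rel σ e e')
    (tb : ℕ) : early T σ o e tb = early T σ o e' tb := by
  ext v
  constructor
  · rintro ⟨m, h1, h2, h3⟩
    exact ⟨m, h1, T.rel_trans (T.rel_symm h) h2, h3⟩
  · rintro ⟨m, h1, h2, h3⟩
    exact ⟨m, h1, T.rel_trans h h2, h3⟩

section frame

variable {M : ℕ} {w : W0} {x₀ : w.X} {col : w.X → Bool} (F : H172.Frame M w x₀ col)

/-- **The arc between the gates `a` and `b`** is the arc of the first `s` members of the loop based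
at the foot of the gate `a`. -/
theorem arc_eq {a b : ℕ} (hb : b ≤ N.nc M) {n : ℕ} {c : ℕ → w.D} {τ : ℕ → ℕ}
    (hL : H659.Loop (H609.TP w x₀) (H609.piX w) w.O col
      (((H609.TP w x₀).st col)^[F.t a] F.o) n c τ)
    (hrel : (H609.TP w x₀).Rel col (F.c 0) (c 0)) :
    ∃ s ≤ n, (∀ i < n, i < s ↔ τ i < F.t b - F.t a) ∧
      arc (H609.TP w x₀) w.T w.O c s = H609.Bq w (F.P a b) := by
  have hper : F.t b ≤ per (H609.TP w x₀) col F.o := by
    rw [← F.per_eq]
    exact F.lt.mono hb
  have hper' : per (H609.TP w x₀) col (((H609.TP w x₀).st col)^[F.t a] F.o) =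
      per (H609.TP w x₀) col F.o := per_iter _ _ _ _
  obtain ⟨s, h1, h2, h3⟩ := hL.exists_cut (T1 := w.T) (tb := F.t b - F.t a) (by
    rw [hper']; omega)
  refine ⟨s, h1, h2, ?_⟩
  rw [h3, early_congr (H609.TP w x₀ |>.rel_symm hrel)]
  exact (H609.bq_eq_arcP F.loop hper).symm

end frame

end Vale.Agent.P148.R2.H400
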