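import Vale.Agent.P148.R2.H258.A6
import Vale.Agent.P148.R2.H400.Flip1
import Vale.Agent.P148.R2.H871.N0b
import Vale.Agent.P148.R2.H838.X3

/-!
# Excursions: locality of a class up to the first return, and fresh paths

`d` is a minority dart, `n` the time of the first return of the left side of its strand to `T.src d`.
The class of `d` is determined by the colours of the vertices hugged up to time `n`, and a walk of
vertices not hugged up to time `n`, which starts at the base on the side of the strand, first meets the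
hugged vertices at a vertex of the minority colour.
-/

namespace Vale.Agent.P148.R2.H400

open Function Vale.Agent.P148.R2.H258 Vale.Agent.P148.R2.H871 Vale.Agent.P148.R2.H838

variable {V D : Type*} {T : Tri V D} {σ : V → Bool} {d : D} {n : ℕ}

/-- First return of the left side of the strand. -/
def IsRet (T : Tri V D) (σ : V → Bool) (d : D) (n : ℕ) : Prop :=
  1 ≤ n ∧ T.src ((T.st σ)^[n] d) = T.src d ∧
    ∀ i, 1 ≤ i → i < n → T.src ((T.st σ)^[i] d) ≠ T.src d

theorem exists_ret [Finite D] (T : Tri V D) (σ : V → Bool) (d : D) : ∃ n, IsRet T σ d n := by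
  classical
  have hex : ∃ n, 1 ≤ n ∧ T.src ((T.st σ)^[n] d) = T.src d :=
    ⟨per T σ d, per_pos T σ d, sa_per T σ d⟩
  refine ⟨Nat.find hex, (Nat.find_spec hex).1, (Nat.find_spec hex).2, ?_⟩
  intro i h1 h2 h3
  exact Nat.find_min hex h2 ⟨h1, h3⟩

theorem IsRet.le_per [Finite D] (h : IsRet T σ d n) : n ≤ per T σ d := by
  by_contra hc
  push Not at hc
  exact h.2.2 _ (per_pos T σ d) hc (sa_per T σ d)

theorem IsRet.unique {m : ℕ} (h : IsRet T σ d n) (h' : IsRet T σ d m) : n = m := by
  rcases lt_trichotomy n m with h1 | h1 | h1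
  · exact absurd h.2.1 (h'.2.2 n h.1 h1)
  · exact h1
  · exact absurd h'.2.1 (h.2.2 m h'.1 h1)

/-- The members of the class come before the first return. -/
theorem IsRet.mem_lt [Finite D] (h : IsRet T σ d n) {g : D} (hg : T.Rel σ d g) :
    ∃ k < n, (T.st σ)^[k] d = g := by
  obtain ⟨hd, hg', k, hk, rfl, hD⟩ := hg
  refine ⟨k, ?_, rfl⟩
  by_contra hc
  push Not at hc
  have := hD n (minimalPeriod (T.st σ) d) h.1 hc hk le_rfl
  apply this
  rw [h.2.1, iterate_minimalPeriod]

/-- Disjointness up to the first return is enough. -/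
theorem IsRet.disj_iff [Finite D] (hP : T.Planar) (hb : T.Bi σ d) (h : IsRet T σ d n) {k : ℕ}
    (hk : k < n) : T.Disj σ d k ↔ DisjOn T σ d 1 n k := by
  have hL := h.le_per
  constructor
  · intro h1 i j a1 a2 a3 a4
    exact h1 i j a1 a2 a3 (a4.trans hL)
  · intro h1 i j a1 a2 a3 a4 a5
    rcases Nat.lt_or_ge n j with h2 | h2
    · rcases Nat.lt_or_ge j (per T σ d) with h3 | h3
      · have h4 := non_cross T hP hb (i := i) (j := n) (k := j) (l := per T σ d)
          (by omega) h2 h3 (by omega) a5.symm (by rw [sa_per]; exact h.2.1.symm)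
        have h5 : T.src ((T.st σ)^[i] d) = T.src d := by
          have h6 : sa T σ d n = T.src d := h.2.1
          rw [← h6, h4]; rfl
        exact h.2.2 i a1 (by omega) h5
      · have h4 : j = per T σ d := le_antisymm a4 h3
        have h5 : T.src ((T.st σ)^[j] d) = T.src d := by
          rw [h4]; exact sa_per T σ d
        exact h.2.2 i a1 (by omega) (a5.trans h5)
    · exact h1 i j a1 a2 a3 h2 a5

theorem IsRet.rel_iff [Finite D] (hP : T.Planar) (hd : T.Mi σ d) (h : IsRet T σ d n) (g : D) :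
    T.Rel σ d g ↔ ∃ k < n, (T.st σ)^[k] d = g ∧ T.Mi σ g ∧ DisjOn T σ d 1 n k := by
  constructor
  · intro hg
    obtain ⟨k, hk, rfl⟩ := h.mem_lt hg
    refine ⟨k, hk, rfl, hg.2.1, ?_⟩
    rw [← h.disj_iff hP hd.bi hk]
    exact T.rel_pos (lt_of_lt_of_le hk h.le_per) hg
  · rintro ⟨k, hk, rfl, h1, h2⟩
    exact ⟨hd, h1, k, lt_of_lt_of_le hk h.le_per, rfl, (h.disj_iff hP hd.bi hk).2 h2⟩

/-- Locality of the first return. -/
theorem IsRet.congr {σ' : V → Bool} (h : IsRet T σ d n) (hσ : ∀ v ∈ Old T σ d n, σ' v = σ v) :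
    IsRet T σ' d n := by
  have hit := iter_congr T hσ
  refine ⟨h.1, ?_, ?_⟩
  · rw [hit n le_rfl]; exact h.2.1
  · intro i h1 h2
    rw [hit i h2.le]; exact h.2.2 i h1 h2

theorem mi_congr {σ' : V → Bool} (hd : T.Mi σ d) (hσ : ∀ v ∈ Old T σ d n, σ' v = σ v) {k : ℕ}
    (hk : k < n) : T.Mi σ' ((T.st σ)^[k] d) ↔ T.Mi σ ((T.st σ)^[k] d) := by
  have h1 : σ' (T.src ((T.st σ)^[k] d)) = σ (T.src ((T.st σ)^[k] d)) :=
    hσ _ ⟨k, hk.le, Or.inl rfl⟩
  have h2 : σ' (T.tgt ((T.st σ)^[k] d)) = σ (T.tgt ((T.st σ)^[k] d)) :=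
    hσ _ ⟨k, hk.le, Or.inr rfl⟩
  have h3 : σ' (T.apex ((T.st σ)^[k] d)) = σ (T.apex ((T.st σ)^[k] d)) := by
    rcases apex_hugged hd.bi k with h4 | h4
    · rw [← h4]; exact hσ _ ⟨k + 1, hk, Or.inl rfl⟩
    · rw [← h4]; exact hσ _ ⟨k + 1, hk, Or.inr rfl⟩
  unfold Tri.Mi
  rw [h1, h2, h3]

/-- **Locality of the class.** -/
theorem IsRet.rel_congr [Finite D] (hP : T.Planar) {σ' : V → Bool} (hd : T.Mi σ d)
    (h : IsRet T σ d n) (hσ : ∀ v ∈ Old T σ d n, σ' v = σ v) (g : D) :
    T.Rel σ' d g ↔ T.Rel σ d g := by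
  have hit := iter_congr T hσ
  have hd' : T.Mi σ' d := (mi_congr hd hσ (k := 0) h.1).2 hd
  rw [(h.congr hσ).rel_iff hP hd', h.rel_iff hP hd]
  have hsa : ∀ i ≤ n, sa T σ' d i = sa T σ d i := fun i hi => by
    unfold sa; rw [hit i hi]
  constructor
  · rintro ⟨k, hk, rfl, h1, h2⟩
    rw [hit k hk.le] at h1
    refine ⟨k, hk, (hit k hk.le).symm, ?_, ?_⟩
    · rw [hit k hk.le]; exact (mi_congr hd hσ hk).1 h1
    · intro i j a1 a2 a3 a4
      rw [← hsa i (by omega), ← hsa j a4]
      exact h2 i j a1 a2 a3 a4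
  · rintro ⟨k, hk, rfl, h1, h2⟩
    refine ⟨k, hk, hit k hk.le, (mi_congr hd hσ hk).2 h1, ?_⟩
    intro i j a1 a2 a3 a4
    rw [hsa i (by omega), hsa j a4]
    exact h2 i j a1 a2 a3 a4

theorem IsRet.cls_congr [Fintype D] (hP : T.Planar) {σ' : V → Bool} (hd : T.Mi σ d)
    (h : IsRet T σ d n) (hσ : ∀ v ∈ Old T σ d n, σ' v = σ v) (Θ : D → ℂ) :
    T.cls σ' d Θ = T.cls σ d Θ := by
  classical
  unfold Tri.cls
  apply Finset.sum_congr rfl
  intro e _
  have : T.Rel σ' e d ↔ T.Rel σ e d :=
    ⟨fun h1 => T.rel_symm ((h.rel_congr hP hd hσ e).1 (T.rel_symm h1)),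
      fun h1 => T.rel_symm ((h.rel_congr hP hd hσ e).2 (T.rel_symm h1))⟩
  simp only [this]

/-! ### the left walk up to the first return -/

theorem mem_lw {e : D} : e ∈ T.lw σ d n ↔
    ∃ i < n, T.Mi σ ((T.st σ)^[i] d) ∧ e = T.rev (T.nxt (T.nxt ((T.st σ)^[i] d))) := by
  induction n with
  | zero => simp [Tri.lw]
  | succ n ih =>
    by_cases hm : T.Mi σ ((T.st σ)^[n] d)
    · have : T.lw σ d (n + 1) = T.lw σ d n ++ [T.rev (T.nxt (T.nxt ((T.st σ)^[n] d)))] := by
        simp [Tri.lw, hm]
      rw [this, List.mem_append, ih, List.mem_singleton]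
      constructor
      · rintro (⟨i, hi, h⟩ | h)
        · exact ⟨i, by omega, h⟩
        · exact ⟨n, by omega, hm, h⟩
      · rintro ⟨i, hi, h⟩
        rcases Nat.lt_succ_iff_lt_or_eq.1 hi with h1 | rfl
        · exact Or.inl ⟨i, h1, h⟩
        · exact Or.inr h.2
    · have : T.lw σ d (n + 1) = T.lw σ d n := by simp [Tri.lw, hm]
      rw [this, ih]
      constructor
      · rintro ⟨i, hi, h⟩
        exact ⟨i, by omega, h⟩
      · rintro ⟨i, hi, h⟩
        rcases Nat.lt_succ_iff_lt_or_eq.1 hi with h1 | rfl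
        · exact ⟨i, h1, h⟩
        · exact absurd h.1 hm

theorem inj_st {i j : ℕ} (hi : i < per T σ d) (hj : j < per T σ d)
    (h : (T.st σ)^[i] d = (T.st σ)^[j] d) : i = j :=
  (iterate_eq_iterate_iff_of_lt_minimalPeriod hi hj).1 h

theorem lw_nodup (hn : n ≤ per T σ d) : (T.lw σ d n).Nodup := by
  induction n with
  | zero => simp [Tri.lw]
  | succ n ih =>
    by_cases hm : T.Mi σ ((T.st σ)^[n] d)
    · have : T.lw σ d (n + 1) = T.lw σ d n ++ [T.rev (T.nxt (T.nxt ((T.st σ)^[n] d)))] := by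
        simp [Tri.lw, hm]
      rw [this, List.nodup_append]
      refine ⟨ih (by omega), List.nodup_singleton _, ?_⟩
      intro a ha b hb hab
      rw [List.mem_singleton] at hb
      obtain ⟨i, hi, -, h1⟩ := mem_lw.1 ha
      rw [hab, hb] at h1
      have h2 := T.nxt_inj (T.nxt_inj (T.rev_inj h1))
      have := inj_st (T := T) (σ := σ) (d := d) (i := n) (j := i) (by omega) (by omega) h2
      omega
    · have : T.lw σ d (n + 1) = T.lw σ d n := by simp [Tri.lw, hm]
      rw [this]; exact ih (by omega)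

/-- The face of `f` is crossed by the strand before time `n`. -/
def Sw (T : Tri V D) (σ : V → Bool) (d : D) (n : ℕ) (f : D) : Prop :=
  ∃ i < n, f = (T.st σ)^[i] d ∨ f = T.nxt ((T.st σ)^[i] d) ∨
    f = T.nxt (T.nxt ((T.st σ)^[i] d))

section pot

variable {N : D → ZMod 2}

theorem lw_mono {e : D} (he : e ∈ T.lw σ d n) :
    σ (T.src e) = σ (T.src d) ∧ σ (T.tgt e) = σ (T.src d) := by
  obtain ⟨i, -, h1, h2⟩ := T.lw_mem he
  rw [h1, h2, T.col_src_iter σ, T.col_src_iter σ]
  exact ⟨rfl, rfl⟩

theorem pot_sw (hb : T.Bi σ d) (hN : T.Pot (T.lw σ d n) N) (hN0 : N d = 0) {f : D}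
    (hf : Sw T σ d n f) : N f = 0 := by
  obtain ⟨i, -, hf⟩ := hf
  have h1 : N ((T.st σ)^[i] d) = 0 := by
    rw [T.pot_iter (fun e he => by rw [(lw_mono he).1, (lw_mono he).2]) hN hb i, hN0]
  rcases hf with rfl | rfl | rfl
  · exact h1
  · rw [hN.1, h1]
  · rw [hN.1, hN.1, h1]

/-- Rotation around a vertex. -/
def rot (T : Tri V D) (f : D) : D := T.rev (T.nxt (T.nxt f))

theorem src_rot (f : D) : T.src (rot T f) = T.src f := by
  unfold rot; rw [T.src_rev, T.tgt_nxt2]

theorem tgt_rot (f : D) : T.tgt (rot T f) = T.apex f := by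
  unfold rot; rw [T.tgt_rev, T.src_nxt2]

theorem rev_rot (f : D) : T.rev (rot T f) = T.nxt (T.nxt f) := by
  unfold rot; rw [T.rev_rev]

theorem pot_rot (hN : T.Pot (T.lw σ d n) N) {f : D} (hl : T.src f ≠ T.apex f) :
    N (rot T f) + N f = T.mu (T.lw σ d n) (rot T f) := by
  have h := hN.2 (rot T f) (Or.inl (by rw [src_rot, tgt_rot]; exact hl))
  rw [rev_rot, hN.1, hN.1] at h
  exact h

/-- A dart with the colour of the left side whose face is not crossed has potential one, if some
dart at the same vertex is in a crossed face. -/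
theorem dich [Finite D] (hb : T.Bi σ d) (h : IsRet T σ d n) (hN : T.Pot (T.lw σ d n) N)
    (hN0 : N d = 0) {b : V} (hbo : b ≠ T.src d) (hcb : σ b = σ (T.src d))
    (hnl : ∀ f, T.src f = b → T.tgt f ≠ b) (hold : b ∈ Old T σ d n) {f : D}
    (hf : T.src f = b) (hsw : ¬ Sw T σ d n f) : N f = 1 := by
  classical
  set g : ℕ → D := fun i => (T.st σ)^[i] d with hg
  have hbi : ∀ i, T.Bi σ (g i) := fun i => (T.bi_iter i).2 hb
  have hcs : ∀ i, σ (T.src (g i)) = σ (T.src d) := fun i => T.col_src_iter σ d i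
  have hct : ∀ i, σ (T.tgt (g i)) ≠ σ (T.src d) := by
    intro i hh
    apply hb
    rw [← hh]
    exact T.col_tgt_iter σ d i
  have hg1 : ∀ i, g (i + 1) = T.st σ (g i) := fun i => by
    simp only [hg]; rw [iterate_succ', comp_apply]
  have hsn : T.src (g n) = T.src d := h.2.1
  have hnod := lw_nodup (T := T) (σ := σ) (d := d) h.le_per
  have hmemr : ∀ e, rot T e ∈ T.lw σ d n ↔ ∃ i < n, T.Mi σ (g i) ∧ e = g i := by
    intro e
    rw [mem_lw]
    constructor
    · rintro ⟨i, hi, h1, h2⟩
      exact ⟨i, hi, h1, T.nxt_inj (T.nxt_inj (T.rev_inj h2))⟩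
    · rintro ⟨i, hi, h1, rfl⟩
      exact ⟨i, hi, h1, rfl⟩
  have hmemrr : ∀ e, T.rev (rot T e) ∈ T.lw σ d n ↔
      ∃ i < n, T.Mi σ (g i) ∧ rot T e = T.nxt (T.nxt (g i)) := by
    intro e
    rw [mem_lw]
    constructor
    · rintro ⟨i, hi, h1, h2⟩
      exact ⟨i, hi, h1, T.rev_inj h2⟩
    · rintro ⟨i, hi, h1, h2⟩
      exact ⟨i, hi, h1, by rw [h2]⟩
  have hne : ∀ e, T.src e = b → T.src e ≠ T.apex e := by
    intro e he h1
    have h2 := hnl (rot T e) (by rw [src_rot]; exact he)
    rw [tgt_rot] at h2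
    exact h2 (by rw [← h1, he])
  have key : ∀ e, T.src e = b →
      ((¬ Sw T σ d n e → N e = 1) ↔ (¬ Sw T σ d n (rot T e) → N (rot T e) = 1)) := by
    intro e he
    have hpr := pot_rot hN (hne e he)
    by_cases h1 : Sw T σ d n e
    · by_cases h2 : Sw T σ d n (rot T e)
      · exact ⟨fun _ h3 => absurd h2 h3, fun _ h3 => absurd h1 h3⟩
      · refine ⟨fun _ _ => ?_, fun _ h3 => absurd h1 h3⟩
        have hNe := pot_sw hb hN hN0 h1
        obtain ⟨i, hi, h3⟩ := h1
        have hcase : e = g i ∧ T.Mi σ (g i) := by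
          have hnext : g (i + 1) = rot T e → False := by
            intro h4
            rcases Nat.lt_or_ge (i + 1) n with h5 | h5
            · exact h2 ⟨i + 1, h5, Or.inl h4.symm⟩
            · have h6 : i + 1 = n := by omega
              rw [h6] at h4
              apply hbo
              rw [← he, ← src_rot (T := T) e, ← h4, hsn]
          rcases h3 with h3 | h3 | h3
          · refine ⟨h3, ?_⟩
            by_contra h4
            apply hnext
            rw [hg1, T.st_nmi (hbi i) h4, h3]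
            rfl
          · exfalso
            apply hct i
            have h5 : T.src e = T.tgt (g i) := by rw [h3]; exact T.src_nxt' _
            rw [← h5, he, hcb]
          · exfalso
            have h5 : T.src e = T.apex (g i) := by rw [h3]; rfl
            have h4 : T.Mi σ (g i) := by
              refine ⟨hbi i, ?_⟩
              rw [← h5, he, hcb, hcs]
            apply hnext
            rw [hg1, T.st_mi h4, h3]
            unfold rot
            rw [T.nxt3]
        have hc1 : (T.lw σ d n).count (rot T e) = 1 :=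
          List.count_eq_one_of_mem hnod ((hmemr e).2 ⟨i, hi, hcase.2, hcase.1⟩)
        have hc2 : (T.lw σ d n).count (T.rev (rot T e)) = 0 := by
          apply List.count_eq_zero_of_not_mem
          intro h4
          obtain ⟨j, hj, -, h5⟩ := (hmemrr e).1 h4
          exact h2 ⟨j, hj, Or.inr (Or.inr h5)⟩
        unfold Tri.mu at hpr
        rw [hc1, hc2, hNe] at hpr
        simpa using hpr
    · by_cases h2 : Sw T σ d n (rot T e)
      · refine ⟨fun _ h3 => absurd h2 h3, fun _ _ => ?_⟩
        have hNe := pot_sw hb hN hN0 h2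
        obtain ⟨i, hi, h3⟩ := h2
        have hse : T.src (rot T e) = b := by rw [src_rot]; exact he
        have hcase : rot T e = T.nxt (T.nxt (g i)) ∧ T.Mi σ (g i) := by
          rcases h3 with h3 | h3 | h3
          · exfalso
            rcases Nat.eq_zero_or_pos i with h4 | h4
            · apply hbo
              rw [← hse, h3, h4]; rfl
            · obtain ⟨j, rfl⟩ : ∃ j, i = j + 1 := ⟨i - 1, by omega⟩
              have h5 : T.rev (T.st σ (g j)) = T.nxt (T.nxt e) := by
                rw [← hg1]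
                have : rot T e = g (j + 1) := h3
                rw [← this, rev_rot]
              by_cases h6 : T.Mi σ (g j)
              · rw [T.st_mi h6, T.rev_rev] at h5
                have h7 : g j = T.nxt e := T.nxt_inj h5
                exact h1 ⟨j, by omega, Or.inr (Or.inr (by
                  change e = T.nxt (T.nxt (g j))
                  rw [h7, T.nxt3]))⟩
              · rw [T.st_nmi (hbi j) h6, T.rev_rev] at h5
                exact h1 ⟨j, by omega, Or.inl (T.nxt_inj (T.nxt_inj h5)).symm⟩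
          · exfalso
            apply hct i
            have h5 : T.src (rot T e) = T.tgt (g i) := by rw [h3]; exact T.src_nxt' _
            rw [← h5, hse, hcb]
          · refine ⟨h3, hbi i, ?_⟩
            have h5 : T.src (rot T e) = T.apex (g i) := by rw [h3]; rfl
            rw [← h5, hse, hcb, hcs]
        have hc1 : (T.lw σ d n).count (T.rev (rot T e)) = 1 :=
          List.count_eq_one_of_mem hnod ((hmemrr e).2 ⟨i, hi, hcase.2, hcase.1⟩)
        have hc2 : (T.lw σ d n).count (rot T e) = 0 := by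
          apply List.count_eq_zero_of_not_mem
          intro h4
          obtain ⟨j, hj, -, h5⟩ := (hmemr e).1 h4
          exact h1 ⟨j, hj, Or.inl h5⟩
        unfold Tri.mu at hpr
        rw [hc1, hc2, hNe] at hpr
        simpa using hpr
      · have hc1 : rot T e ∉ T.lw σ d n := by
          intro h4
          obtain ⟨j, hj, -, h5⟩ := (hmemr e).1 h4
          exact h1 ⟨j, hj, Or.inl h5⟩
        have hc2 : T.rev (rot T e) ∉ T.lw σ d n := by
          intro h4
          obtain ⟨j, hj, -, h5⟩ := (hmemrr e).1 h4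
          exact h2 ⟨j, hj, Or.inr (Or.inr h5)⟩
        rw [T.mu_zero hc1 hc2] at hpr
        have : N e = N (rot T e) := Tri.zmod2_add_eq_zero hpr
        constructor
        · intro h3 _; rw [← this]; exact h3 h1
        · intro h3 _; rw [this]; exact h3 h2
  -- a crossed dart at `b`
  obtain ⟨t, ht, htb⟩ : ∃ t < n, T.src (g t) = b := by
    obtain ⟨t, ht, h1 | h1⟩ := hold
    · refine ⟨t, ?_, h1⟩
      rcases ht.lt_or_eq with h2 | h2
      · exact h2
      · exfalso
        apply hbo
        rw [← h1, h2]; exact hsn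
    · exfalso
      apply hct t
      change σ (T.tgt ((T.st σ)^[t] d)) = _
      rw [h1, hcb]
  have hEq : ∀ e e' : D, Relation.EqvGen
      (fun f g => g = T.rev (T.nxt (T.nxt f)) ∨ (T.src f = T.src (T.rev f) ∧ g = T.rev f)) e e' →
      (T.src e = T.src e' ∧ (T.src e = b →
        ((¬ Sw T σ d n e → N e = 1) ↔ (¬ Sw T σ d n e' → N e' = 1)))) := by
    intro e e' hee
    induction hee with
    | rel e e' hh =>
      rcases hh with rfl | ⟨hh, rfl⟩
      · exact ⟨(src_rot (T := T) e).symm, fun he => key e he⟩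
      · refine ⟨hh, fun he => ?_⟩
        exact absurd (by rw [← he]; exact hh.symm) (hnl e he)
    | refl e => exact ⟨rfl, fun _ => Iff.rfl⟩
    | symm e e' _ ih => exact ⟨ih.1.symm, fun he => (ih.2 (by rw [ih.1, he])).symm⟩
    | trans e e' e'' _ _ ih1 ih2 =>
      exact ⟨ih1.1.trans ih2.1, fun he => (ih1.2 he).trans (ih2.2 (by rw [← ih1.1, he]))⟩
  have h1 := (hEq (g t) f (T.link _ _ (by rw [htb, hf]))).2 htb
  exact h1.1 (fun h2 => absurd ⟨t, ht, Or.inl rfl⟩ h2) hsw

/-- A dart from a hugged vertex to a vertex which is not hugged is not in a crossed face. -/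
theorem not_sw_of_tgt (hb : T.Bi σ d) {f : D} (hf : T.tgt f ∉ Old T σ d n) : ¬ Sw T σ d n f := by
  rintro ⟨i, hi, rfl | rfl | rfl⟩
  · exact hf ⟨i, hi.le, Or.inr rfl⟩
  · apply hf
    rw [T.tgt_nxt]
    rcases apex_hugged hb i with h | h
    · exact ⟨i + 1, hi, Or.inl h⟩
    · exact ⟨i + 1, hi, Or.inr h⟩
  · apply hf
    rw [T.tgt_nxt2]
    exact ⟨i, hi.le, Or.inl rfl⟩

theorem not_mem_lw {e : D} (h1 : T.src e ∉ Old T σ d n ∨ T.tgt e ∉ Old T σ d n) :
    e ∉ T.lw σ d n ∧ T.rev e ∉ T.lw σ d n := by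
  constructor
  · intro he
    obtain ⟨i, hi, h2, h3⟩ := T.lw_mem he
    rcases h1 with h1 | h1
    · exact h1 (by rw [h2]; exact ⟨i, hi.le, Or.inl rfl⟩)
    · exact h1 (by rw [h3]; exact ⟨i + 1, hi, Or.inl rfl⟩)
  · intro he
    obtain ⟨i, hi, h2, h3⟩ := T.lw_mem he
    rw [T.src_rev] at h2
    rw [T.tgt_rev] at h3
    rcases h1 with h1 | h1
    · exact h1 (by rw [h3]; exact ⟨i + 1, hi, Or.inl rfl⟩)
    · exact h1 (by rw [h2]; exact ⟨i, hi.le, Or.inl rfl⟩)

/-- The hugged vertices of the minority colour are joined to `tgt d`. -/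
theorem old_joined (hb : T.Bi σ d) {v : V} (hv : v ∈ Old T σ d n) (hc : σ v = σ (T.tgt d)) :
    Joined T σ (σ (T.tgt d)) Set.univ (T.tgt d) v := by
  obtain ⟨i, hi, h1 | h1⟩ := hv
  · exfalso
    apply hb
    rw [← T.col_src_iter σ d i, h1, hc]
  · refine ⟨Set.mem_univ _, rfl, T.rw' σ d i, ?_, ?_⟩
    · rw [← h1]; exact T.rw_walk hb i
    · intro e he
      obtain ⟨j, -, h2, h3⟩ := T.rw_mem hb he
      rw [h2, h3, T.col_tgt_iter σ, T.col_tgt_iter σ]
      exact ⟨⟨rfl, Set.mem_univ _⟩, rfl, Set.mem_univ _⟩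

/-- **Fresh path lemma.** A walk which starts on the side of the strand, whose vertices are of the
minority colour as long as they are not hugged, and which meets the hugged vertices, is joined
to the minority side of the strand. -/
theorem fresh_join [Finite D] (hb : T.Bi σ d) (h : IsRet T σ d n) (hN : T.Pot (T.lw σ d n) N)
    (hN0 : N d = 0) (hnl : ∀ f, T.src f ≠ T.src d → T.tgt f ≠ T.src f) {u w : V} {q : List D}
    (hq : T.Walk u w q) (hw : w ∈ Old T σ d n)
    (hO : ∀ e ∈ q, T.tgt e ≠ T.src d)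
    (hcol : ∀ e ∈ q, T.src e ∉ Old T σ d n → σ (T.src e) = σ (T.tgt d))
    (hu : u ∉ Old T σ d n) {e0 : D} (he0 : T.src e0 = u) (hNe : N e0 = 0) :
    Joined T σ (σ (T.tgt d)) Set.univ (T.tgt d) u := by
  have hwalk : T.Walk (T.src d) (T.src d) (T.lw σ d n) := by
    have := T.lw_walk hb n
    rwa [h.2.1] at this
  have hlold : ∀ e ∈ T.lw σ d n, T.src e ∈ Old T σ d n := by
    intro e he
    obtain ⟨i, hi, h2, -⟩ := T.lw_mem he
    rw [h2]; exact ⟨i, hi.le, Or.inl rfl⟩
  induction hq generalizing e0 with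
  | nil v => exact absurd hw hu
  | cons e w q _ ih =>
    have hcu : σ (T.src e) = σ (T.tgt d) := hcol e (by simp) hu
    -- potential of `e`
    have hNe1 : N e = 0 := by
      rw [← hNe]
      refine T.const_at hwalk hN.1 hN.2 he0.symm ?_
      intro f hf hh
      exact hu (by rw [← hh]; exact hlold f hf)
    by_cases hto : T.tgt e ∈ Old T σ d n
    · -- the first hugged vertex
      have hcol' : σ (T.tgt e) = σ (T.tgt d) := by
        by_contra hne
        have hcb : σ (T.tgt e) = σ (T.src d) := by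
          have h1 := hb
          unfold Tri.Bi at h1
          revert hne h1
          generalize σ (T.tgt e) = x
          generalize σ (T.tgt d) = y
          generalize σ (T.src d) = z
          cases x <;> cases y <;> cases z <;> simp
        have h1 : N (T.rev e) = 1 := by
          apply dich hb h hN hN0 (b := T.tgt e) (hO e (by simp)) hcb ?_ hto (T.src_rev e) ?_
          · intro f hf hh
            exact hnl f (by rw [hf]; exact hO e (by simp)) (by rw [hh, hf])
          · apply not_sw_of_tgt hb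
            rw [T.tgt_rev]; exact hu
        obtain ⟨h2, h3⟩ := not_mem_lw (T := T) (σ := σ) (d := d) (n := n) (e := e) (Or.inl hu)
        have h4 := hN.2 e (Or.inl (fun hh => hu (by rw [hh]; exact hto)))
        rw [T.mu_zero h2 h3, hNe1, h1] at h4
        exact absurd h4 (by decide)
      have h1 := old_joined hb hto hcol'
      have h2 : Joined T σ (σ (T.tgt d)) Set.univ (T.src e) (T.tgt d) :=
        Joined.cons (g := e) rfl rfl (Set.mem_univ _) hcu h1.symm
      exact h2.symm
    · obtain ⟨h2, h3⟩ := not_mem_lw (T := T) (σ := σ) (d := d) (n := n) (e := e) (Or.inl hu)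
      have hne : T.src e ≠ T.tgt e := by
        intro hh
        have h5 : T.src e ≠ T.src d := by
          intro h6
          exact hu (by rw [h6]; exact ⟨0, by omega, Or.inl rfl⟩)
        exact hnl e h5 hh.symm
      have h4 := hN.2 e (Or.inl hne)
      rw [T.mu_zero h2 h3] at h4
      have h5 : N (T.rev e) = 0 := by
        rw [Tri.zmod2_add_eq_zero h4, hNe1]
      have h6 := ih hw (fun e' he' => hO e' (List.mem_cons_of_mem _ he'))
        (fun e' he' => hcol e' (List.mem_cons_of_mem _ he')) hto (e0 := T.rev e)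
        (T.src_rev e) h5
      exact (Joined.cons (g := e) rfl rfl (Set.mem_univ _) hcu h6.symm).symm

/-- The starting point of a fresh walk, if it is hugged, has the minority colour. -/
theorem start_col [Finite D] (hb : T.Bi σ d) (h : IsRet T σ d n) (hN : T.Pot (T.lw σ d n) N)
    (hN0 : N d = 0) {u : V} (hnl : ∀ f, T.src f = u → T.tgt f ≠ u) (hu : u ∈ Old T σ d n)
    (huo : u ≠ T.src d) {e0 : D} (he0 : T.src e0 = u) (ht0 : T.tgt e0 = T.src d)
    (hne : T.nxt e0 ≠ d) (hNe : N e0 = 0) : σ u = σ (T.tgt d) := by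
  by_contra hc
  have hcb : σ u = σ (T.src d) := by
    have h1 := hb
    unfold Tri.Bi at h1
    revert hc h1
    generalize σ u = x
    generalize σ (T.tgt d) = y
    generalize σ (T.src d) = z
    cases x <;> cases y <;> cases z <;> simp
  by_cases hsw : Sw T σ d n e0
  · obtain ⟨i, hi, h1 | h1 | h1⟩ := hsw
    · have h2 := T.col_tgt_iter σ d i
      rw [← h1, ht0] at h2
      exact hb h2
    · have h2 := T.col_tgt_iter σ d i
      have h3 : T.src e0 = T.tgt ((T.st σ)^[i] d) := by rw [h1]; exact T.src_nxt' _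
      rw [← h3, he0] at h2
      exact hc h2
    · have h3 : T.tgt e0 = T.src ((T.st σ)^[i] d) := by rw [h1]; exact T.tgt_nxt2 _
      rw [ht0] at h3
      rcases Nat.eq_zero_or_pos i with h4 | h4
      · apply hne
        rw [h1, h4, T.nxt3]; rfl
      · exact h.2.2 i h4 hi h3.symm
  · have := dich hb h hN hN0 huo hcb hnl hu he0 hsw
    rw [hNe] at this
    exact absurd this (by decide)

end pot

end Vale.Agent.P148.R2.H400
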