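import Vale.Agent.P148.R2.H400.Flip2
import Vale.Agent.P148.R2.H838.Foot

/-!
# The white side of an excursion: fresh paths from the base, averaged form

* `bridge` : along the tour of `O = src d` a potential of the left walk up to the first return agrees
  with the potential of the class of `d`;
* `side_join` : a walk with fresh vertices of the minority colour from the tour interval of the
  excursion to a hugged vertex joins the base to the minority side of the excursion;
* `capture_lower` : averaged form.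
-/

namespace Vale.Agent.P148.R2.H400

open Function Vale.Agent.P148.R2.H258 Vale.Agent.P148.R2.H871 Vale.Agent.P148.R2.H838

variable {V D : Type*} {T : Tri V D} {σ : V → Bool} {d : D} {n : ℕ}

/-- The last dart before the first return is a member. -/
theorem IsRet.last_mem [Finite D] (hP : T.Planar) (hd : T.Mi σ d) (h : IsRet T σ d n)
    (hg : T.apex d ≠ T.src d) : T.Rel σ d ((T.st σ)^[n - 1] d) := by
  have h1 := h.1
  have hm : T.Mi σ ((T.st σ)^[n - 1] d) := by
    apply mi_of_ne T hd.bi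
    rw [Nat.sub_add_cancel h1]
    intro hh
    have h2 : T.src ((T.st σ)^[n - 1] d) = T.src d := by
      have : sa T σ d (n - 1) = sa T σ d n := hh.symm
      rw [show T.src ((T.st σ)^[n - 1] d) = sa T σ d (n - 1) from rfl, this]
      exact h.2.1
    rcases Nat.eq_zero_or_pos (n - 1) with h3 | h3
    · have h4 : n = 1 := by omega
      have h5 := h.2.1
      rw [h4, iterate_one, T.src_st_mi hd] at h5
      exact hg h5
    · exact h.2.2 (n - 1) h3 (by omega) h2
  rw [h.rel_iff hP hd]
  refine ⟨n - 1, by omega, rfl, hm, ?_⟩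
  intro i j a1 a2 a3 a4
  have h5 : j = n := by omega
  rw [h5]
  intro hh
  exact h.2.2 i a1 (by omega) (hh.trans h.2.1)

/-- The left walk up to the first return and the cycle of the class have the same darts at `O`. -/
theorem mem_lw_iff [Finite D] (hP : T.Planar) (hd : T.Mi σ d) (h : IsRet T σ d n)
    (hg : T.apex d ≠ T.src d) {e : D} (he : T.src e = T.src d ∨ T.tgt e = T.src d) :
    e ∈ T.lw σ d n ↔ T.InG σ d e := by
  rw [mem_lw]
  constructor
  · rintro ⟨i, hi, hm, rfl⟩
    rcases he with he | he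
    · rw [T.src_rev, T.tgt_nxt2] at he
      rcases Nat.eq_zero_or_pos i with h1 | h1
      · rw [h1]; exact T.inG_of_rel (T.rel_refl hd)
      · exact absurd he (h.2.2 i h1 hi)
    · rw [T.tgt_rev, T.src_nxt2] at he
      have h1 : T.src ((T.st σ)^[i + 1] d) = T.src d := by
        rw [iterate_succ', comp_apply, T.src_st_mi hm]; exact he
      have h2 : i = n - 1 := by
        by_contra h3
        exact h.2.2 (i + 1) (by omega) (by omega) h1
      rw [h2]
      exact T.inG_of_rel (h.last_mem hP hd hg)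
  · rintro ⟨g, hg', rfl⟩
    obtain ⟨k, hk, rfl⟩ := h.mem_lt hg'
    exact ⟨k, hk, hg'.2.1, rfl⟩

/-- **Bridge** between a potential of the left walk and the potential of the class, on the tour. -/
theorem bridge [Finite D] (hP : T.Planar) (hd : T.Mi σ d) (h : IsRet T σ d n)
    (hg : T.apex d ≠ T.src d) {N : D → ZMod 2} (hN : T.Pot (T.lw σ d n) N) (hN0 : N d = 0) (j : ℕ) :
    N ((tour T (T.src d))^[j] d) = T.pot σ d ((tour T (T.src d))^[j] d) := by
  classical
  obtain ⟨h0, l, hpot, -, -, hnd, hmem⟩ := T.pot_spec hP hd hg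
  have hdO : OutD T (T.src d) d := ⟨rfl, fun hh => hd.1 (by rw [hh])⟩
  have hmu : ∀ e, OutD T (T.src d) e →
      T.mu (T.lw σ d n) e = T.mu (T.rev (T.nxt (T.nxt d)) :: l) e := by
    intro e he
    have hc : ∀ e', (T.src e' = T.src d ∨ T.tgt e' = T.src d) →
        (T.lw σ d n).count e' = (T.rev (T.nxt (T.nxt d)) :: l).count e' := by
      intro e' he'
      have h1 := mem_lw_iff hP hd h hg he'
      have h2 := hmem e'
      by_cases h3 : T.InG σ d e'
      · rw [List.count_eq_one_of_mem (lw_nodup h.le_per) (h1.2 h3),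
          List.count_eq_one_of_mem (List.Nodup.of_map _ hnd) (h2.2 h3)]
      · rw [List.count_eq_zero_of_not_mem (fun h4 => h3 (h1.1 h4)),
          List.count_eq_zero_of_not_mem (fun h4 => h3 (h2.1 h4))]
    unfold Tri.mu
    rw [hc e (Or.inl he.1), hc (T.rev e) (Or.inr (by rw [T.tgt_rev]; exact he.1))]
  induction j with
  | zero => simpa using hN0.trans h0.symm
  | succ j ih =>
    have ho := tour_iter_out hdO j
    have hne : T.src ((tour T (T.src d))^[j] d) ≠ T.tgt ((tour T (T.src d))^[j] d) := by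
      rw [ho.1]; exact ho.2.symm
    have h1 := hN.2 _ (Or.inl hne)
    have h2 := hpot.2 _ (Or.inl hne)
    rw [hmu _ ho, ← h2, ih] at h1
    rw [iterate_succ', comp_apply, face_tour hN.1, face_tour hpot.1]
    exact add_left_cancel h1

/-- **Side lemma.** -/
theorem side_join [Finite D] (hP : T.Planar) (hd : T.Mi σ d) (hg : T.apex d ≠ T.src d)
    (h : IsRet T σ d n) (hnl : ∀ f, T.src f ≠ T.src d → T.tgt f ≠ T.src f) {j : ℕ}
    (hj0 : T.pot σ d ((tour T (T.src d))^[j + 1] d) = 0) (hj1 : (tour T (T.src d))^[j + 1] d ≠ d)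
    {w : V} {q : List D} (hq : T.Walk (T.tgt ((tour T (T.src d))^[j] d)) w q)
    (hw : w ∈ Old T σ d n) (hO : ∀ e ∈ q, T.tgt e ≠ T.src d)
    (hcol : ∀ v, (v = T.tgt ((tour T (T.src d))^[j] d) ∨ ∃ e ∈ q, T.src e = v) →
      v ∉ Old T σ d n → σ v = σ (T.tgt d)) :
    Joined T σ (σ (T.tgt d)) Set.univ (T.tgt d) (T.tgt ((tour T (T.src d))^[j] d)) := by
  obtain ⟨N, hN, hN0⟩ := T.exists_pot hP (u := T.src d) (l := T.lw σ d n)
    (by have := T.lw_walk hd.bi n; rwa [h.2.1] at this) d
  have hdO : OutD T (T.src d) d := ⟨rfl, fun hh => hd.1 (by rw [hh])⟩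
  have ho := tour_iter_out hdO j
  set b := (tour T (T.src d))^[j] d with hb
  have hNe : N (T.rev b) = 0 := by
    rw [← face_tour hN.1 (T.src d) b]
    have h1 := bridge hP hd h hg hN hN0 (j + 1)
    rw [iterate_succ', comp_apply] at h1 hj0
    rw [h1]; exact hj0
  by_cases hu : T.tgt b ∈ Old T σ d n
  · apply old_joined hd.bi hu
    apply start_col hd.bi h hN hN0 (u := T.tgt b) (e0 := T.rev b) ?_ hu ho.2 (T.src_rev b)
      (by rw [T.tgt_rev]; exact ho.1) ?_ hNe
    · intro f hf hh
      exact hnl f (by rw [hf]; exact ho.2) (by rw [hh, hf])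
    · intro hh
      apply hj1
      rw [iterate_succ', comp_apply]
      have ha : T.apex (T.rev b) ≠ T.src d := by
        rw [← T.tgt_nxt, hh]; exact hdO.2
      rw [tour_neg ha]; exact hh
  · exact fresh_join hd.bi h hN hN0 hnl hq hw hO
      (fun e he h1 => hcol _ (Or.inr ⟨e, he, rfl⟩) h1) hu (T.src_rev b) hNe

/-! ### averaged form -/

/-- Time of the first return. -/
noncomputable def ret [Finite D] (T : Tri V D) (σ : V → Bool) (d : D) : ℕ :=
  (exists_ret T σ d).choose

theorem ret_spec [Finite D] (T : Tri V D) (σ : V → Bool) (d : D) : IsRet T σ d (ret T σ d) :=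
  (exists_ret T σ d).choose_spec

/-- The vertices hugged up to the first return. -/
def Ex [Finite D] (T : Tri V D) (d : D) (σ : V → Bool) : Set V := Old T σ d (ret T σ d)

theorem ret_congr [Finite D] {σ' : V → Bool} (hσ : ∀ v ∈ Ex T d σ, σ' v = σ v) :
    ret T σ' d = ret T σ d :=
  (ret_spec T σ' d).unique ((ret_spec T σ d).congr hσ)

theorem ex_congr [Finite D] (d : D) (σ σ' : V → Bool) (hσ : ∀ v ∈ Ex T d σ, σ' v = σ v) :
    Ex T d σ' = Ex T d σ := by
  unfold Ex
  rw [ret_congr hσ]
  exact old_congr T hσ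

/-- The dart `d` starts an excursion from `src d`. -/
def Start (T : Tri V D) (σ : V → Bool) (d : D) : Prop := T.Mi σ d ∧ T.apex d ≠ T.src d

theorem start_congr [Finite D] {σ' : V → Bool} (hσ : ∀ v ∈ Ex T d σ, σ' v = σ v)
    (h : Start T σ d) : Start T σ' d :=
  ⟨(mi_congr h.1 hσ (k := 0) (ret_spec T σ d).1).2 h.1, h.2⟩

/-- The minority side of the excursion of `d` is joined to a dart of `J`. -/
def Cap (T : Tri V D) (J : Set D) (σ : V → Bool) (d : D) : Prop :=
  ∃ b ∈ J, Joined T σ (σ (T.tgt d)) Set.univ (T.tgt d) (T.tgt b)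

/-- The darts of `J` are strictly inside the tour interval of the excursion of `d`. -/
def Facing (T : Tri V D) (J : Set D) (σ : V → Bool) (d : D) : Prop :=
  ∀ b ∈ J, ∃ j, b = (tour T (T.src d))^[j] d ∧ T.pot σ d ((tour T (T.src d))^[j + 1] d) = 0 ∧
    (tour T (T.src d))^[j + 1] d ≠ d

/-- The fresh event: a path of the minority colour off the explored vertices, from the target of a
dart of `J` to an explored vertex. -/
def Net (T : Tri V D) (J : Set D) (O : V) (c : Bool) (A : Set V) (τ : V → Bool) : Prop :=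
  ∃ b ∈ J, ∃ w ∈ A, ∃ q, T.Walk (T.tgt b) w q ∧ (∀ e ∈ q, T.tgt e ≠ O) ∧
    ∀ v, (v = T.tgt b ∨ ∃ e ∈ q, T.src e = v) → v ∉ A → τ v = c

theorem facing_cap [Finite D] (hP : T.Planar) (hd : Start T σ d)
    (hnl : ∀ f, T.src f ≠ T.src d → T.tgt f ≠ T.src f) {J : Set D} (hJ : Facing T J σ d)
    (hN : Net T J (T.src d) (σ (T.tgt d)) (Ex T d σ) σ) : Cap T J σ d := by
  obtain ⟨b, hb, w, hw, q, hq, hO, hcol⟩ := hN
  obtain ⟨j, rfl, h1, h2⟩ := hJ b hb
  exact ⟨_, hb, side_join hP hd.1 hd.2 (ret_spec T σ d) hnl h1 h2 hq hw hO hcol⟩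

theorem pot_congr [Finite D] (hP : T.Planar) {σ' : V → Bool} (hd : Start T σ d)
    (hσ : ∀ v ∈ Ex T d σ, σ' v = σ v) (j : ℕ) :
    T.pot σ' d ((tour T (T.src d))^[j] d) = T.pot σ d ((tour T (T.src d))^[j] d) := by
  have hd' := start_congr hσ hd
  have hr := ret_spec T σ d
  have hr' := hr.congr hσ
  have hlw : T.lw σ' d (ret T σ d) = T.lw σ d (ret T σ d) := by
    have key : ∀ k ≤ ret T σ d, T.lw σ' d k = T.lw σ d k := by
      intro k
      induction k with
      | zero => intro _; rfl
      | succ k ih =>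
        intro hk
        have h1 := iter_congr T hσ k (by omega)
        have h2 := mi_congr hd.1 hσ (k := k) (by omega)
        unfold Tri.lw
        rw [ih (by omega), h1]
        by_cases h3 : T.Mi σ ((T.st σ)^[k] d)
        · rw [if_pos (h2.2 h3), if_pos h3]
        · rw [if_neg (fun h4 => h3 (h2.1 h4)), if_neg h3]
    exact key _ le_rfl
  obtain ⟨N, hN, hN0⟩ := T.exists_pot hP (u := T.src d) (l := T.lw σ d (ret T σ d))
    (by have := T.lw_walk hd.1.bi (ret T σ d); rwa [hr.2.1] at this) d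
  rw [← bridge hP hd.1 hr hd.2 hN hN0 j, ← bridge hP hd'.1 hr' hd'.2 (by rw [hlw]; exact hN) hN0 j]

theorem facing_congr [Finite D] (hP : T.Planar) {σ' : V → Bool} (hd : Start T σ d)
    (hσ : ∀ v ∈ Ex T d σ, σ' v = σ v) {J : Set D} (hJ : Facing T J σ d) : Facing T J σ' d := by
  intro b hb
  obtain ⟨j, h1, h2, h3⟩ := hJ b hb
  exact ⟨j, h1, by rw [pot_congr hP hd hσ]; exact h2, h3⟩

open Classical in
/-- **Averaged capture.** `F σ` is a nonnegative quantity attached to the excursion of `d`, determined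
by the colours of the vertices hugged up to the first return, which vanishes unless `d` starts an
excursion facing `J`; if the fresh event has probability at least `c` then the mean of `F` is at most
`1/c` times its mean on the event that the minority side is joined to `J`. -/
theorem capture_lower [Fintype V] [Finite D] (hP : T.Planar)
    (hnl : ∀ f, T.src f ≠ T.src d → T.tgt f ≠ T.src f) {J : Set D}
    {F : (V → Bool) → ℝ} (hF0 : ∀ σ, 0 ≤ F σ)
    (hF : ∀ σ σ', (∀ v ∈ Ex T d σ, σ' v = σ v) → F σ' = F σ)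
    (hst : ∀ σ, F σ ≠ 0 → Start T σ d ∧ Facing T J σ d) {c : ℝ}
    (hc : ∀ σ, F σ ≠ 0 → c ≤ pr (Net T J (T.src d) (σ (T.tgt d)) (Ex T d σ))) :
    c * ∑ σ : V → Bool, F σ ≤ ∑ σ : V → Bool, if Cap T J σ d then F σ else 0 := by
  have h1 := stop_lower (A := Ex T d) (ex_congr d) hF0 hF
    (N := fun σ τ => F σ ≠ 0 ∧ Net T J (T.src d) (σ (T.tgt d)) (Ex T d σ) τ)
    (by
      intro σ₀ σ₀' τ hσ
      rw [hF _ _ hσ, ex_congr d _ _ hσ, hσ (T.tgt d) ⟨0, by omega, Or.inr rfl⟩])
    (by
      intro σ₀ τ τ' hτ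
      have key : ∀ τ τ' : V → Bool, (∀ v ∉ Ex T d σ₀, τ' v = τ v) →
          Net T J (T.src d) (σ₀ (T.tgt d)) (Ex T d σ₀) τ →
          Net T J (T.src d) (σ₀ (T.tgt d)) (Ex T d σ₀) τ' := by
        rintro τ τ' hτ ⟨b, hb, w, hw, q, hq, hO, hcol⟩
        exact ⟨b, hb, w, hw, q, hq, hO, fun v hv h3 => by rw [hτ v h3]; exact hcol v hv h3⟩
      constructor
      · rintro ⟨h3, h4⟩
        exact ⟨h3, key τ' τ (fun v hv => (hτ v hv).symm) h4⟩
      · rintro ⟨h3, h4⟩
        exact ⟨h3, key τ τ' hτ h4⟩)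
    (c := c)
    (by
      intro σ hσ
      refine (hc σ hσ).trans (pr_mono ?_)
      intro τ h3
      exact ⟨hσ, h3⟩)
    (fun σ => Cap T J σ d)
    (by
      rintro σ ⟨h3, h4⟩
      obtain ⟨h5, h6⟩ := hst σ h3
      exact facing_cap hP h5 hnl h6 h4)
  exact h1

open Classical in
/-- The value of the excursion of `d`, squared, when `d` starts an excursion facing `J` which
satisfies a property determined by the explored vertices. -/
noncomputable def exVal [Fintype D] (T : Tri V D) (J : Set D) (G : (V → Bool) → D → Prop)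
    (Θ : D → ℂ) (σ : V → Bool) (d : D) : ℝ :=
  if Start T σ d ∧ Facing T J σ d ∧ G σ d then ‖T.cls σ d Θ‖ ^ 2 else 0

open Classical in
/-- Averaged capture for the energy of the excursions which start at `O` and face `J`. -/
theorem capture_energy [Fintype V] [Fintype D] (hP : T.Planar) {O : V}
    (hnl : ∀ f, T.src f ≠ O → T.tgt f ≠ T.src f) {J : Set D} (Θ : D → ℂ)
    {G : (V → Bool) → D → Prop}
    (hG : ∀ d σ σ', T.src d = O → (∀ v ∈ Ex T d σ, σ' v = σ v) → G σ d → G σ' d) {c : ℝ}
    (hc : ∀ d σ, T.src d = O → Start T σ d → Facing T J σ d → G σ d →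
      c ≤ pr (Net T J O (σ (T.tgt d)) (Ex T d σ))) :
    c * ∑ σ : V → Bool, ∑ d : D, (if T.src d = O then exVal T J G Θ σ d else 0) ≤
      ∑ σ : V → Bool, ∑ d : D, if T.src d = O ∧ Cap T J σ d then exVal T J G Θ σ d else 0 := by
  rw [Finset.sum_comm, Finset.sum_comm (s := Finset.univ (α := V → Bool)), Finset.mul_sum]
  apply Finset.sum_le_sum
  intro d _
  by_cases hdO : T.src d = O
  · simp only [hdO, if_true, true_and]
    refine capture_lower hP (by rw [hdO]; exact hnl) (F := fun σ => exVal T J G Θ σ d) ?_ ?_ ?_ ?_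
    · intro σ
      unfold exVal
      split_ifs <;> positivity
    · intro σ σ' hσ
      have hσ' : ∀ v ∈ Ex T d σ', σ v = σ' v := by
        rw [ex_congr d _ _ hσ]
        exact fun v hv => (hσ v hv).symm
      have key : (Start T σ' d ∧ Facing T J σ' d ∧ G σ' d) ↔
          (Start T σ d ∧ Facing T J σ d ∧ G σ d) := by
        constructor
        · rintro ⟨a1, a2, a3⟩
          exact ⟨start_congr hσ' a1, facing_congr hP a1 hσ' a2, hG d _ _ hdO hσ' a3⟩
        · rintro ⟨a1, a2, a3⟩
          exact ⟨start_congr hσ a1, facing_congr hP a1 hσ a2, hG d _ _ hdO hσ a3⟩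
      unfold exVal
      by_cases h1 : Start T σ d ∧ Facing T J σ d ∧ G σ d
      · rw [if_pos h1, if_pos (key.2 h1), (ret_spec T σ d).cls_congr hP h1.1.1 hσ Θ]
      · rw [if_neg h1, if_neg (fun h2 => h1 (key.1 h2))]
    · intro σ hσ
      by_contra h1
      apply hσ
      unfold exVal
      rw [if_neg]
      rintro ⟨a1, a2, -⟩
      exact h1 ⟨a1, a2⟩
    · intro σ hσ
      have h1 : Start T σ d ∧ Facing T J σ d ∧ G σ d := by
        by_contra h1
        apply hσ
        unfold exVal
        rw [if_neg h1]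
      rw [hdO]
      exact hc d σ hdO h1.1 h1.2.1 h1.2.2
  · simp [hdO]

end Vale.Agent.P148.R2.H400
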