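import Vale.Agent.P148.R2.H400.Flip3
import Vale.Agent.P148.R2.H203.T1
import Vale.Agent.P148.R2.H184.L4

/-!
# FLIP assembly

* `capture_family` : the excursions facing some arc of a finite family of arcs, against the
  captured ones;
* `sum_cls_le_tot`, `sum_class_le_MQ` : sums over pairwise unrelated darts;
* `captured_sum` : the excursions captured in one colouring, against the classes of the
  uncontracted triangulation which contain them.
-/

namespace Vale.Agent.P148.R2.H400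

open Function Vale.Agent.P148.R2.H258 Vale.Agent.P148.R2.H871 Vale.Agent.P148.R2.H838
open scoped ENNReal

variable {V V1 D : Type*} {T : Tri V D} {T1 : Tri V1 D} {π : V → V1}

theorem exVal_nonneg [Fintype D] (J : Set D) (G : (V → Bool) → D → Prop) (Θ : D → ℂ)
    (σ : V → Bool) (d : D) : 0 ≤ exVal T J G Θ σ d := by
  classical
  unfold exVal
  split_ifs <;> positivity

open Classical in
/-- **FLIP, averaged, finite family of arcs.** -/
theorem capture_family [Fintype V] [Fintype D] (hP : T.Planar) {O : V}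
    (hnl : ∀ f, T.src f ≠ O → T.tgt f ≠ T.src f) {ι : Type*} [Fintype ι] (J : ι → Set D)
    (Θ : D → ℂ) {G : (V → Bool) → D → Prop}
    (hG : ∀ d σ σ', T.src d = O → (∀ v ∈ Ex T d σ, σ' v = σ v) → G σ d → G σ' d) {c : ℝ}
    (hc0 : 0 ≤ c)
    (hc : ∀ i d σ, T.src d = O → Start T σ d → Facing T (J i) σ d → G σ d →
      c ≤ pr (Net T (J i) O (σ (T.tgt d)) (Ex T d σ))) :
    c * ∑ σ : V → Bool, ∑ d : D, (if T.src d = O ∧ Start T σ d ∧ G σ d ∧
        ∃ i, Facing T (J i) σ d then ‖T.cls σ d Θ‖ ^ 2 else 0) ≤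
      ∑ i, ∑ σ : V → Bool, ∑ d : D,
        if T.src d = O ∧ Cap T (J i) σ d then exVal T (J i) G Θ σ d else 0 := by
  have h1 : ∀ i, c * ∑ σ : V → Bool, ∑ d : D, (if T.src d = O then exVal T (J i) G Θ σ d else 0) ≤
      ∑ σ : V → Bool, ∑ d : D,
        if T.src d = O ∧ Cap T (J i) σ d then exVal T (J i) G Θ σ d else 0 :=
    fun i => capture_energy hP hnl Θ hG (fun d σ => hc i d σ)
  refine le_trans ?_ (Finset.sum_le_sum fun i _ => h1 i)
  rw [← Finset.mul_sum]
  apply mul_le_mul_of_nonneg_left _ hc0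
  have hsw : ∑ i, ∑ σ : V → Bool, ∑ d : D, (if T.src d = O then exVal T (J i) G Θ σ d else 0) =
      ∑ σ : V → Bool, ∑ d : D, ∑ i, (if T.src d = O then exVal T (J i) G Θ σ d else 0) := by
    rw [Finset.sum_comm]
    apply Finset.sum_congr rfl
    intro σ _
    rw [Finset.sum_comm]
  rw [hsw]
  apply Finset.sum_le_sum
  intro σ _
  apply Finset.sum_le_sum
  intro d _
  have h0 : ∀ i, 0 ≤ (if T.src d = O then exVal T (J i) G Θ σ d else 0) := by
    intro i
    split_ifs
    · exact exVal_nonneg _ _ _ _ _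
    · exact le_rfl
  by_cases h2 : T.src d = O ∧ Start T σ d ∧ G σ d ∧ ∃ i, Facing T (J i) σ d
  · rw [if_pos h2]
    obtain ⟨h3, h4, h5, i, h6⟩ := h2
    refine le_trans ?_ (Finset.single_le_sum (fun i _ => h0 i) (Finset.mem_univ i))
    rw [if_pos h3]
    unfold exVal
    rw [if_pos ⟨h4, h6, h5⟩]
  · rw [if_neg h2]
    exact Finset.sum_nonneg fun i _ => h0 i

/-! ### sums over pairwise unrelated darts -/

open Classical in
/-- A class functional summed over representatives. -/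
theorem sum_rep [Fintype D] {σ : V → Bool} {F : D → ℝ} (hF0 : ∀ e, 0 ≤ F e)
    (hFc : ∀ d e, T.Rel σ d e → F d = F e) (S : Finset D) (hS : ∀ d ∈ S, T.Mi σ d)
    (hd : ∀ d ∈ S, ∀ e ∈ S, T.Rel σ d e → d = e) :
    ∑ d ∈ S, F d ≤ ∑ e, if (∃ d ∈ S, T.Rel σ d e) then F e / H203.ncl T σ e else 0 := by
  have h1 : ∀ d ∈ S, F d = ∑ e, if T.Rel σ d e then F e / H203.ncl T σ e else 0 := by
    intro d hdS
    have hr := T.rel_refl (hS d hdS)
    have hn := H203.ncl_pos T σ hr
    have h2 : ∑ e, (if T.Rel σ d e then F e / H203.ncl T σ e else 0) =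
        ∑ e, (if T.Rel σ e d then (1 : ℝ) else 0) * (F d / H203.ncl T σ d) := by
      apply Finset.sum_congr rfl
      intro e _
      by_cases h3 : T.Rel σ d e
      · rw [if_pos h3, if_pos (T.rel_symm h3), one_mul, ← hFc d e h3,
          ← H203.ncl_congr T σ h3]
      · rw [if_neg h3, if_neg (fun h4 => h3 (T.rel_symm h4)), zero_mul]
    rw [h2, ← Finset.sum_mul]
    have h3 : ∑ e, (if T.Rel σ e d then (1 : ℝ) else 0) = H203.ncl T σ d := by
      unfold H203.ncl
      apply Finset.sum_congr rfl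
      intro e _
      congr
    rw [h3]
    field_simp
  rw [Finset.sum_congr rfl h1, Finset.sum_comm]
  apply Finset.sum_le_sum
  intro e _
  have hq : 0 ≤ F e / H203.ncl T σ e := div_nonneg (hF0 e) (H203.ncl_nonneg T σ e)
  by_cases h2 : ∃ d ∈ S, T.Rel σ d e
  · rw [if_pos h2]
    obtain ⟨d, hdS, hde⟩ := h2
    rw [Finset.sum_eq_single_of_mem d hdS]
    · rw [if_pos hde]
    · intro d' hd' hne
      rw [if_neg]
      intro h3
      exact hne (hd d' hd' d hdS (T.rel_trans h3 (T.rel_symm hde)))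
  · rw [if_neg h2]
    apply (Finset.sum_eq_zero _).le
    intro d hdS
    rw [if_neg]
    intro h3
    exact h2 ⟨d, hdS, h3⟩

theorem sat_union [Fintype D] {σ : V → Bool} (S : Finset D) :
    H203.Sat T σ (fun e => ∃ d ∈ S, T.Rel σ d e) := by
  rintro e f hef ⟨d, hd, hde⟩
  exact ⟨d, hd, T.rel_trans hde hef⟩

/-- The classes of pairwise unrelated darts, against the total energy of their union. -/
theorem sum_cls_le_tot [Fintype D] {σ : V → Bool} (S : Finset D) (hS : ∀ d ∈ S, T.Mi σ d)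
    (hd : ∀ d ∈ S, ∀ e ∈ S, T.Rel σ d e → d = e) (Θ : D → ℂ) :
    ∑ d ∈ S, ‖T.cls σ d Θ‖ ^ 2 ≤
      H203.tot T σ (H203.rs (fun e => ∃ d ∈ S, T.Rel σ d e) Θ) := by
  classical
  refine (sum_rep (F := fun d => ‖T.cls σ d Θ‖ ^ 2) (fun e => by positivity) ?_ S hS hd).trans ?_
  · intro d e hde
    rw [H203.cls_congr T σ hde]
  · rw [H203.tot_eq]
    apply Finset.sum_le_sum
    intro e _
    by_cases h : ∃ d ∈ S, T.Rel σ d e
    · rw [if_pos h, (sat_union (T := T) (σ := σ) S).cls_rs Θ h]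
    · rw [if_neg h]
      exact div_nonneg (by positivity) (H203.ncl_nonneg T σ e)

open Classical in
/-- The same for the local loops of a coloured configuration. -/
theorem sum_class_le_MQ {X Q : Set ℂ} {c : ℂ → Bool} {ι : Type*} (h3 : H592.Three X)
    (Q' : ι → Set ℂ) (Θ : H184.Dt → ℂ) (S : Finset H184.Dt)
    (hS : ∀ d ∈ S, ∀ e ∈ S, H184.Rl X Q c d e → d = e)
    (hd : ∀ d ∈ S, ∀ i, ¬ H184.InL X (Q' i) c d) :
    ∑ d ∈ S, ENNReal.ofReal (‖H184.W X Q c Θ d‖ ^ 2) ≤ H184.MQ X Q Q' c Θ := by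
  have hfin : ∀ d, (H184.cl X Q c d).Finite := fun d => H184.cl_finite h3 d
  have key : ∀ d ∈ S, ENNReal.ofReal (‖H184.W X Q c Θ d‖ ^ 2) =
      ∑ e ∈ (hfin d).toFinset, (if ∃ i, H184.InL X (Q' i) c e then 0 else
        ENNReal.ofReal (H184.gg X Q c Θ e)) := by
    intro d hdS
    have h1 : ∑ e ∈ (hfin d).toFinset, (if ∃ i, H184.InL X (Q' i) c e then 0 else
        ENNReal.ofReal (H184.gg X Q c Θ e)) =
        ∑ e ∈ (hfin d).toFinset, ENNReal.ofReal (H184.gg X Q c Θ d) := by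
      refine Finset.sum_congr rfl fun e he => ?_
      rw [(hfin d).mem_toFinset] at he
      rw [if_neg, H184.gg_class h3 Θ he]
      rintro ⟨i, hi⟩
      exact hd d hdS i (H184.InL.of_rl h3 ((show H184.Rl X Q c d e from he).symm h3) hi)
    rw [h1, Finset.sum_const, ← Set.ncard_eq_toFinset_card _ (hfin d), nsmul_eq_mul,
      ← ENNReal.ofReal_natCast, ← ENNReal.ofReal_mul (Nat.cast_nonneg _)]
    by_cases hne : (H184.cl X Q c d).Nonempty
    · have hk : 0 < (H184.cl X Q c d).ncard := (Set.ncard_pos (hfin d)).2 hne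
      congr 1
      unfold H184.gg
      have : ((H184.cl X Q c d).ncard : ℝ) ≠ 0 := by exact_mod_cast hk.ne'
      field_simp
    · rw [Set.not_nonempty_iff_eq_empty] at hne
      unfold H184.W
      rw [hne]
      simp
  rw [Finset.sum_congr rfl key, ← Finset.sum_biUnion]
  · exact ENNReal.sum_le_tsum _
  · intro d hdS e heS hne
    change Disjoint _ _
    rw [Finset.disjoint_left]
    intro f hf hf'
    rw [(hfin d).mem_toFinset] at hf
    rw [(hfin e).mem_toFinset] at hf'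
    exact hne (hS d hdS e heS
      ((show H184.Rl X Q c d f from hf).trans h3 ((show H184.Rl X Q c e f from hf').symm h3)))

/-! ### captured excursions in one colouring -/

/-- A family of captured excursions. -/
structure CapFam (T : Tri V D) (T1 : Tri V1 D) (π : V → V1) (O : V1) (σ1 : V1 → Bool)
    (σ : V → Bool) (S : Finset D) (g : D → D) (H : D → List D) : Prop where
  cap : ∀ d ∈ S, Captured T T1 π O σ1 σ d (g d) (H d)
  nbi : ∀ d ∈ S, ∀ e ∈ H d, ¬ T1.Bi σ1 e

/-- Different excursions are captured by different classes. -/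
theorem CapFam.inj [Finite D] (hP : T.Planar) (hP1 : T1.Planar) (hC : Contr T T1 π) {O : V1}
    {σ1 : V1 → Bool} {σ : V → Bool} {S : Finset D} {g : D → D} {H : D → List D}
    (h : CapFam T T1 π O σ1 σ S g H) : ∀ d ∈ S, ∀ e ∈ S, T.Rel σ d e → d = e := by
  intro d hd e he hde
  have h1 := h.cap d hd
  have h2 := h.cap e he
  rcases (h1.rel_iff hP hP1 hC e).1 hde with h3 | h3
  · have hnd : T1.apex d ≠ T1.src d := by rw [h1.src]; exact h1.apex
    obtain ⟨m, f, hm, hf0, hfm, hs, hinj, hrel, -⟩ := T1.class_cycle hP1 h1.mem.1 hnd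
    obtain ⟨i, hi, rfl⟩ := (hrel e).1 h3
    have h4 : T1.src (f i) = T1.src (f 0) := by rw [h2.src, hf0, h1.src]
    have h5 := hinj i hi 0 (by omega) h4
    rw [h5, hf0]
  · exact absurd h2.mem.1.bi (h.nbi d hd e h3)

theorem CapFam.mi [Finite D] (hP : T.Planar) (hP1 : T1.Planar) (hC : Contr T T1 π) {O : V1}
    {σ1 : V1 → Bool} {σ : V → Bool} {S : Finset D} {g : D → D} {H : D → List D}
    (h : CapFam T T1 π O σ1 σ S g H) : ∀ d ∈ S, T.Mi σ d := by
  intro d hd
  have h1 := h.cap d hd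
  exact (((h1.rel_iff hP hP1 hC d).2 (Or.inl (T1.rel_refl h1.mem.1)))).1

/-- **Captured excursions against plane classes and closing chains.** -/
theorem CapFam.sum_le [Fintype D] (hP : T.Planar) (hP1 : T1.Planar) (hC : Contr T T1 π) {O : V1}
    {σ1 : V1 → Bool} {σ : V → Bool} {S : Finset D} {g : D → D} {H : D → List D}
    (h : CapFam T T1 π O σ1 σ S g H) (Θ : D → ℂ) :
    ∑ d ∈ S, ‖T1.cls σ1 d Θ‖ ^ 2 ≤
      2 * ∑ d ∈ S, ‖T.cls σ d Θ‖ ^ 2 + 2 * ∑ d ∈ S, ‖((H d).map Θ).sum‖ ^ 2 := by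
  rw [Finset.mul_sum, Finset.mul_sum, ← Finset.sum_add_distrib]
  apply Finset.sum_le_sum
  intro d hd
  have h1 := (h.cap d hd).cls_eq hP hP1 hC Θ
  have h2 : T1.cls σ1 d Θ = T.cls σ d Θ + -((H d).map Θ).sum := by rw [h1]; ring
  rw [h2]
  have := H203.sq_add_le (T.cls σ d Θ) (-((H d).map Θ).sum)
  rwa [norm_neg] at this

theorem CapFam.sum_le_tot [Fintype D] (hP : T.Planar) (hP1 : T1.Planar) (hC : Contr T T1 π)
    {O : V1} {σ1 : V1 → Bool} {σ : V → Bool} {S : Finset D} {g : D → D} {H : D → List D}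
    (h : CapFam T T1 π O σ1 σ S g H) (Θ : D → ℂ) :
    ∑ d ∈ S, ‖T1.cls σ1 d Θ‖ ^ 2 ≤
      2 * H203.tot T σ (H203.rs (fun e => ∃ d ∈ S, T.Rel σ d e) Θ) +
        2 * ∑ d ∈ S, ‖((H d).map Θ).sum‖ ^ 2 := by
  have h1 := h.sum_le hP hP1 hC Θ
  have h2 := sum_cls_le_tot S (h.mi hP hP1 hC) (h.inj hP hP1 hC) Θ
  linarith

end Vale.Agent.P148.R2.H400
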