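import Vale.Agent.P148.R2.H400.Flip12
import Vale.Agent.P148.R2.H320.NetT
import Vale.Agent.P148.R2.H172.Sc2
import Vale.Agent.P148.R2.H609.SFA3
import Vale.Agent.P148.R2.H291.EvW
import Vale.Agent.P148.R2.H995.CombRad

/-!
# The net constant for the middle of an arc (P148, row win)

`net_hc` : one world. `mid_gate` : the regions which meet the corridor of the arc `j` are far from
the ends of the arc. `net_ev` : lower bound of the net event, uniform in the mesh.
-/

set_option linter.unusedSectionVars false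

open Set Metric Function Filter
open scoped ENNReal

namespace Vale.Agent.P148.R2.H400

open H592 H184 H203 H871 H838 Vale.Agent.P148.R2.H258 H910 H659 H566 H320 H995 H172
open Vale.Agent.P148.R2.N (ms nc gateC cellC csq ms_pos)
open Vale.Agent.P148.R2.H959 (reg)

/-- **Net for the captured excursions, one world.** -/
theorem net_hc {w : W0} (x₀ : w.X) [Fintype w.X] {ι : ℂ} (hι : Turn ι) {y wd δ c : ℝ}
    (hδ : 0 < δ) (hδ' : δ ≤ 1 / 8) (hy : |y| + wd ≤ 1 - 3 * δ) {J Jm : Set w.D}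
    (hJm : ∀ q : w.D, tail q ∈ w.B → head q ∉ w.B → tail q ∈ Cor ι (1 - 3 * δ) y wd → q ∈ Jm)
    (hI0 : ∀ z ∈ w.X, nsup z ≤ 1 - δ → z ∉ w.B) (hI1 : ∀ z ∈ w.X, z ∉ w.B → nsup z < 27 / 20)
    (hB : ∀ q : w.D, tail q ∈ w.B → head q ∉ w.B → 1 - δ < nsup (tail q))
    (hpr : c ≤ pr (fun τ' : w.X → Bool => NetEv w.X (whX w.X τ') ι y wd δ)) (τ : w.X → Bool)
    (d : w.D) (hd : w.cap J (s1 (secB x₀) w.O τ) d) :
    c ≤ pr (fun τ' : w.X → Bool => Net w.T Jm w.O false (Ex w.T d (s1 (secB x₀) w.O τ))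
      (s1 (secB x₀) w.O τ')) := by
  obtain ⟨h1, h2, -, -, e, h5, h6⟩ := hd
  have h7 : head e ∈ Asq := (LF.mem h6).2.1
  have h8 := H609.nsup_Asq h7
  exact hpr.trans (pr_mono fun τ' hev => net_of_ev w.hull w.fib x₀ hι hδ hδ' hy hJm hI0 hI1 hB
    h1 h2 h5 (by linarith) hev)

/-! ### geometry -/

/-- The turn of the side of the arc `j`. -/
noncomputable def aι (N j : ℕ) : ℂ := (-Complex.I) ^ (j / (N + 1))

/-- The height of the middle of the arc `j`. -/
noncomputable def ay (N j : ℕ) : ℝ := -1 + (2 * ((j % (N + 1) : ℕ) : ℝ) + 1) / (N + 1)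

/-- The half width of the corridor. -/
noncomputable def aw (N : ℕ) : ℝ := 1 / (6 * (N + 1))

/-- The depth of the net. -/
noncomputable def aδ (N : ℕ) : ℝ := 1 / (8 * (N + 1))

theorem turn_aι (N j : ℕ) : Turn (aι N j) := by
  unfold aι
  have h : ∀ n : ℕ, Turn ((-Complex.I) ^ n) := by
    intro n
    induction n with
    | zero => left; simp
    | succ n ih =>
      rw [pow_succ]
      rcases ih with h | h | h | h <;> rw [h]
      · right; right; right; ring
      · left; rw [mul_neg, Complex.I_mul_I]; ring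
      · right; left; ring
      · right; right; left; rw [neg_mul_neg, Complex.I_mul_I]
  exact h _

theorem aw_pos (N : ℕ) : 0 < aw N := by unfold aw; positivity

theorem aδ_pos (N : ℕ) : 0 < aδ N := by unfold aδ; positivity

theorem aδ_le (N : ℕ) : aδ N ≤ 1 / 8 := by
  unfold aδ
  have h : (0 : ℝ) ≤ N := N.cast_nonneg
  rw [div_le_div_iff₀ (by positivity) (by norm_num)]
  linarith

theorem ay_le (N j : ℕ) : |ay N j| + aw N ≤ 1 - 3 * aδ N := by
  have hr : j % (N + 1) ≤ N := Nat.lt_succ_iff.1 (Nat.mod_lt j (Nat.succ_pos N))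
  have hr' : ((j % (N + 1) : ℕ) : ℝ) ≤ N := by exact_mod_cast hr
  have h0 : (0 : ℝ) ≤ ((j % (N + 1) : ℕ) : ℝ) := Nat.cast_nonneg _
  have hN : (0 : ℝ) < (N : ℝ) + 1 := by positivity
  unfold ay aw aδ
  generalize ((j % (N + 1) : ℕ) : ℝ) = r at *
  have e1 : (1 : ℝ) / (6 * (N + 1)) = (1 / 6) / (N + 1) := by field_simp
  have e2 : (1 : ℝ) / (8 * (N + 1)) = (1 / 8) / (N + 1) := by field_simp
  rw [e1, e2]
  have h1 : |(-1 : ℝ) + (2 * r + 1) / (N + 1)| ≤ 1 - 1 / (N + 1) := by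
    rw [abs_le]
    constructor
    · have : (1 : ℝ) / (N + 1) ≤ (2 * r + 1) / (N + 1) := by gcongr; linarith
      linarith
    · have : (2 * r + 1) / ((N : ℝ) + 1) ≤ 2 - 1 / (N + 1) := by
        rw [div_le_iff₀ hN, sub_mul, div_mul_cancel₀ _ hN.ne']
        linarith
      linarith
  have h2 : (1 : ℝ) / (N + 1) - (1 / 6) / (N + 1) - 3 * ((1 / 8) / (N + 1)) =
      (11 / 24) / (N + 1) := by ring
  have h3 : (0 : ℝ) < (11 / 24) / (N + 1) := by positivity
  linarith

theorem mid_arith {n M A B m s r rk : ℝ} (hn : 1 ≤ n) (hM : 60 * n ≤ M) (hr : r ≤ n - 1)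
    (hA1 : A * n ≤ (s * n + r) * (2 * M + 1)) (hA2 : (s * n + r) * (2 * M + 1) < (A + 1) * n)
    (hB1 : B * n ≤ (s * n + r + 1) * (2 * M + 1))
    (hB2 : (s * n + r + 1) * (2 * M + 1) < (B + 1) * n)
    (hm : A + 3 * m ≤ B) (l1 : (2 * r + 5 / 6) * M < (rk + 9 / 8) * n)
    (l2 : (rk - 1 / 8) * n < (2 * r + 7 / 6) * M) (hr0 : 0 ≤ r) :
    A + m + 7 < s * (2 * M + 1) + rk + 1 ∧ s * (2 * M + 1) + rk + m + 8 < B + 1 := by
  have hn0 : 0 < n := by linarith
  have h1 : 3 * m * n ≤ (B - A) * n := mul_le_mul_of_nonneg_right (by linarith) hn0.le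
  have h2 : (B - A) * n ≤ 2 * M + 1 + n := by linarith
  constructor
  · refine lt_of_mul_lt_mul_right (a := n) ?_ hn0.le
    linarith
  · refine lt_of_mul_lt_mul_right (a := n) ?_ hn0.le
    linarith

/-- The regions which meet the corridor of the arc `j` are far from the ends of the arc. -/
theorem mid_gate {N M : ℕ} (hNM : 60 * (N + 1) ≤ M) {j k m : ℕ} (hj : j < nA N) (hk : k < nc M)
    (hm : ga N M j + 3 * m ≤ ga N M (j + 1)) {z : ℂ} (hz : z ∈ reg M k)
    (hC : z ∈ Cor (aι N j) (1 - 3 * aδ N) (ay N j) (aw N)) :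
    ga N M j + m + 7 ≤ k ∧ k + m + 8 ≤ ga N M (j + 1) := by
  have hM : 0 < M := by omega
  have h0 := ms_pos hM
  have hMm : (M : ℝ) * ms M = 1 := Vale.Agent.P148.R2.N.M_mul_ms hM
  have hn : (1 : ℝ) ≤ (N : ℝ) + 1 := by
    have : (0 : ℝ) ≤ N := N.cast_nonneg
    linarith
  have hn0 : (0 : ℝ) < (N : ℝ) + 1 := by linarith
  have hNM' : 60 * ((N : ℝ) + 1) ≤ M := by exact_mod_cast hNM
  -- the corridor
  set s' := j / (N + 1) with hs'
  have hs4 : s' < 4 := by
    rw [hs']
    unfold nA at hj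
    exact Nat.div_lt_of_lt_mul (by rw [mul_comm]; exact hj)
  set r := j % (N + 1) with hr
  have hjr : j = s' * (N + 1) + r := by
    have := Nat.div_add_mod j (N + 1)
    rw [← hs', ← hr] at this
    rw [mul_comm]; exact this.symm
  have hrN : r ≤ N := Nat.lt_succ_iff.1 (Nat.mod_lt j (Nat.succ_pos N))
  obtain ⟨u, hu⟩ : ∃ u, u = (-Complex.I) ^ s' * z := ⟨_, rfl⟩
  have hzu : z = Complex.I ^ s' * u := by
    rw [hu, Vale.Agent.P148.R2.N.I_pow_mul_self_pow]
  have hC' : u ∈ Rc (1 - 3 * aδ N - 1 / 20) (27 / 20 + 1 / 20) (ay N j - aw N) (ay N j + aw N) := by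
    have h1 : aι N j * (z - 0) ∈ Rc (1 - 3 * aδ N - 1 / 20) (27 / 20 + 1 / 20)
      (ay N j - aw N) (ay N j + aw N) := hC
    rwa [sub_zero, aι, ← hs', ← hu] at h1
  obtain ⟨c1, -, c3, c4⟩ := hC'
  -- the region
  obtain ⟨w, hw⟩ := Vale.Agent.P148.R2.N.exists_eq_I_pow_mul (k / (2 * M + 1)) z
  set s := k / (2 * M + 1) with hs
  have hks : s < 4 := side_lt hk
  set rk := k % (2 * M + 1) with hrk
  have hkr : k = s * (2 * M + 1) + rk := by
    have := Nat.div_add_mod k (2 * M + 1)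
    rw [← hs, ← hrk] at this
    rw [mul_comm]; exact this.symm
  have hz1 := H959.reg_subset_csq hM k hz
  unfold cellC at hz1
  rw [hw, Vale.Agent.P148.R2.N.csq_I_pow, Vale.Agent.P148.R2.N.mem_csq, abs_lt, abs_lt] at hz1
  obtain ⟨⟨w1, w2⟩, w3, w4⟩ := hz1
  rw [← hrk] at w3 w4
  simp only at w1 w2 w3 w4
  have hy := ay_le N j
  have hyabs := abs_le.1 (show |ay N j| ≤ 1 - 3 * aδ N - aw N by linarith)
  have hδ8 := aδ_le N
  have hδ0 := aδ_pos N
  have hms : ms M / 8 ≤ 3 * aδ N := by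
    have h1 : 60 * ((N : ℝ) + 1) * ms M ≤ 1 := by
      calc 60 * ((N : ℝ) + 1) * ms M ≤ M * ms M := mul_le_mul_of_nonneg_right hNM' h0.le
        _ = 1 := hMm
    have h2 : aδ N * (8 * ((N : ℝ) + 1)) = 1 := by
      unfold aδ
      field_simp
    nlinarith
  rcases two_frames hks hs4 (hw.symm.trans hzu) with ⟨e1, e2⟩ | e | e | e
  · -- the same side
    subst e2
    have hA1 : ga N M j * (N + 1) ≤ j * (2 * M + 1) := Nat.div_mul_le_self _ _
    have hA2 : j * (2 * M + 1) < (ga N M j + 1) * (N + 1) := by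
      rw [mul_comm (ga N M j + 1)]
      exact Nat.lt_mul_div_succ (j * (2 * M + 1)) (Nat.succ_pos N)
    have hB1 : ga N M (j + 1) * (N + 1) ≤ (j + 1) * (2 * M + 1) := Nat.div_mul_le_self _ _
    have hB2 : (j + 1) * (2 * M + 1) < (ga N M (j + 1) + 1) * (N + 1) := by
      rw [mul_comm (ga N M (j + 1) + 1)]
      exact Nat.lt_mul_div_succ ((j + 1) * (2 * M + 1)) (Nat.succ_pos N)
    generalize ga N M j = A at *
    generalize ga N M (j + 1) = B at *
    have hA1' : (A : ℝ) * (N + 1) ≤ j * (2 * M + 1) := by exact_mod_cast hA1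
    have hA2' : (j : ℝ) * (2 * M + 1) < (A + 1) * (N + 1) := by exact_mod_cast hA2
    have hB1' : (B : ℝ) * (N + 1) ≤ (j + 1) * (2 * M + 1) := by exact_mod_cast hB1
    have hB2' : ((j : ℝ) + 1) * (2 * M + 1) < (B + 1) * (N + 1) := by exact_mod_cast hB2
    have hm' : (A : ℝ) + 3 * m ≤ B := by exact_mod_cast hm
    have hj' : (j : ℝ) = s * (N + 1) + r := by
      rw [e1]; exact_mod_cast hjr
    have hk' : (k : ℝ) = s * (2 * M + 1) + rk := by exact_mod_cast hkr
    have hrN' : (r : ℝ) ≤ N := by exact_mod_cast hrN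
    have hM0 : (0 : ℝ) < M := by exact_mod_cast hM
    have hyn : (ay N j + 1) * (N + 1) = 2 * r + 1 := by
      unfold ay
      rw [← hr]
      field_simp
      ring
    have hwn : aw N * (N + 1) = 1 / 6 := by
      unfold aw
      field_simp
    -- bounds for the remainder
    have l1 : (2 * (r : ℝ) + 5 / 6) * M < ((rk : ℝ) + 9 / 8) * (N + 1) := by
      have h1 : (ay N j - aw N + 1) < (ms M / 2 + rk * ms M) + 5 * ms M / 8 := by linarith
      have h2 : (ay N j - aw N + 1) * (N + 1) = 2 * r + 5 / 6 := by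
        have : (ay N j - aw N + 1) * ((N : ℝ) + 1) =
          (ay N j + 1) * (N + 1) - aw N * (N + 1) := by ring
        rw [this, hyn, hwn]; ring
      have h3 : (0 : ℝ) < (N + 1) * M := mul_pos hn0 hM0
      have h4 := mul_lt_mul_of_pos_right h1 h3
      have e3 : (ay N j - aw N + 1) * (((N : ℝ) + 1) * M) = (2 * (r : ℝ) + 5 / 6) * M := by
        rw [← h2]; ring
      have e4 : (ms M / 2 + rk * ms M + 5 * ms M / 8) * (((N : ℝ) + 1) * M) =
          ((rk : ℝ) + 9 / 8) * (N + 1) * (M * ms M) := by ring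
      rw [e3, e4, hMm, mul_one] at h4
      exact h4
    have l2 : ((rk : ℝ) - 1 / 8) * (N + 1) < (2 * (r : ℝ) + 7 / 6) * M := by
      have h1 : (ms M / 2 + rk * ms M) - 5 * ms M / 8 < ay N j + aw N + 1 := by linarith
      have h2 : (ay N j + aw N + 1) * (N + 1) = 2 * r + 7 / 6 := by
        have : (ay N j + aw N + 1) * ((N : ℝ) + 1) =
          (ay N j + 1) * (N + 1) + aw N * (N + 1) := by ring
        rw [this, hyn, hwn]; ring
      have h3 : (0 : ℝ) < (N + 1) * M := mul_pos hn0 hM0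
      have h4 := mul_lt_mul_of_pos_right h1 h3
      have e3 : (ay N j + aw N + 1) * (((N : ℝ) + 1) * M) = (2 * (r : ℝ) + 7 / 6) * M := by
        rw [← h2]; ring
      have e4 : (ms M / 2 + rk * ms M - 5 * ms M / 8) * (((N : ℝ) + 1) * M) =
          ((rk : ℝ) - 1 / 8) * (N + 1) * (M * ms M) := by ring
      rw [e3, e4, hMm, mul_one] at h4
      exact h4
    rw [hj'] at hA1' hA2' hB1' hB2'
    obtain ⟨g1, g2⟩ := mid_arith hn hNM' (by linarith) hA1' hA2' hB1' hB2' hm' l1 l2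
      (Nat.cast_nonneg _)
    rw [← hk'] at g1 g2
    constructor
    · have h3 : A + m + 7 < k + 1 := by exact_mod_cast g1
      omega
    · have h3 : k + m + 8 < B + 1 := by exact_mod_cast g2
      omega
  · exfalso
    rw [e] at w1
    simp only [Complex.mul_re, Complex.I_re, Complex.I_im] at w1
    linarith [hyabs.1]
  · exfalso
    rw [e] at w1
    simp only [Complex.neg_re] at w1
    linarith
  · exfalso
    rw [e] at w1
    simp only [Complex.mul_re, Complex.neg_re, Complex.neg_im, Complex.I_re, Complex.I_im] at w1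
    linarith [hyabs.2]

/-! ### probabilities -/

universe u

/-- **The net event of the arcs**: lower bound, uniform in the mesh. -/
theorem net_ev (N : ℕ) : ∃ c > 0, Ev.{u} fun T => ∀ (X : Set ℂ) [Fintype X],
    Win6 X (_root_.P148.pts T) → ∀ j < nA N,
    c ≤ pr (fun τ : X → Bool => NetEv X (whX X τ) (aι N j) (ay N j) (aw N) (aδ N)) := by
  obtain ⟨c, hc, h⟩ := net_pr_whp.{u} (aw_pos N) (aδ_pos N) (aδ_le N)
  refine ⟨c, hc, H291.ev_of_whp ?_⟩
  have h1 : ∀ j : Fin (nA N), ∀ᶠ m in F.whp.{u}, ∀ (X : Set ℂ) [Fintype X],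
      Win6 X (_root_.P148.pts m.2) →
      c ≤ pr (fun τ : X → Bool => NetEv X (whX X τ) (aι N j) (ay N j) (aw N) (aδ N)) := by
    intro j
    refine h (aι N j) (ay N j) (turn_aι N j) ?_
    have := ay_le N j
    have := aδ_pos N
    linarith
  filter_upwards [eventually_all.2 h1] with m hm X _ hX j hj
  exact hm ⟨j, hj⟩ X hX

end Vale.Agent.P148.R2.H400
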