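import Vale.Agent.P148.R2.H400.WinCell
import Vale.Agent.P148.R2.H172.Asm

/-!
# Row (win) of the scene of the comb (P148)

`rowWin` : the mean of the windows of the captured excursions tends to zero with the mesh.
-/

set_option linter.unusedSectionVars false

open Set Metric Function Filter
open scoped ENNReal NNReal

namespace Vale.Agent.P148.R2.H400

open H592 H184 H203 H871 H838 Vale.Agent.P148.R2.H258 H566 H172
open Vale.Agent.P148.R2.N (ms nc ms_pos)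
open Vale.Agent.P148.R2.H291 (SiteOK bR CT)
open Vale.Agent.P148.R2.H126 (kk)
open _root_.P148 _root_.P148.H729

universe u

/-- The bound of the mean of one window. -/
theorem sum_YY {c₀ c κ : ℝ} {ζ : ℂ} {Θ : Dt → ℂ} (hΘ : H184.Wt ζ κ Θ) {N M : ℕ} {T : Set Pt}
    (h : GoodT c₀ M T) (hc₀ : 0 < c₀) (hM : 0 < M) (hNM : 60 * (N + 1) ≤ M)
    (iX : Fintype (H291.site T 9)) (iD : Fintype (Fc (H291.site T 9) (bR 9) × ZMod 3))
    (iF : Fintype (H291.site T 9 → Bool)) {j : ℕ} (hj : j < nA N) (hc : 0 < c) {k : ℕ}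
    (hk : k < nc M) {E : ℝ} (hE : eX h.site.hull iD M Θ (ga N M j + k) ≤ E) :
    ∑ i, (fscOf hM h.site.hull).p i * YY hM h.site.hull iX iD iF Θ c N j k i ≤
      (ENNReal.ofReal c)⁻¹ * (2 * ENNReal.ofReal ((c₀ ^ 96)⁻¹ * (2 * E)) +
        2 * ENNReal.ofReal (1 / 4 * E)) := by
  classical
  have h120 : ga N M j + 120 ≤ ga N M (j + 1) := ga_add_le (by omega) j
  by_cases hg : ga N M (j + 1) - ga N M j ≤ kk M k + 1
  · have hkle := H126.kk_le hk
    have hY : ∀ i, (fscOf hM h.site.hull).p i * YY hM h.site.hull iX iD iF Θ c N j k i =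
        (ENNReal.ofReal c)⁻¹ * (2 * ((fscOf hM h.site.hull).p i *
          mWX hM h.site.hull iX iD iF Θ N j k i) +
          2 * ENNReal.ofReal (1 / 4 * eX h.site.hull iD M Θ (ga N M j + k)) *
            (fscOf hM h.site.hull).p i) := by
      intro i
      unfold YY
      rw [if_pos hg]
      ring
    rw [Finset.sum_congr rfl fun i _ => hY i, ← Finset.mul_sum, Finset.sum_add_distrib,
      ← Finset.mul_sum, ← Finset.mul_sum, h.sum_p hc₀ hM, mul_one]
    have hmean : ∑ i, (fscOf hM h.site.hull).p i * mWX hM h.site.hull iX iD iF Θ N j k i ≤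
        ENNReal.ofReal ((c₀ ^ 96)⁻¹ * (2 * eX h.site.hull iD M Θ (ga N M j + k))) := by
      have h1 := mean_WX hM h.site.hull (xb h.site.hull) (T := TX h.site.hull) iD iF
        (@instFintypeProd _ _ iF iF) (HullTri.planar258 _ _ _) hΘ.tau
        (Θ := Phk h.site.hull M Θ (ga N M j + k))
        (fun d => wt_rot h.site.hull _ _ (H488.cw_rot hΘ.rot) d) hc₀ (h.he hM).1 (h.he hM).2
        (L := Fintype.card (Fc (H291.site T 9) (bR 9) × ZMod 3)) (k := ga N M j + kk M k)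
        (a₁ := ga N M j + 6) (a₂ := ga N M (j + 1) - 6)
        (N := H409.NX (H291.site T 9) M 2 (ga N M j + kk M k)) (by omega) (by omega) (by omega)
        (by omega)
      refine le_trans (le_of_eq ?_) h1
      refine (sum_inst _ _ _).trans (Finset.sum_congr rfl fun i _ => ?_)
      exact congrArg (fun x => x * mWX hM h.site.hull iX iD iF Θ N j k i)
        (fscOf_p hM h.site.hull i)
    gcongr
    exact hmean.trans (ENNReal.ofReal_le_ofReal (by gcongr))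
  · have hY : ∀ i, YY hM h.site.hull iX iD iF Θ c N j k i = 0 := by
      intro i
      unfold YY
      rw [if_neg hg]
    refine le_trans (le_of_eq (Finset.sum_eq_zero fun i _ => ?_)) bot_le
    exact (congrArg (fun x => (fscOf hM h.site.hull).p i * x) (hY i)).trans (mul_zero _)

/-- The bound, as a real number. -/
theorem Z_eq {c c₀ E : ℝ} (hc : 0 < c) (hc₀ : 0 < c₀) (hE : 0 ≤ E) :
    (ENNReal.ofReal c)⁻¹ * (2 * ENNReal.ofReal ((c₀ ^ 96)⁻¹ * (2 * E)) +
        2 * ENNReal.ofReal (1 / 4 * E)) =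
      ENNReal.ofReal (c⁻¹ * ((4 * (c₀ ^ 96)⁻¹ + 1 / 2) * E)) := by
  have e2 : (2 : ℝ≥0∞) = ENNReal.ofReal 2 := by norm_num
  rw [e2, ← ENNReal.ofReal_inv_of_pos hc, ← ENNReal.ofReal_mul (by norm_num),
    ← ENNReal.ofReal_mul (by norm_num), ← ENNReal.ofReal_add (by positivity) (by positivity),
    ← ENNReal.ofReal_mul (by positivity)]
  congr 1
  ring

/-- **Row (win)**, one set of points. -/
theorem win_T {c₀ c κ : ℝ} {ζ : ℂ} {Θ : Dt → ℂ} (hΘ : H184.Wt ζ κ Θ) {N M : ℕ} {T : Set Pt}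
    (h : GoodT c₀ M T) (hc₀ : 0 < c₀) (hM : 0 < M) (hNM : 60 * (N + 1) ≤ M) (hc : 0 < c)
    (hnet : ∀ (X : Set ℂ) [Fintype X], H320.Win6 X (pts T) → ∀ j < nA N,
      c ≤ pr (fun τ : X → Bool => H320.NetEv X (H320.whX X τ) (aι N j) (ay N j) (aw N) (aδ N)))
    {E : ℝ} (hE0 : 0 ≤ E)
    (hE : ∀ w : W0, w.X = H291.site T 9 → w.b = bR 9 →
      ∀ (x₀ : w.X) k, ∑ q : w.D, ‖thk w x₀ M Θ k q‖ ^ 2 ≤ E) :
    (sc N M T).cm (fun i J => (fsc M T).wn N Θ i J) ≤
      nA N * (6 * (nc M * ENNReal.ofReal (c⁻¹ * ((4 * (c₀ ^ 96)⁻¹ + 1 / 2) * E)))) := by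
  classical
  show ((fsc M T).toA N).cm (fun i J => (fsc M T).wn N Θ i J) ≤ _
  rw [fsc_eq hM h.site]
  let iX : Fintype (H291.site T 9) := fX h.site.hull
  have iF : Fintype (H291.site T 9 → Bool) := inferInstance
  have hfin : Finite (Fc (H291.site T 9) (bR 9)) := h.site.hull.finite_Fc
  have iD : Fintype (Fc (H291.site T 9) (bR 9) × ZMod 3) := Fintype.ofFinite _
  have hwin : H320.Win6 (H291.site T 9) (pts T) := by
    intro z hz
    have h1 := h.site.agree (D := ball 0 6) (ball_subset_ball (by norm_num))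
    have h2 : z ∈ ball (0 : ℂ) 6 := by rw [mem_ball_zero_iff]; exact hz
    constructor
    · intro h3
      exact (h1.subset ⟨h3, h2⟩).1
    · intro h3
      exact (h1.superset ⟨h3, h2⟩).1
  have hnet' := hnet (H291.site T 9) hwin
  have hE' : ∀ m, eX h.site.hull iD M Θ m ≤ E := by
    intro m
    exact le_trans (le_of_eq (sum_inst _ _ _))
      (hE (H678.wd h.site.hull M (fun _ => true)) rfl rfl (xb h.site.hull) m)
  have main := cm_win_le ((fscOf hM h.site.hull).toA N)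
    (wn := fun i J => (fscOf hM h.site.hull).wn N Θ i J) (K := nc M) (C := 6)
    (Fk := fun i J k => FkO N J Θ k ((fscOf hM h.site.hull).fr i))
    (fun i _ J σ d _ => WO_le N J Θ _ σ d)
    (Y := fun i J k => YY hM h.site.hull iX iD iF Θ c N J k i)
    (fun i hi J k hk => ?_)
    (Z := ENNReal.ofReal (c⁻¹ * ((4 * (c₀ ^ 96)⁻¹ + 1 / 2) * E)))
    (fun J k hk => ?_)
  · rw [Fintype.card_fin] at main
    exact main
  · obtain ⟨F, hF⟩ := h.exists_fr hM hi (by omega)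
    show ((fscOf hM h.site.hull).w i).msum (arcO N J ((fscOf hM h.site.hull).fr i))
      (FkO N J Θ k ((fscOf hM h.site.hull).fr i)) ≤ _
    rw [hF]
    exact cell_le hΘ h hM hNM hi iX iD iF J.2 hc (hnet' J J.2) F
      ((fscOf hM h.site.hull).can i F hF) hk
  · exact (sum_YY hΘ h hc₀ hM hNM iX iD iF J.2 hc hk (hE' _)).trans_eq (Z_eq hc hc₀ hE0)

/-- **Row (win).** -/
theorem rowWin {κ : ℝ} {ζ : ℂ} {Θ : Dt → ℂ} (hΘ : H184.Wt ζ κ Θ) : H172.RowWin.{u} Θ := by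
  intro N ε hε
  obtain ⟨c₀, hc₀, hG⟩ := exists_goodT.{u}
  obtain ⟨c, hc, hnet⟩ := net_ev.{u} N
  have hCT : 0 ≤ CT κ 2 := CT_nonneg κ 2
  set K : ℝ := nA N * (6 * (12 * (c⁻¹ * ((4 * (c₀ ^ 96)⁻¹ + 1 / 2) * CT κ 2)))) with hK
  have hK0 : 0 ≤ K := by positivity
  filter_upwards [eventually_ge_atTop (60 * (N + 1)), eventually_ge_atTop (⌈K / ε⌉₊ + 1)]
    with M hM1 hM2
  have hM : 0 < M := by omega
  have h0 := ms_pos hM
  refine ⟨fun T => (GoodT c₀ M T ∧ ∀ (X : Set ℂ) [Fintype X], H320.Win6 X (pts T) → ∀ j < nA N,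
      c ≤ pr (fun τ : X → Bool => H320.NetEv X (H320.whX X τ) (aι N j) (ay N j) (aw N) (aδ N))) ∧
      (SiteOK T 9 (ms M / 1000) ∧ ∀ w : W0, w.X = H291.site T 9 → w.b = bR 9 →
      ∀ (x₀ : w.X) k, ∑ q : w.D, ‖thk w x₀ M Θ k q‖ ^ 2 ≤ CT κ (2 * ms M)),
    ((hG M hM).and hnet).and (ev_thk hΘ hM), EvMean.const fun T => iSup_le fun hT => ?_⟩
  obtain ⟨⟨h1, h2⟩, -, h3⟩ := hT
  have hE0 : 0 ≤ CT κ (2 * ms M) := by
    rw [CT_two]
    positivity
  refine (win_T hΘ h1 hc₀ hM hM1 hc h2 hE0 h3).trans ?_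
  have e1 : (nA N : ℝ≥0∞) = ENNReal.ofReal (nA N) := (ENNReal.ofReal_natCast _).symm
  have e2 : (nc M : ℝ≥0∞) = ENNReal.ofReal (nc M) := (ENNReal.ofReal_natCast _).symm
  have e3 : (6 : ℝ≥0∞) = ENNReal.ofReal 6 := by norm_num
  rw [e1, e2, e3, ← ENNReal.ofReal_mul (by positivity), ← ENNReal.ofReal_mul (by norm_num),
    ← ENNReal.ofReal_mul (by positivity)]
  apply ENNReal.ofReal_le_ofReal
  -- the number of cells times the square of the mesh
  have h4 : (nc M : ℝ) * ms M ^ 2 ≤ 12 * ms M := by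
    have h5 : (nc M : ℝ) ≤ 12 * M := by
      unfold nc
      push_cast
      have : (1 : ℝ) ≤ M := by exact_mod_cast hM
      linarith
    have h6 : (M : ℝ) * ms M = 1 := Vale.Agent.P148.R2.N.M_mul_ms hM
    calc (nc M : ℝ) * ms M ^ 2 ≤ 12 * M * ms M ^ 2 := by gcongr
      _ = 12 * (M * ms M) * ms M := by ring
      _ = 12 * ms M := by rw [h6]; ring
  have h7 : K * ms M ≤ ε := by
    have h8 : K / ε ≤ M := by
      have h9 := Nat.le_ceil (K / ε)
      have h10 : ((⌈K / ε⌉₊ + 1 : ℕ) : ℝ) ≤ M := by exact_mod_cast hM2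
      push_cast at h10
      linarith
    rw [div_le_iff₀ hε] at h8
    have h6 : (M : ℝ) * ms M = 1 := Vale.Agent.P148.R2.N.M_mul_ms hM
    calc K * ms M ≤ M * ε * ms M := by gcongr
      _ = M * ms M * ε := by ring
      _ = ε := by rw [h6, one_mul]
  refine le_trans ?_ h7
  rw [CT_two, hK]
  have h11 : 0 ≤ c⁻¹ * ((4 * (c₀ ^ 96)⁻¹ + 1 / 2) * CT κ 2) := by positivity
  calc (nA N : ℝ) * (6 * (nc M * (c⁻¹ * ((4 * (c₀ ^ 96)⁻¹ + 1 / 2) * (CT κ 2 * ms M ^ 2)))))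
      = nA N * (6 * ((nc M * ms M ^ 2) * (c⁻¹ * ((4 * (c₀ ^ 96)⁻¹ + 1 / 2) * CT κ 2)))) := by ring
    _ ≤ nA N * (6 * ((12 * ms M) * (c⁻¹ * ((4 * (c₀ ^ 96)⁻¹ + 1 / 2) * CT κ 2)))) := by gcongr
    _ = _ := by ring

end Vale.Agent.P148.R2.H400
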