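import Vale.Agent.P148.R2.H400.NetArc
import Vale.Agent.P148.R2.H400.Flip14
import Vale.Agent.P148.R2.H172.Sc6
import Vale.Agent.P148.R2.H112.Seg

/-!
# Row (win): nets of the arcs of the scene of the comb (P148)

`Jmid F N j` : the darts of the middle part of the arc `j` of a frame.
`arc_mid` : a dart into the free region with tail in the corridor of the arc is in the middle part.
`free_in` : the sites inside are free.
`net_frame` : lower bound of the net in a world of positive weight.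
-/

set_option linter.unusedSectionVars false

open Set Metric Function Filter
open scoped ENNReal

namespace Vale.Agent.P148.R2.H400

open H592 H184 H203 H871 H838 Vale.Agent.P148.R2.H258 H910 H659 H566 H320 H995 H172
open Vale.Agent.P148.R2.N (ms nc gateC cellC csq ms_pos)
open Vale.Agent.P148.R2.H959 (reg)
open Vale.Agent.P148.R2.H609 (Bq piX)
open Vale.Agent.P148.R2.H291 (SiteOK bR)
open _root_.P148 _root_.P148.H729

/-- The darts of the middle part of the arc `j`. -/
def Jmid {M : ℕ} {w : W0} {x₀ : w.X} {col : w.X → Bool} (F : Frame M w x₀ col) (N j : ℕ) :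
    Set w.D :=
  {q | q ∈ F.arc N j ∧ ∃ i, F.t (ga N M j + 7) ≤ i ∧ i ≤ F.t (ga N M (j + 1) - 7) ∧
    tail q = tail (((H609.TP w x₀).st col)^[i] F.o)}

theorem Jmid_sub {M : ℕ} {w : W0} {x₀ : w.X} {col : w.X → Bool} {F : Frame M w x₀ col}
    {N j : ℕ} : Jmid F N j ⊆ F.arc N j := fun _ h => h.1

/-- **Boundary darts in the corridor of the arc are in its middle part.** -/
theorem arc_mid {M : ℕ} {w : W0} {x₀ : w.X} {col : w.X → Bool} (F : Frame M w x₀ col) {N j : ℕ}
    (hNM : 60 * (N + 1) ≤ M) (hj : j < nA N) (q : w.D) (h1 : tail q ∈ w.B) (h2 : head q ∉ w.B)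
    (hq : tail q ∈ Cor (aι N j) (1 - 3 * aδ N) (ay N j) (aw N)) : q ∈ Jmid F N j := by
  have hX1 : tail q ∈ w.X := (w.hull.nbr_th q).1
  have hX2 : head q ∈ w.X := (w.hull.nbr_th q).2.1
  have hO : w.T.src q = w.O := (H609.pi_B hX1).2 h1
  have hO2 : w.π (head q) ≠ w.O := fun h => h2 ((H609.pi_B hX2).1 h)
  have hO3 : w.T.tgt q ≠ w.O := by rw [H609.tgt_w]; exact hO2
  -- the tail is a source of the main cycle
  obtain ⟨i, hi, hi2⟩ := F.loop.ring.ring q
    (by
      show w.π ((H609.TP w x₀).src q).1 = w.O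
      rw [src0]
      exact hO)
    (by
      show w.π ((H609.TP w x₀).tgt q).1 ≠ w.O
      rw [H609.tgt_TP]
      exact hO2)
  have hit := F.loop.hit i hi
  have htail : tail q = tail (((H609.TP w x₀).st col)^[F.tm i] F.o) := by
    rw [hit, ← src0 (x₀ := x₀) (h := w.hull) (q := q), ← src0 (x₀ := x₀) (h := w.hull) (q := F.c i)]
    exact congrArg Subtype.val hi2
  obtain ⟨k, hk1, hk2⟩ := F.lt.loc (F.tm i)
  have hkK : k < nc M := by
    by_contra hc
    have h3 := F.lt.mono (show nc M ≤ k by omega)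
    have h4 := F.loop.lt i hi
    rw [← F.per_eq] at h4
    omega
  have hreg : tail q ∈ reg M k := by
    have h3 := (F.seen k _ hk1 hk2).1
    rw [src0] at h3
    rw [htail]
    exact h3
  have h21 : ga N M j + 3 * 7 ≤ ga N M (j + 1) := ga_add_le (by omega) j
  obtain ⟨h5, h6⟩ := mid_gate hNM hj hkK h21 hreg hq
  refine ⟨⟨⟨hO, hO3⟩, i, hi, ?_, ?_, ?_⟩, F.tm i, ?_, ?_, htail⟩
  · exact (F.lt.mono (show ga N M j ≤ k by omega)).trans hk1
  · exact hk2.trans_le (F.lt.mono (show k + 1 ≤ ga N M (j + 1) by omega))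
  · rw [htail, hit]
  · exact (F.lt.mono (show ga N M j + 7 ≤ k by omega)).trans hk1
  · exact hk2.le.trans (F.lt.mono (show k + 1 ≤ ga N M (j + 1) - 7 by omega))

/-- **The sites inside are free.** -/
theorem free_in {M : ℕ} {T : Set Pt} {E B : Set ℂ} {s : ℂ → Bool} (hM : 0 < M)
    (hS : SiteOK T 9 (ms M / 1000)) (hW : H678.WD M (H291.site T 9) (bR 9) s E B) {z : ℂ}
    (hz : z ∈ H291.site T 9) (hz2 : nsup z ≤ 1 - ms M / 8 - ms M / 32) : z ∉ B := by
  have h0 := ms_pos hM
  have hm : ms M ≤ 1 := Vale.Agent.P148.R2.N.ms_le_one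
  have h1 := H112.inner_mem (X := H291.site T 9) (E := E) (I := H291.site T 9 \ B) (ρ := ms M / 64)
    hM hS.hull.fin (by positivity) le_rfl
    (fun y hy => by
      have h2 : y ∈ closedBall (0 : ℂ) (9 - 1) := by
        rw [mem_closedBall_zero_iff]
        have := H291.norm_le_nsup y
        linarith
      obtain ⟨u, hu, hyu⟩ := hS.net (ρ := ms M / 128) (by linarith) y h2
      exact ⟨u, hu, by rw [dist_comm]; linarith⟩)
    hW.E_nsup
    (fun y hy hy2 => ⟨hy, hW.ball_free _ le_rfl y hy (by rw [mem_ball_zero_iff]; exact hy2)⟩)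
    (fun u hu v huv hv => by
      have hvX : v ∈ H291.site T 9 := huv.2.1
      refine ⟨hvX, fun hvB => hv (hW.bdry u v hu.2 huv hvB).1⟩)
    hz (by linarith)
  exact h1.2

/-- **The net of the captured excursions, in a world of positive weight.** -/
theorem net_frame {c₀ c : ℝ} {N M : ℕ} {T : Set Pt} (h : GoodT c₀ M T) (hM : 0 < M)
    (hNM : 60 * (N + 1) ≤ M) {i : (H291.site T 9 → Bool) × (H291.site T 9 → Bool)}
    (hi : (fscOf hM h.site.hull).p i ≠ 0) [Fintype (H291.site T 9)] {j : ℕ} (hj : j < nA N)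
    (hnet : c ≤ pr (fun τ : H291.site T 9 → Bool =>
      NetEv (H291.site T 9) (whX (H291.site T 9) τ) (aι N j) (ay N j) (aw N) (aδ N)))
    (F : Frame M ((fscOf hM h.site.hull).w i) ((fscOf hM h.site.hull).x₀ i)
      ((fscOf hM h.site.hull).col i)) (J : Set ((fscOf hM h.site.hull).w i).D)
    (τ : H291.site T 9 → Bool) (d : ((fscOf hM h.site.hull).w i).D)
    (hd : ((fscOf hM h.site.hull).w i).cap J
      (s1 (secB ((fscOf hM h.site.hull).x₀ i)) ((fscOf hM h.site.hull).w i).O τ) d) :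
    c ≤ pr (fun τ' : H291.site T 9 → Bool => Net ((fscOf hM h.site.hull).w i).T (Jmid F N j)
      ((fscOf hM h.site.hull).w i).O false
      (Ex ((fscOf hM h.site.hull).w i).T d
        (s1 (secB ((fscOf hM h.site.hull).x₀ i)) ((fscOf hM h.site.hull).w i).O τ))
      (s1 (secB ((fscOf hM h.site.hull).x₀ i)) ((fscOf hM h.site.hull).w i).O τ')) := by
  have hW := h.wdD hM hi
  have h0 := ms_pos hM
  have hms : 5 * ms M ≤ 4 * aδ N := by
    have h1 : (60 * ((N : ℝ) + 1)) ≤ M := by exact_mod_cast hNM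
    have h2 : 60 * ((N : ℝ) + 1) * ms M ≤ 1 := by
      calc 60 * ((N : ℝ) + 1) * ms M ≤ M * ms M := mul_le_mul_of_nonneg_right h1 h0.le
        _ = 1 := Vale.Agent.P148.R2.N.M_mul_ms hM
    have h3 : aδ N * (8 * ((N : ℝ) + 1)) = 1 := by
      unfold aδ
      field_simp
    have h4 : (0 : ℝ) < (N : ℝ) + 1 := by positivity
    by_contra hc
    push Not at hc
    nlinarith
  letI inst : Fintype ((fscOf hM h.site.hull).w i).X := inferInstanceAs (Fintype (H291.site T 9))
  refine net_hc (w := (fscOf hM h.site.hull).w i) ((fscOf hM h.site.hull).x₀ i) (turn_aι N j)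
    (aδ_pos N) (aδ_le N) (ay_le N j) (J := J) (fun q h1 h2 h3 => arc_mid F hNM hj q h1 h2 h3)
    (fun z hz hz2 => free_in hM h.site hW hz (by linarith))
    (fun z hz hz2 => ?_) (fun q h1 h2 => ?_) hnet τ d hd
  · have h1 := hW.free_nsup z hz hz2
    have h2 : ms M ≤ 1 / 2 := by
      have := aδ_le N
      linarith
    linarith
  · have h1 := hW.bdry (head q) (tail q) h2 (nbr_symm (((fscOf hM h.site.hull).w i).hull.nbr_th q)) h1
    have h3 := hW.E_nsup _ h1.1
    linarith

end Vale.Agent.P148.R2.H400
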