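import Vale.Agent.P148.R2.H172.Sc6
import Vale.Agent.P148.R2.H409.Wii
import Vale.Agent.P148.R2.H400.Flip7

/-!
# Row (win): the mean energy of the worlds with frozen far sets (P148)

`mean_WX` : helper409's quenched mean with the weights `pw` of the scene of the comb.
-/

set_option linter.unusedSectionVars false

open Set Metric Function Filter
open scoped ENNReal

namespace Vale.Agent.P148.R2.H400

open Vale.Agent.P148.R2.H592 (HullTri nbr Fc)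
open Vale.Agent.P148.R2.H258 (Tri)
open Vale.Agent.P148.R2.H172
open Vale.Agent.P148.R2.N (ms nc)
open Vale.Agent.P148.R2.H953 (glue ex)
open Vale.Agent.P148.R2.H532 (WX WX_nonneg)
open Vale.Agent.P148.R2.H126 (rf Rs)
open Vale.Agent.P148.R2.H409 (NX)

variable {X : Set ℂ} [Fintype X] {b : ZMod 3 → ℂ}

theorem ofReal_ex (iF : Fintype (X → Bool)) (f : (X → Bool) → ℝ) (hf : ∀ τ, 0 ≤ f τ) :
    (2 ^ Fintype.card X)⁻¹ * ∑ τ : X → Bool, ENNReal.ofReal (f τ) = ENNReal.ofReal (ex f) := by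
  unfold ex
  have h1 : (2 ^ Fintype.card X : ℝ≥0∞) = ENNReal.ofReal (2 ^ Fintype.card X) := by
    rw [ENNReal.ofReal_pow (by norm_num)]
    norm_num
  rw [← ENNReal.ofReal_sum_of_nonneg fun τ _ => hf τ, h1,
    ← ENNReal.ofReal_inv_of_pos (by positivity), ← ENNReal.ofReal_mul (by positivity),
    div_eq_inv_mul]
  exact congrArg (fun x => ENNReal.ofReal ((2 ^ Fintype.card X)⁻¹ * x)) (sum_inst _ _ _)

/-- The integrand. -/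
noncomputable def fWX {M : ℕ} (hM : 0 < M) (h : HullTri X b) (x₀ : X)
    (T : Tri X (Fc X b × ZMod 3)) (iD : Fintype (Fc X b × ZMod 3)) (Θ : Fc X b × ZMod 3 → ℂ)
    (L k a₁ a₂ : ℕ) (N : Set X) (c₁ c₂ c₃ : X → Bool) : ℝ :=
  WX T L N (rf h x₀ M ((gX hM X).w c₁ c₂) a₁, rf h x₀ M ((gX hM X).w c₁ c₂) a₂)
    ((gX hM X).w c₁ c₂) Θ
    (glue (Rs T L N (NX X M 3 k) (rf h x₀ M ((gX hM X).w c₁ c₂) a₁) ((gX hM X).w c₁ c₂))
      ((gX hM X).w c₁ c₂) c₃)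

theorem fWX_nonneg {M : ℕ} (hM : 0 < M) (h : HullTri X b) (x₀ : X)
    (T : Tri X (Fc X b × ZMod 3)) (iD : Fintype (Fc X b × ZMod 3)) (Θ : Fc X b × ZMod 3 → ℂ)
    (L k a₁ a₂ : ℕ) (N : Set X) (c₁ c₂ c₃ : X → Bool) :
    0 ≤ fWX hM h x₀ T iD Θ L k a₁ a₂ N c₁ c₂ c₃ := WX_nonneg _ _

/-- **The mean energy of the worlds with frozen far sets**, over the pairs of colourings. -/
theorem mean_WX {M : ℕ} (hM : 0 < M) (h : HullTri X b) (x₀ : X) {T : Tri X (Fc X b × ZMod 3)}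
    (iD : Fintype (Fc X b × ZMod 3)) (iF : Fintype (X → Bool))
    (iP : Fintype ((X → Bool) × (X → Bool))) (hP : T.Planar) {τ : ℂ} (hτ : τ ^ 2 + τ + 1 = 0)
    {Θ : Fc X b × ZMod 3 → ℂ} (hΘ : ∀ d, Θ (T.nxt d) = τ ^ 2 * Θ d) {c : ℝ} (hc : 0 < c)
    (hH : ∀ k < nc M, c ≤ H953.pr ((gX hM X).He k))
    (hC : ∀ k < nc M, c ≤ H953.pr ((gX hM X).Ce k))
    {L k a₁ a₂ : ℕ} {N : Set X} (h1 : a₁ + 4 ≤ k) (h2 : k + 5 ≤ a₁ + nc M) (h3 : a₂ + 4 ≤ k)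
    (h4 : k + 5 ≤ a₂ + nc M) :
    ∑ i : (X → Bool) × (X → Bool), pw (gX hM X) i * ((2 ^ Fintype.card X)⁻¹ *
      ∑ τ' : X → Bool, ENNReal.ofReal (fWX hM h x₀ T iD Θ L k a₁ a₂ N i.1 i.2 τ')) ≤
      ENNReal.ofReal ((c ^ 96)⁻¹ * (2 * ∑ d, ‖Θ d‖ ^ 2)) := by
  have key : (gX hM X).qe (fun c₁ c₂ => ex fun c₃ => fWX hM h x₀ T iD Θ L k a₁ a₂ N c₁ c₂ c₃) ≤
      (c ^ 96)⁻¹ * (2 * ∑ d, ‖Θ d‖ ^ 2) :=
    H409.qe_WX (L := L) (N := N) hM h x₀ hP hτ hΘ hc hH hC h1 h2 h3 h4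
  have e1 : ∀ i : (X → Bool) × (X → Bool), (2 ^ Fintype.card X)⁻¹ *
      ∑ τ' : X → Bool, ENNReal.ofReal (fWX hM h x₀ T iD Θ L k a₁ a₂ N i.1 i.2 τ') =
      ENNReal.ofReal (ex fun c₃ => fWX hM h x₀ T iD Θ L k a₁ a₂ N i.1 i.2 c₃) := fun i =>
    ofReal_ex iF _ fun τ' => fWX_nonneg _ _ _ _ _ _ _ _ _ _ _ _ _ _
  simp only [e1]
  have e2 := sum_pw_ofReal (gX hM X)
    (f := fun c₁ c₂ => ex fun c₃ => fWX hM h x₀ T iD Θ L k a₁ a₂ N c₁ c₂ c₃)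
    (fun c₁ c₂ => H953.ex_nonneg fun c₃ => fWX_nonneg _ _ _ _ _ _ _ _ _ _ _ _ _ _)
  exact (sum_inst _ _ _).trans_le (e2.trans_le (ENNReal.ofReal_le_ofReal key))

end Vale.Agent.P148.R2.H400
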