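import Vale.Agent.P148.R2.H400.WinArc
import Vale.Agent.P148.R2.H400.WinMean
import Vale.Agent.P148.R2.H126.Cell2
import Vale.Agent.P148.R2.H729.Wsum2
import Vale.Agent.P148.R2.H659.RowVal1

/-!
# Row (win): one arc and one cell (P148)

`Fk F N j Θ k` : the window of the cell `k` (counted from the first gate of the arc `j`).
`YY` : its bound. `cell_le` : the bound holds in the worlds of positive weight.
`wn_le` : the windows of the scene are at most `6` times the sum of the windows of the cells.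
-/

set_option linter.unusedSectionVars false

open Set Metric Function Filter
open scoped ENNReal

namespace Vale.Agent.P148.R2.H400

open H592 H184 H203 H871 H838 Vale.Agent.P148.R2.H258 H566 H172
open Vale.Agent.P148.R2.N (ms nc gateC cellC csq ms_pos)
open Vale.Agent.P148.R2.H959 (reg)
open Vale.Agent.P148.R2.H609 (Bq piX)
open Vale.Agent.P148.R2.H291 (SiteOK bR CT)
open Vale.Agent.P148.R2.H488 (cw hc)
open Vale.Agent.P148.R2.H126 (kk PE NR wnd wends wpart)
open Vale.Agent.P148.R2.H409 (NX RU)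
open Vale.Agent.P148.R2.H678 (wd)
open _root_.P148 _root_.P148.H729

/-! ### the sets -/

theorem NR_eq {M : ℕ} {X : Set ℂ} {m k : ℕ} (hmk : m ≤ k) : NR M X (k - m) (k + m) = NX X M m k := by
  ext v
  constructor
  · rintro ⟨j, h1, h2, h3⟩
    exact ⟨j, by omega, by omega, h3⟩
  · rintro ⟨j, h1, h2, h3⟩
    exact ⟨j, by omega, by omega, h3⟩

theorem Jmid_sub' {M : ℕ} {w : W0} {x₀ : w.X} {col : w.X → Bool} (F : Frame M w x₀ col)
    {N j : ℕ} : Jmid F N j ⊆ H126.Jmid F (ga N M j + 7) (ga N M (j + 1) - 7) := by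
  rintro q ⟨⟨⟨h1, h2⟩, -⟩, i, h3, h4, h5⟩
  refine ⟨h1, h2, i, h3, h4, Subtype.ext ?_⟩
  unfold sa
  rw [src0, src0]
  exact h5.symm

theorem cap_mono {V D : Type*} {T : Tri V D} {J J' : Set D} (h : J ⊆ J') {σ : V → Bool} {d : D}
    (hd : Cap T J σ d) : Cap T J' σ d := by
  obtain ⟨b, hb, h1⟩ := hd
  exact ⟨b, h hb, h1⟩

/-! ### the window of one cell -/

open Classical in
/-- The window of the cell `k`. -/
noncomputable def Fk {M : ℕ} {w : W0} {x₀ : w.X} {col : w.X → Bool} (F : Frame M w x₀ col)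
    (N j : ℕ) (Θ : Dt → ℂ) (k : ℕ) (σ : w.V → Bool) (d : w.D) : ℝ≥0∞ :=
  if PE F (ga N M j) k d (lst w.T σ d) then
    ENNReal.ofReal (‖((F.bH (ga N M j) d (lst w.T σ d)).map
      (thk w x₀ M Θ (ga N M j + k))).sum‖ ^ 2) else 0

/-- The window of the cell `k`, for a perhaps missing frame. -/
noncomputable def FkO {M : ℕ} {w : W0} {x₀ : w.X} {col : w.X → Bool} (N j : ℕ) (Θ : Dt → ℂ)
    (k : ℕ) : Option (Frame M w x₀ col) → (w.V → Bool) → w.D → ℝ≥0∞
  | none => fun _ _ => 0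
  | some F => Fk F N j Θ k

/-- **The windows of the scene.** -/
theorem WO_le {M : ℕ} {w : W0} {x₀ : w.X} {col : w.X → Bool} (N j : ℕ) (Θ : Dt → ℂ)
    (o : Option (Frame M w x₀ col)) (σ : w.V → Bool) (d : w.D) :
    WO N j Θ o σ d ≤ 6 * ∑ k ∈ Finset.range (nc M), FkO N j Θ k o σ d := by
  classical
  cases o with
  | none => exact bot_le
  | some F =>
    show ENNReal.ofReal (wnd _ _ _ _ _ _ _ _ σ d) ≤ 6 * ∑ k ∈ Finset.range (nc M), Fk F N j Θ k σ d
    unfold wnd
    rw [ENNReal.ofReal_mul (by norm_num), ENNReal.ofReal_sum_of_nonneg fun _ _ => by positivity,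
      show ENNReal.ofReal 6 = 6 by norm_num]
    gcongr
    have hsub : wends (H609.TP w x₀) w.T (nc M) (F.tb (ga N M j)) (F.bt (ga N M j)) (F.bc (ga N M j))
        (F.bn (ga N M j)) σ d ⊆ Finset.range (nc M) := by
      unfold wends H659.ends
      exact Finset.filter_subset _ _
    refine (Finset.sum_le_sum fun k hk => ?_).trans (Finset.sum_le_sum_of_subset hsub)
    unfold Fk
    rw [if_pos (show PE F (ga N M j) k d (lst w.T σ d) from hk)]
    exact le_rfl

/-! ### the bound -/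

/-- The weight of the cell `m`. -/
noncomputable def Phk {X : Set ℂ} {b : ZMod 3 → ℂ} (h : HullTri X b) (M : ℕ) (Θ : Dt → ℂ) (m : ℕ) :
    Fc X b × ZMod 3 → ℂ :=
  wt h (idmap X (xb h)) (fib_id X (xb h)) (cw (hc M m) Θ)

/-- The real triangulation. -/
noncomputable def TX {X : Set ℂ} {b : ZMod 3 → ℂ} (h : HullTri X b) : Tri X (Fc X b × ZMod 3) :=
  h.tri258 (idmap X (xb h)) (fib_id X (xb h))

/-- The mean energy of the world with frozen far sets. -/
noncomputable def mWX {X : Set ℂ} {b : ZMod 3 → ℂ} {M : ℕ} (hM : 0 < M) (h : HullTri X b)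
    (iX : Fintype X) (iD : Fintype (Fc X b × ZMod 3)) (iF : Fintype (X → Bool)) (Θ : Dt → ℂ)
    (N j k : ℕ) (i : (X → Bool) × (X → Bool)) : ℝ≥0∞ :=
  (2 ^ Fintype.card X)⁻¹ * ∑ τ' : X → Bool, ENNReal.ofReal
    (fWX hM h (xb h) (TX h) iD (Phk h M Θ (ga N M j + k)) (Fintype.card (Fc X b × ZMod 3))
      (ga N M j + kk M k) (ga N M j + 6) (ga N M (j + 1) - 6) (NX X M 2 (ga N M j + kk M k))
      i.1 i.2 τ')

/-- The energy of the weight of a cell. -/
noncomputable def eX {X : Set ℂ} {b : ZMod 3 → ℂ} (h : HullTri X b)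
    (iD : Fintype (Fc X b × ZMod 3)) (M : ℕ) (Θ : Dt → ℂ) (m : ℕ) : ℝ :=
  ∑ d, ‖Phk h M Θ m d‖ ^ 2

open Classical in
/-- The bound of the window of the cell `k`. -/
noncomputable def YY {X : Set ℂ} {b : ZMod 3 → ℂ} {M : ℕ} (hM : 0 < M) (h : HullTri X b)
    (iX : Fintype X) (iD : Fintype (Fc X b × ZMod 3)) (iF : Fintype (X → Bool)) (Θ : Dt → ℂ)
    (c : ℝ) (N j k : ℕ) (i : (X → Bool) × (X → Bool)) : ℝ≥0∞ :=
  if ga N M (j + 1) - ga N M j ≤ kk M k + 1 then
    (ENNReal.ofReal c)⁻¹ * (2 * mWX hM h iX iD iF Θ N j k i +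
      2 * ENNReal.ofReal (1 / 4 * eX h iD M Θ (ga N M j + k)))
  else 0

/-- The colour of the strand. -/
theorem frame_blk {M : ℕ} {T : Set Pt} {w : W0} {x₀ : w.X} {s : ℂ → Bool} {col : w.X → Bool}
    {E : Set ℂ} (hW : H678.WD M w.X (bR 9) s E w.B) (hs : ∀ v : w.X, s v.1 = col v)
    (F : Frame M w x₀ col) {q : w.D} (h1 : tail q ∈ w.B) (h2 : head q ∉ w.B) :
    col ((H609.TP w x₀).src F.o) = true := by
  have hX1 : tail q ∈ w.X := (w.hull.nbr_th q).1
  have hX2 : head q ∈ w.X := (w.hull.nbr_th q).2.1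
  obtain ⟨i, hi, hi2⟩ := F.loop.ring.ring q
    (by
      show w.π ((H609.TP w x₀).src q).1 = w.O
      rw [src0]
      exact (H609.pi_B hX1).2 h1)
    (by
      show w.π ((H609.TP w x₀).tgt q).1 ≠ w.O
      rw [H609.tgt_TP]
      exact fun h => h2 ((H609.pi_B hX2).1 h))
  have h3 := (hW.bdry (head q) (tail q) h2 (nbr_symm (w.hull.nbr_th q)) h1).2
  have h4 : col ((H609.TP w x₀).src q) = true := by
    rw [← hs, src0]
    exact h3
  rw [hi2, ← F.loop.hit i hi, (H609.TP w x₀).col_src_iter col] at h4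
  exact h4

theorem gp_le {w : W0} (Φ : w.D → ℂ) : w.Qt (H126.gp w.T Φ) ≤
    ENNReal.ofReal (1 / 4 * ∑ d, ‖Φ d‖ ^ 2) := by
  classical
  unfold W0.Qt
  apply ENNReal.ofReal_le_ofReal
  apply mul_le_mul_of_nonneg_left _ (by norm_num)
  refine Finset.sum_le_sum fun d _ => ?_
  unfold H126.gp rs
  split_ifs
  · exact le_rfl
  · simp

open Classical in
/-- **One arc and one cell**, in a world with a frame. -/
theorem cell_one {M : ℕ} {w : W0} {x₀ : w.X} {col : w.X → Bool} (F : Frame M w x₀ col)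
    (iX : Fintype w.X) (hM : 0 < M) {N j g k : ℕ} (hgg : ga N M (j + 1) = ga N M j + g)
    (hg : 14 ≤ g) (hk : k < nc M) (hkg : g ≤ kk M k + 1)
    (hblk : col ((H609.TP w x₀).src F.o) = true) {s : ℕ}
    (hs : ∀ i < F.bn (ga N M j), i < s ↔ F.bt (ga N M j) i < F.tb (ga N M j) g)
    (hs3 : F.arc N j = H659.arc (H609.TP w x₀) w.T w.O (F.bc (ga N M j)) s)
    (hne : (F.arc N j).Nonempty) {Φ : w.D → ℂ}
    (hgood : ∀ d, Φ d ≠ 0 → (H609.TP w x₀).Good d)
    (hsupp : ∀ d, ∀ j' < nc M, ((H609.TP w x₀).src d).1 ∈ reg M (ga N M j + j') → Φ d ≠ 0 →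
      H659.Nr (nc M) j' k)
    {ζ : ℂ} (hζ : ζ ^ 2 + ζ + 1 = 0) (hr : ∀ d, Φ (w.T.nxt d) = ζ ^ 2 * Φ d) {c : ℝ} (hc0 : 0 < c)
    (hnet : ∀ (τ : w.X → Bool) (d : w.D), w.cap (F.arc N j) (s1 (secB x₀) w.O τ) d →
      c ≤ pr (fun τ' : w.X → Bool => Net w.T (Jmid F N j) w.O false
        (Ex w.T d (s1 (secB x₀) w.O τ)) (s1 (secB x₀) w.O τ'))) :
    w.msum (F.arc N j) (fun σ d => if PE F (ga N M j) k d (lst w.T σ d) then
        ENNReal.ofReal (‖((F.bH (ga N M j) d (lst w.T σ d)).map Φ).sum‖ ^ 2) else 0) ≤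
      (ENNReal.ofReal c)⁻¹ * (2 * ((2 ^ Fintype.card w.X)⁻¹ * ∑ τ' : w.X → Bool, ENNReal.ofReal
        (H532.WX (H609.TP w x₀) (Fintype.card w.D) (NX w.X M 2 (ga N M j + kk M k))
          (F.ob (ga N M j + 6), F.ob (ga N M (j + 1) - 6)) col Φ
          (H953.glue (H126.Rs (H609.TP w x₀) (Fintype.card w.D) (NX w.X M 2 (ga N M j + kk M k))
            (NX w.X M 3 (ga N M j + kk M k)) (F.ob (ga N M j + 6)) col) col τ'))) +
        2 * w.Qt (H126.gp w.T Φ)) := by
  have hζ0 : ζ ≠ 0 := by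
    rintro rfl
    norm_num at hζ
  have hrot : ∀ d, Φ d ≠ 0 → Φ ((H609.TP w x₀).nxt d) ≠ 0 := by
    intro d hd
    have h1 : Φ ((H609.TP w x₀).nxt d) = ζ ^ 2 * Φ d := hr d
    rw [h1]
    exact mul_ne_zero (pow_ne_zero _ hζ0) hd
  refine msum_win_le (J := F.arc N j) x₀ (Jm := Jmid F N j) Jmid_sub
    (H := F.bH (ga N M j)) (P := PE F (ga N M j) k) hζ hr hc0
    (fun τ d hd _ => hnet τ d hd) (fun τ' => H532.WX_nonneg _ _) (fun τ' S hS => ?_)
  have hkpos := H126.kk_pos M k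
  have key := H126.frame_hB F hM hblk (a₀ := ga N M j) (g := g) (k := k) hg hk hkg
    (H126.per_le_card F) (si := s) hs (by rw [← hs3]; exact hne) (Φ := Φ) hgood hrot hsupp τ' S
    (fun d hd => by
      obtain ⟨h1, h2, h3⟩ := hS d hd
      refine ⟨by rw [← hs3]; exact h1, ?_, h3⟩
      refine cap_mono (J := Jmid F N j) ?_ h2
      have h4 := Jmid_sub' F (N := N) (j := j)
      rw [hgg] at h4
      exact h4)
  rw [show ga N M j + g - 6 = ga N M (j + 1) - 6 by rw [hgg],
    NR_eq (m := 2) (k := ga N M j + kk M k) (by omega),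
    NR_eq (m := 3) (k := ga N M j + kk M k) (by omega)] at key
  exact key

/-- **One arc and one cell**, in a world of positive weight. -/
theorem cell_le {c₀ c κ : ℝ} {ζ : ℂ} {Θ : Dt → ℂ} (hΘ : H184.Wt ζ κ Θ) {N M : ℕ} {T : Set Pt}
    (h : GoodT c₀ M T) (hM : 0 < M) (hNM : 60 * (N + 1) ≤ M)
    {i : (H291.site T 9 → Bool) × (H291.site T 9 → Bool)}
    (hi : (fscOf hM h.site.hull).p i ≠ 0) (iX : Fintype (H291.site T 9))
    (iD : Fintype (Fc (H291.site T 9) (bR 9) × ZMod 3)) (iF : Fintype (H291.site T 9 → Bool))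
    {j : ℕ} (hj : j < nA N) (hc : 0 < c)
    (hnet : c ≤ pr (fun τ : H291.site T 9 → Bool => H320.NetEv (H291.site T 9)
      (H320.whX (H291.site T 9) τ) (aι N j) (ay N j) (aw N) (aδ N)))
    (F : Frame M (wd h.site.hull M (mc M (H291.site T 9) i)) (xb h.site.hull)
      (mc M (H291.site T 9) i)) (hF : F.Can) {k : ℕ} (hk : k < nc M) :
    (wd h.site.hull M (mc M (H291.site T 9) i)).msum (F.arc N j) (Fk F N j Θ k) ≤
      YY hM h.site.hull iX iD iF Θ c N j k i := by
  classical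
  have hWD := h.wdD hM hi
  have hlast : ga N M (j + 1) ≤ nc M := by
    rw [← H172.ga_last (N := N)]
    exact H172.ga_mono hj
  have hgg : ga N M j ≤ ga N M (j + 1) := ga_mono (Nat.le_succ j)
  have h120 : ga N M j + 120 ≤ ga N M (j + 1) := ga_add_le (by omega) j
  obtain ⟨s, -, hs2, hs3⟩ := F.arc_eq hlast hgg
  obtain ⟨-, -, hne⟩ := H659.arc_ne h.site hM (N := N) (by omega) hi F hj
  have hs4 : F.arc N j = H659.arc (H609.TP (wd h.site.hull M (mc M (H291.site T 9) i)) (xb h.site.hull))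
      (wd h.site.hull M (mc M (H291.site T 9) i)).T (wd h.site.hull M (mc M (H291.site T 9) i)).O
      (F.bc (ga N M j)) s := hs3
  by_cases hg : ga N M (j + 1) - ga N M j ≤ kk M k + 1
  · -- the boundary dart
    obtain ⟨q₀, hq0⟩ := id hne
    obtain ⟨hq1, hq2⟩ := hq0.1
    have hq3 : tail q₀ ∈ (wd h.site.hull M (mc M (H291.site T 9) i)).B :=
      (H609.pi_B (w := wd h.site.hull M (mc M (H291.site T 9) i)) (h.site.hull.nbr_th q₀).1).1 hq1
    have hq4 : head q₀ ∉ (wd h.site.hull M (mc M (H291.site T 9) i)).B := fun hh => hq2 (by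
      rw [H609.tgt_w]
      exact (H609.pi_B (w := wd h.site.hull M (mc M (H291.site T 9) i))
        (h.site.hull.nbr_th q₀).2.1).2 hh)
    have hblk : mc M (H291.site T 9) i ((H609.TP (wd h.site.hull M (mc M (H291.site T 9) i))
        (xb h.site.hull)).src F.o) = true :=
      frame_blk (w := wd h.site.hull M (mc M (H291.site T 9) i)) (T := T) hWD (H678.cs_val _)
        F hq3 hq4
    have h0 := ms_pos hM
    have key := cell_one F iX hM (N := N) (j := j) (g := ga N M (j + 1) - ga N M j) (k := k)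
      (by omega) (by omega) hk hg hblk hs2 hs4 hne
      (Φ := thk (wd h.site.hull M (mc M (H291.site T 9) i)) (xb h.site.hull) M Θ (ga N M j + k))
      (fun d hd => good_of_thk hd)
      (fun d j' hj' hd hne' => world_supp (w := wd h.site.hull M (mc M (H291.site T 9) i))
        h.site rfl rfl (by norm_num) hM (a := ga N M j) (Θ := Θ) (q := d) (by linarith) hj' hk
        (by rw [src0] at hd; exact hd) (cw_of_thk hne'))
      hΘ.tau (fun d => thk_rot hΘ.rot d) hc
      (fun τ d hd => net_frame h hM hNM hi hj hnet F (F.arc N j) τ d hd)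
    unfold YY
    rw [if_pos hg]
    refine key.trans ?_
    have e6 : F.ob (ga N M j + 6) = H126.rf h.site.hull (xb h.site.hull) M
        (mc M (H291.site T 9) i) (ga N M j + 6) := hF _
    have e7 : F.ob (ga N M (j + 1) - 6) = H126.rf h.site.hull (xb h.site.hull) M
        (mc M (H291.site T 9) i) (ga N M (j + 1) - 6) := hF _
    rw [e6, e7]
    have eD : iD = (inferInstance : Fintype (wd h.site.hull M (mc M (H291.site T 9) i)).D) :=
      Subsingleton.elim _ _
    subst eD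
    gcongr
    · exact (avg_inst _ _ _ _ _).le
    · exact gp_le _
  · unfold YY
    rw [if_neg hg]
    have key : ∀ σ d, (wd h.site.hull M (mc M (H291.site T 9) i)).cap (F.arc N j) σ d →
        Fk F N j Θ k σ d ≤ (fun _ _ => 0 : ((wd h.site.hull M (mc M (H291.site T 9) i)).V → Bool) →
          (wd h.site.hull M (mc M (H291.site T 9) i)).D → ℝ≥0∞) σ d := by
      intro σ d hd
      obtain ⟨h1, h3, h4, -⟩ := hd
      rw [hs4] at h4 hne
      obtain ⟨iy, ix, h5, h6, h7, h8, h9, -⟩ := clH_of_ring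
        (H592.HullTri.planar258 _ _ _) (wd h.site.hull M (mc M (H291.site T 9) i)).planar
        (contrB h.site.hull (wd h.site.hull M (mc M (H291.site T 9) i)).fib (xb h.site.hull))
        (H659.injOff (wd h.site.hull M (mc M (H291.site T 9) i)) (xb h.site.hull))
        (F.base_loop (ga N M j)).ring noloop_TP h3 h1 h4 hne
      unfold Fk
      rw [if_neg (H126.PE_false F (by omega) (by omega) hs2 h5 h6 h7 h8 h9)]
    refine (W0.msum_mono key).trans (le_of_eq ?_)
    unfold W0.msum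
    simp

end Vale.Agent.P148.R2.H400
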